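import Mathlib

set_option linter.all false

/-!
# Existence of Brownian motion

Levy-Ciesielski construction of the Brownian bridge `b` on `[0,1)` from independent standard
Gaussians indexed by dyadic intervals, and `B t = (1 + t) b (t / (1 + t))`.
Main result: `Vale.Agent.P155.Tree.Bro.exists_isBrownianReal`.
-/

open MeasureTheory ProbabilityTheory Finset Filter Topology
open scoped NNReal ENNReal

namespace Vale.Agent.P155.Tree.Bro

noncomputable section

/-! ### Tent functions and the bridge kernel -/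

/-- tent function supported on `[0,1]` -/
def tent (x : ℝ) : ℝ := max 0 (min x (1 - x))

theorem continuous_tent : Continuous tent := by unfold tent; fun_prop

theorem tent_nonneg (x : ℝ) : 0 ≤ tent x := le_max_left _ _

theorem tent_le_one (x : ℝ) : tent x ≤ 1 := by
  unfold tent
  refine max_le (by norm_num) ?_
  rcases le_total x 1 with h | h
  · exact (min_le_left _ _).trans h
  · exact (min_le_right _ _).trans (by linarith)

theorem tent_of_le {x : ℝ} (h : x ≤ 0) : tent x = 0 :=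
  max_eq_left ((min_le_left _ _).trans h)

theorem tent_of_ge {x : ℝ} (h : 1 ≤ x) : tent x = 0 :=
  max_eq_left ((min_le_right _ _).trans (by linarith))

theorem tent_left {x : ℝ} (h0 : 0 ≤ x) (h : x ≤ 1 / 2) : tent x = x := by
  unfold tent
  rw [min_eq_left (by linarith only [h]), max_eq_right h0]

theorem tent_right {x : ℝ} (h0 : 1 / 2 ≤ x) (h : x ≤ 1) : tent x = 1 - x := by
  unfold tent
  rw [min_eq_right (by linarith only [h0]), max_eq_right (by linarith)]

theorem tent_sub_nat {x : ℝ} (hx : 0 ≤ x) (k : ℕ) :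
    tent (x - k) = if k = ⌊x⌋₊ then tent (x - ⌊x⌋₊) else 0 := by
  split_ifs with h
  · rw [h]
  · rcases lt_or_gt_of_ne h with h1 | h1
    · apply tent_of_ge
      have h2 : (k : ℝ) + 1 ≤ ⌊x⌋₊ := by exact_mod_cast h1
      have h3 := Nat.floor_le hx
      linarith only [h2, h3]
    · apply tent_of_le
      have h2 : (⌊x⌋₊ : ℝ) + 1 ≤ k := by exact_mod_cast h1
      have h3 := Nat.lt_floor_add_one x
      linarith only [h2, h3]

/-- bridge kernel -/
def Kb (x y : ℝ) : ℝ := min x y - x * y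

theorem sum_tent {x y : ℝ} (hx : 0 ≤ x) (hy : 0 ≤ y) {n : ℕ} (hn : x < n) :
    ∑ k ∈ range n, tent (x - k) * tent (y - k) =
      if ⌊x⌋₊ = ⌊y⌋₊ then tent (x - ⌊x⌋₊) * tent (y - ⌊y⌋₊) else 0 := by
  have hfl : ⌊x⌋₊ < n := (Nat.floor_lt hx).2 hn
  rw [Finset.sum_eq_single ⌊x⌋₊]
  · rw [tent_sub_nat hx, tent_sub_nat hy, if_pos rfl]
    split_ifs <;> simp
  · intro k _ hk
    rw [tent_sub_nat hx, if_neg hk, zero_mul]
  · intro h
    exact absurd (Finset.mem_range.2 hfl) h

theorem floor_two_left {x : ℝ} (hx : 0 ≤ x) (h : x - ⌊x⌋₊ < 1 / 2) : ⌊2 * x⌋₊ = 2 * ⌊x⌋₊ := by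
  rw [Nat.floor_eq_iff (by positivity)]
  have := Nat.floor_le hx
  push_cast
  constructor <;> linarith only [h, this]

theorem floor_two_right {x : ℝ} (hx : 0 ≤ x) (h : 1 / 2 ≤ x - ⌊x⌋₊) : ⌊2 * x⌋₊ = 2 * ⌊x⌋₊ + 1 := by
  rw [Nat.floor_eq_iff (by positivity)]
  have := Nat.lt_floor_add_one x
  push_cast
  constructor <;> linarith only [h, this]

/-- remainder kernel -/
def Rk (x y : ℝ) : ℝ := if ⌊x⌋₊ = ⌊y⌋₊ then Kb (x - ⌊x⌋₊) (y - ⌊y⌋₊) else 0

theorem kernel_step {x y : ℝ} (hx : 0 ≤ x) (hy : 0 ≤ y) :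
    Rk x y = (if ⌊x⌋₊ = ⌊y⌋₊ then tent (x - ⌊x⌋₊) * tent (y - ⌊y⌋₊) else 0) +
      1 / 2 * Rk (2 * x) (2 * y) := by
  have hx1 := Nat.floor_le hx
  have hx2 := Nat.lt_floor_add_one x
  have hy1 := Nat.floor_le hy
  have hy2 := Nat.lt_floor_add_one y
  unfold Rk Kb
  rcases lt_or_ge (x - ⌊x⌋₊) (1 / 2) with hu | hu <;> rcases lt_or_ge (y - ⌊y⌋₊) (1 / 2) with hv | hv
  · rw [floor_two_left hx hu, floor_two_left hy hv, tent_left (by linarith only [hx1]) hu.le,
      tent_left (by linarith only [hy1]) hv.le]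
    by_cases h : ⌊x⌋₊ = ⌊y⌋₊
    · rw [if_pos h, if_pos h, if_pos (by omega)]
      push_cast
      have : min (2 * x - 2 * (⌊x⌋₊ : ℝ)) (2 * y - 2 * (⌊y⌋₊ : ℝ)) =
          2 * min (x - ⌊x⌋₊) (y - ⌊y⌋₊) := by
        rw [mul_min_of_nonneg _ _ (by norm_num)]; congr 1 <;> ring
      rw [this]; ring
    · rw [if_neg h, if_neg h, if_neg (by omega)]; ring
  · rw [floor_two_left hx hu, floor_two_right hy hv, tent_left (by linarith only [hx1]) hu.le,
      tent_right hv (by linarith only [hy2])]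
    by_cases h : ⌊x⌋₊ = ⌊y⌋₊
    · rw [if_pos h, if_pos h, if_neg (by omega), min_eq_left (by linarith only [hu, hv])]; ring
    · rw [if_neg h, if_neg h, if_neg (by omega)]; ring
  · rw [floor_two_right hx hu, floor_two_left hy hv, tent_right hu (by linarith only [hx2]),
      tent_left (by linarith only [hy1]) hv.le]
    by_cases h : ⌊x⌋₊ = ⌊y⌋₊
    · rw [if_pos h, if_pos h, if_neg (by omega), min_eq_right (by linarith only [hu, hv])]; ring
    · rw [if_neg h, if_neg h, if_neg (by omega)]; ring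
  · rw [floor_two_right hx hu, floor_two_right hy hv, tent_right hu (by linarith only [hx2]),
      tent_right hv (by linarith only [hy2])]
    by_cases h : ⌊x⌋₊ = ⌊y⌋₊
    · rw [if_pos h, if_pos h, if_pos (by omega)]
      push_cast
      have : min (2 * x - (2 * (⌊x⌋₊ : ℝ) + 1)) (2 * y - (2 * (⌊y⌋₊ : ℝ) + 1)) =
          2 * min (x - ⌊x⌋₊) (y - ⌊y⌋₊) - 1 := by
        rw [mul_min_of_nonneg _ _ (by norm_num), ← min_sub_sub_right]; congr 1 <;> ring
      rw [this]; ring
    · rw [if_neg h, if_neg h, if_neg (by omega)]; ring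

theorem Rk_bound {x y : ℝ} (hx : 0 ≤ x) (hy : 0 ≤ y) : |Rk x y| ≤ 1 := by
  have hx1 := Nat.floor_le hx
  have hx2 := Nat.lt_floor_add_one x
  have hy1 := Nat.floor_le hy
  have hy2 := Nat.lt_floor_add_one y
  unfold Rk Kb
  split_ifs
  · set u := x - ⌊x⌋₊
    set v := y - ⌊y⌋₊
    have hu0 : 0 ≤ u := by simp only [u]; linarith only [hx1]
    have hu1 : u ≤ 1 := by simp only [u]; linarith only [hx2]
    have hv0 : 0 ≤ v := by simp only [v]; linarith only [hy1]
    have hv1 : v ≤ 1 := by simp only [v]; linarith only [hy2]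
    have h1 : 0 ≤ u * v := mul_nonneg hu0 hv0
    have h2 : u * v ≤ min u v := le_min (by nlinarith only [hx1, hy2]) (by nlinarith only [hx2, hy1])
    have h3 : min u v ≤ 1 := (min_le_left _ _).trans hu1
    rw [abs_le]
    constructor <;> linarith only [h2, h1, h3]
  · simp

/-- squared normalisation `2^{-m}` -/
def cm (m : ℕ) : ℝ := (√2)⁻¹ ^ m

theorem cm_sq (m : ℕ) : cm m * cm m = (1 / 2) ^ m := by
  unfold cm
  rw [← mul_pow, ← mul_inv, Real.mul_self_sqrt (by norm_num), one_div]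

/-- Schauder function -/
def gs (m k : ℕ) (t : ℝ) : ℝ := cm m * tent (2 ^ m * t - k)

theorem continuous_gs (m k : ℕ) : Continuous (gs m k) := by
  unfold gs
  have := continuous_tent
  fun_prop

/-- kernel of the first `M` levels -/
def KM (M : ℕ) (s t : ℝ) : ℝ := ∑ m ∈ range M, ∑ k ∈ range (2 ^ m), gs m k s * gs m k t

theorem KM_eq {s t : ℝ} (hs : 0 ≤ s) (hs1 : s < 1) (ht : 0 ≤ t) (M : ℕ) :
    KM M s t + (1 / 2) ^ M * Rk (2 ^ M * s) (2 ^ M * t) = Rk s t := by
  induction M with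
  | zero => simp [KM]
  | succ M ih =>
    rw [← ih]
    unfold KM
    rw [Finset.sum_range_succ]
    have h1 : ∑ k ∈ range (2 ^ M), gs M k s * gs M k t =
        (1 / 2) ^ M * ∑ k ∈ range (2 ^ M), tent (2 ^ M * s - k) * tent (2 ^ M * t - k) := by
      rw [Finset.mul_sum]
      refine Finset.sum_congr rfl fun k _ => ?_
      unfold gs
      rw [← cm_sq]; ring
    have h2 : (2 : ℝ) ^ M * s < ((2 ^ M : ℕ) : ℝ) := by
      push_cast
      exact mul_lt_of_lt_one_right (by positivity) hs1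
    rw [h1, sum_tent (by positivity) (by positivity) h2]
    have h3 := kernel_step (x := 2 ^ M * s) (y := 2 ^ M * t) (by positivity) (by positivity)
    rw [h3]
    have e1 : (2 : ℝ) ^ (M + 1) * s = 2 * (2 ^ M * s) := by rw [pow_succ]; ring
    have e2 : (2 : ℝ) ^ (M + 1) * t = 2 * (2 ^ M * t) := by rw [pow_succ]; ring
    rw [e1, e2, pow_succ]
    ring

theorem Rk_unit {s t : ℝ} (hs1 : s < 1) (ht1 : t < 1) : Rk s t = Kb s t := by
  unfold Rk
  have h1 : ⌊s⌋₊ = 0 := Nat.floor_eq_zero.2 hs1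
  have h2 : ⌊t⌋₊ = 0 := Nat.floor_eq_zero.2 ht1
  rw [h1, h2]
  simp

theorem tendsto_KM {s t : ℝ} (hs : 0 ≤ s) (hs1 : s < 1) (ht : 0 ≤ t) (ht1 : t < 1) :
    Tendsto (fun M => KM M s t) atTop (𝓝 (Kb s t)) := by
  have h1 : ∀ M, KM M s t = Kb s t - (1 / 2) ^ M * Rk (2 ^ M * s) (2 ^ M * t) := by
    intro M
    have := KM_eq hs hs1 ht M
    rw [Rk_unit hs1 ht1] at this
    linarith only [this]
  have h2 : Tendsto (fun M : ℕ => (1 / 2 : ℝ) ^ M * Rk (2 ^ M * s) (2 ^ M * t)) atTop (𝓝 0) := by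
    have h3 : Tendsto (fun M : ℕ => (1 / 2 : ℝ) ^ M) atTop (𝓝 0) :=
      tendsto_pow_atTop_nhds_zero_of_lt_one (by norm_num) (by norm_num)
    refine squeeze_zero_norm (fun M => ?_) h3
    rw [Real.norm_eq_abs, abs_mul, abs_of_pos (by positivity : (0:ℝ) < (1 / 2) ^ M)]
    exact mul_le_of_le_one_right (by positivity) (Rk_bound (by positivity) (by positivity))
  simp_rw [h1]
  simpa only [one_div, inv_pow, sub_zero] using h2.const_sub (Kb s t)

/-! ### The random series -/

/-- sample space -/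
abbrev Om : Type := ℕ × ℕ → ℝ

/-- independent standard Gaussians -/
def PP : Measure Om := Measure.infinitePi fun _ : ℕ × ℕ => gaussianReal 0 1

instance : IsProbabilityMeasure PP := by unfold PP; infer_instance

/-- level `m` term -/
def Dm (m : ℕ) (t : ℝ) (ω : Om) : ℝ := ∑ k ∈ range (2 ^ m), ω (m, k) * gs m k t

theorem continuous_Dm (m : ℕ) (ω : Om) : Continuous fun t => Dm m t ω := by
  unfold Dm
  have := continuous_gs
  fun_prop

theorem measurable_Dm (m : ℕ) (t : ℝ) : Measurable (Dm m t) := by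
  unfold Dm
  exact Finset.measurable_sum _ fun k _ => (measurable_pi_apply _).mul_const _

/-- the bridge -/
def bb (t : ℝ) (ω : Om) : ℝ := ∑' m, Dm m t ω

/-- majorant of level `m` -/
def Um (m : ℕ) (ω : Om) : ℝ := (9 / 10) ^ m + (1 / 4) ^ m * (∑ k ∈ range (2 ^ m), ω (m, k) ^ 4) / ((9 / 10) ^ m) ^ 3

theorem abs_le_trick {x r : ℝ} (hr : 0 < r) : |x| ≤ r + x ^ 4 / r ^ 3 := by
  rcases le_or_gt |x| r with h | h
  · have : 0 ≤ x ^ 4 / r ^ 3 := by positivity
    linarith only [h, this]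
  · have h1 : r ^ 3 ≤ |x| ^ 3 := pow_le_pow_left₀ hr.le h.le 3
    have h2 : |x| ≤ x ^ 4 / r ^ 3 := by
      rw [le_div_iff₀ (by positivity)]
      calc |x| * r ^ 3 ≤ |x| * |x| ^ 3 := mul_le_mul_of_nonneg_left h1 (abs_nonneg _)
        _ = |x| ^ 4 := by ring
        _ = x ^ 4 := by rw [← abs_pow, abs_of_nonneg (by positivity)]
    linarith only [hr, h2]

theorem Dm_pow4 (m : ℕ) (t : ℝ) (ω : Om) :
    Dm m t ω ^ 4 ≤ (1 / 4) ^ m * ∑ k ∈ range (2 ^ m), ω (m, k) ^ 4 := by
  have h0 : 0 ≤ (1 / 4 : ℝ) ^ m * ∑ k ∈ range (2 ^ m), ω (m, k) ^ 4 :=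
    mul_nonneg (by positivity) (Finset.sum_nonneg fun k _ => by positivity)
  by_cases hx : 0 ≤ (2 : ℝ) ^ m * t
  · by_cases hfl : ⌊(2 : ℝ) ^ m * t⌋₊ ∈ range (2 ^ m)
    · have h1 : Dm m t ω = ω (m, ⌊(2 : ℝ) ^ m * t⌋₊) * gs m ⌊(2 : ℝ) ^ m * t⌋₊ t := by
        unfold Dm
        refine Finset.sum_eq_single_of_mem _ hfl fun k _ hk => ?_
        unfold gs
        rw [tent_sub_nat hx, if_neg hk]; ring
      rw [h1]
      have h2 : gs m ⌊(2 : ℝ) ^ m * t⌋₊ t ^ 4 ≤ (1 / 4) ^ m := by
        unfold gs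
        rw [mul_pow]
        have h3 : cm m ^ 4 = (1 / 4) ^ m := by
          calc cm m ^ 4 = (cm m * cm m) ^ 2 := by ring
            _ = (1 / 4) ^ m := by rw [cm_sq, ← pow_mul, mul_comm, pow_mul]; norm_num
        rw [h3]
        exact mul_le_of_le_one_right (by positivity) (pow_le_one₀ (tent_nonneg _) (tent_le_one _))
      have h4 : ω (m, ⌊(2 : ℝ) ^ m * t⌋₊) ^ 4 ≤ ∑ k ∈ range (2 ^ m), ω (m, k) ^ 4 :=
        Finset.single_le_sum (f := fun k => ω (m, k) ^ 4) (fun k _ => by positivity) hfl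
      rw [mul_pow, mul_comm]
      exact mul_le_mul h2 h4 (by positivity) (by positivity)
    · have h1 : Dm m t ω = 0 := by
        unfold Dm
        refine Finset.sum_eq_zero fun k hk => ?_
        unfold gs
        rw [tent_sub_nat hx, if_neg (by rintro rfl; exact hfl hk)]; ring
      rw [h1]; simpa only [ne_eq, OfNat.ofNat_ne_zero, not_false_eq_true, zero_pow, one_div, inv_pow, inv_pos, Nat.ofNat_pos,     pow_pos, mul_nonneg_iff_of_pos_left, ge_iff_le] using h0
  · have h1 : Dm m t ω = 0 := by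
      unfold Dm
      refine Finset.sum_eq_zero fun k _ => ?_
      unfold gs
      rw [tent_of_le]
      · ring
      · have : (0 : ℝ) ≤ k := by positivity
        push Not at hx
        linarith only [hx]
    rw [h1]; simpa only [ne_eq, OfNat.ofNat_ne_zero, not_false_eq_true, zero_pow, one_div, inv_pow, inv_pos, Nat.ofNat_pos,     pow_pos, mul_nonneg_iff_of_pos_left, ge_iff_le] using h0

theorem Dm_le_Um (m : ℕ) (t : ℝ) (ω : Om) : ‖Dm m t ω‖ ≤ Um m ω := by
  rw [Real.norm_eq_abs]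
  refine (abs_le_trick (r := (9 / 10) ^ m) (by positivity)).trans ?_
  unfold Um
  gcongr
  exact Dm_pow4 m t ω

/-- fourth moment -/
def q4 : ℝ := ∫ x, x ^ 4 ∂(gaussianReal 0 1)

theorem integrable_pow4 : Integrable (fun x : ℝ => x ^ 4) (gaussianReal 0 1) := by
  have h := (memLp_id_gaussianReal (μ := 0) (v := 1) 4).integrable_norm_pow (by norm_num)
  refine h.congr (Eventually.of_forall fun x => ?_)
  simp only [id_eq, Real.norm_eq_abs]
  rw [← abs_pow, abs_of_nonneg (by positivity)]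

theorem integral_coord_pow4 (a : ℕ × ℕ) :
    Integrable (fun ω : Om => ω a ^ 4) PP ∧ ∫ ω : Om, ω a ^ 4 ∂PP = q4 := by
  have hmp := measurePreserving_eval_infinitePi (fun _ : ℕ × ℕ => gaussianReal 0 1) a
  constructor
  · exact hmp.integrable_comp_of_integrable integrable_pow4
  · unfold q4
    have hm : Measurable (fun ω : Om => ω a) := measurable_pi_apply a
    have h2 := integral_map (μ := PP) (φ := fun ω : Om => ω a) (f := fun x : ℝ => x ^ 4)
      hm.aemeasurable (by fun_prop)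
    rw [← h2]
    have h3 : PP.map (fun ω : Om => ω a) = gaussianReal 0 1 := hmp.map_eq
    rw [h3]

theorem summable_Um : ∀ᵐ ω ∂PP, Summable fun m => Um m ω := by
  set V : ℕ → Om → ℝ := fun m ω =>
    (1 / 4) ^ m * (∑ k ∈ range (2 ^ m), ω (m, k) ^ 4) / ((9 / 10) ^ m) ^ 3 with hV
  have hV0 : ∀ m ω, 0 ≤ V m ω := fun m ω => by
    simp only [hV]
    exact div_nonneg (mul_nonneg (by positivity) (Finset.sum_nonneg fun k _ => by positivity))
      (by positivity)
  have hVm : ∀ m, Measurable (V m) := fun m => by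
    simp only [hV]
    have hk : ∀ k, Measurable fun ω : Om => ω (m, k) ^ 4 := fun k =>
      (show Measurable fun ω : Om => ω (m, k) from measurable_pi_apply _).pow_const 4
    exact ((Finset.measurable_sum _ fun k _ => hk k).const_mul _).div_const _
  have hVi : ∀ m, Integrable (V m) PP := fun m =>
    ((integrable_finsetSum _ fun k _ => (integral_coord_pow4 (m, k)).1).const_mul _).div_const _
  have hVe : ∀ m, ∫ ω, V m ω ∂PP = q4 * (500 / 729) ^ m := by
    intro m
    simp only [hV]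
    rw [integral_div, integral_const_mul, integral_finsetSum _ fun k _ => (integral_coord_pow4 (m, k)).1]
    simp_rw [fun k => (integral_coord_pow4 (m, k)).2]
    rw [Finset.sum_const, Finset.card_range, nsmul_eq_mul]
    push_cast
    rw [← pow_mul, mul_comm m 3, pow_mul, div_eq_iff (by positivity)]
    rw [mul_assoc, ← mul_pow, ← mul_assoc, ← mul_pow, mul_comm]
    norm_num
  have hsum : ∑' m, ∫⁻ ω, ENNReal.ofReal (V m ω) ∂PP ≠ ∞ := by
    have h1 : ∀ m, ∫⁻ ω, ENNReal.ofReal (V m ω) ∂PP = ENNReal.ofReal (q4 * (500 / 729) ^ m) := by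
      intro m
      rw [← hVe m, ofReal_integral_eq_lintegral_ofReal (hVi m) (Eventually.of_forall (hV0 m))]
    simp_rw [h1]
    have hq : 0 ≤ q4 := integral_nonneg fun x => by positivity
    have hs : Summable fun m : ℕ => q4 * (500 / 729 : ℝ) ^ m :=
      (summable_geometric_of_lt_one (by norm_num) (by norm_num)).mul_left q4
    rw [← ENNReal.ofReal_tsum_of_nonneg (fun m => by positivity) hs]
    exact ENNReal.ofReal_ne_top
  rw [← lintegral_tsum fun m => (hVm m).ennreal_ofReal.aemeasurable] at hsum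
  have hae := ae_lt_top' (AEMeasurable.tsum fun m => (hVm m).ennreal_ofReal.aemeasurable) hsum
  filter_upwards [hae] with ω hω
  have h2 := ENNReal.summable_toReal hω.ne
  simp_rw [ENNReal.toReal_ofReal (hV0 _ ω)] at h2
  have h3 : Summable fun m : ℕ => (9 / 10 : ℝ) ^ m :=
    summable_geometric_of_lt_one (by norm_num) (by norm_num)
  exact h3.add h2

theorem continuous_bb : ∀ᵐ ω ∂PP, Continuous fun t => bb t ω := by
  filter_upwards [summable_Um] with ω hω
  exact continuous_tsum (fun m => continuous_Dm m ω) hω fun m t => Dm_le_Um m t ω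

theorem tendsto_bb : ∀ᵐ ω ∂PP, ∀ t, Tendsto (fun M => ∑ m ∈ range M, Dm m t ω) atTop (𝓝 (bb t ω)) := by
  filter_upwards [summable_Um] with ω hω t
  have hs : Summable fun m => Dm m t ω := Summable.of_norm_bounded hω fun m => Dm_le_Um m t ω
  exact hs.hasSum.tendsto_sum_nat

theorem aemeasurable_bb (t : ℝ) : AEMeasurable (bb t) PP := by
  refine aemeasurable_of_tendsto_metrizable_ae atTop
    (f := fun M ω => ∑ m ∈ range M, Dm m t ω) (fun M => ?_) ?_
  · exact (Finset.measurable_sum _ fun m _ => measurable_Dm m t).aemeasurable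
  · filter_upwards [tendsto_bb] with ω hω using hω t

/-! ### Characteristic functions -/

theorem char_finset (S : Finset (ℕ × ℕ)) (C : ℕ × ℕ → ℝ) :
    ∫ ω : Om, Complex.exp (((∑ a ∈ S, ω a * C a : ℝ) : ℂ) * Complex.I) ∂PP =
      Complex.exp (((-(1 / 2) * ∑ a ∈ S, C a ^ 2 : ℝ) : ℂ)) := by
  have hmap := Measure.infinitePi_map_restrict (fun _ : ℕ × ℕ => gaussianReal 0 1) (I := S)
  have h1 : ∫ ω : Om, Complex.exp (((∑ a ∈ S, ω a * C a : ℝ) : ℂ) * Complex.I) ∂PP =
      ∫ x : S → ℝ, ∏ a : S, Complex.exp (((x a * C a : ℝ) : ℂ) * Complex.I)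
        ∂(Measure.pi fun _ : S => gaussianReal 0 1) := by
    rw [← hmap, integral_map (Finset.measurable_restrict S).aemeasurable
      (continuous_finsetProd _ fun a _ => by fun_prop).aestronglyMeasurable]
    refine integral_congr_ae (Eventually.of_forall fun ω => ?_)
    simp only
    rw [← Complex.exp_sum, ← Finset.sum_mul, ← Complex.ofReal_sum]
    congr 3
    rw [← Finset.sum_coe_sort S (fun a => ω a * C a)]
    rfl
  rw [h1]
  have h2 := integral_fintype_prod_eq_prod (𝕜 := ℂ) (ι := S) (E := fun _ => ℝ)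
    (fun a (x : ℝ) => Complex.exp (((x * C a : ℝ) : ℂ) * Complex.I)) (μ := fun _ => gaussianReal 0 1)
  rw [h2]
  have h3 : ∀ a : S, ∫ x : ℝ, Complex.exp (((x * C a : ℝ) : ℂ) * Complex.I) ∂(gaussianReal 0 1) =
      Complex.exp (((-(1 / 2) * C a ^ 2 : ℝ) : ℂ)) := by
    intro a
    have := charFun_gaussianReal (μ := 0) (v := 1) (C a)
    rw [charFun_apply_real] at this
    have e : ∀ x : ℝ, Complex.exp (((x * C a : ℝ) : ℂ) * Complex.I) =
        Complex.exp ((C a : ℂ) * x * Complex.I) := by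
      intro x; congr 1; push_cast; ring
    simp_rw [e]
    rw [this]
    congr 1
    push_cast
    ring
  simp_rw [h3]
  rw [← Complex.exp_sum, ← Complex.ofReal_sum]
  congr 2
  rw [Finset.mul_sum, ← Finset.sum_coe_sort S]

/-- dyadic index set of the first `M` levels -/
def SM (M : ℕ) : Finset (ℕ × ℕ) := (range M ×ˢ range (2 ^ M)).filter fun a => a.2 < 2 ^ a.1

theorem sum_SM (M : ℕ) (f : ℕ × ℕ → ℝ) :
    ∑ a ∈ SM M, f a = ∑ m ∈ range M, ∑ k ∈ range (2 ^ m), f (m, k) := by
  unfold SM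
  rw [Finset.sum_filter, Finset.sum_product]
  refine Finset.sum_congr rfl fun m hm => ?_
  simp only
  rw [← Finset.sum_filter]
  congr 1
  ext k
  have hm' : 2 ^ m ≤ 2 ^ M := Nat.pow_le_pow_right (by norm_num) (Finset.mem_range.1 hm).le
  simp only [Finset.mem_filter, Finset.mem_range]
  omega

variable {ι : Type*} [Fintype ι]

theorem Dm_sum_eq (M : ℕ) (t : ℝ) (ω : Om) :
    ∑ m ∈ range M, Dm m t ω = ∑ a ∈ SM M, ω a * gs a.1 a.2 t := by
  rw [sum_SM]; rfl

theorem KM_sum_eq (M : ℕ) (s t : ℝ) : KM M s t = ∑ a ∈ SM M, gs a.1 a.2 s * gs a.1 a.2 t := by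
  rw [sum_SM]; rfl

theorem char_partial (w : ι → ℝ) (t : ι → ℝ) (M : ℕ) :
    ∫ ω : Om, Complex.exp (((∑ j, w j * ∑ m ∈ range M, Dm m (t j) ω : ℝ) : ℂ) * Complex.I) ∂PP =
      Complex.exp (((-(1 / 2) * ∑ j, ∑ l, w j * w l * KM M (t j) (t l) : ℝ) : ℂ)) := by
  have h := char_finset (SM M) (fun a => ∑ j, w j * gs a.1 a.2 (t j))
  have e1 : ∀ ω : Om, ∑ j, w j * ∑ m ∈ range M, Dm m (t j) ω =
      ∑ a ∈ SM M, ω a * ∑ j, w j * gs a.1 a.2 (t j) := by
    intro ω
    simp_rw [Dm_sum_eq, Finset.mul_sum]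
    rw [Finset.sum_comm]
    exact Finset.sum_congr rfl fun a _ => Finset.sum_congr rfl fun j _ => by ring
  have e2 : ∑ j, ∑ l, w j * w l * KM M (t j) (t l) =
      ∑ a ∈ SM M, (∑ j, w j * gs a.1 a.2 (t j)) ^ 2 := by
    simp_rw [KM_sum_eq, Finset.mul_sum, sq, Finset.sum_mul_sum]
    symm
    rw [Finset.sum_comm]
    refine Finset.sum_congr rfl fun j _ => ?_
    rw [Finset.sum_comm]
    exact Finset.sum_congr rfl fun l _ => Finset.sum_congr rfl fun a _ => by ring
  simp_rw [e1]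
  rw [h, e2]

theorem char_bb (w : ι → ℝ) (t : ι → ℝ) (ht0 : ∀ j, 0 ≤ t j) (ht1 : ∀ j, t j < 1) :
    ∫ ω : Om, Complex.exp (((∑ j, w j * bb (t j) ω : ℝ) : ℂ) * Complex.I) ∂PP =
      Complex.exp (((-(1 / 2) * ∑ j, ∑ l, w j * w l * Kb (t j) (t l) : ℝ) : ℂ)) := by
  have h1 : Tendsto (fun M => ∫ ω : Om, Complex.exp (((∑ j, w j * ∑ m ∈ range M, Dm m (t j) ω : ℝ) : ℂ) *
      Complex.I) ∂PP) atTop (𝓝 (∫ ω : Om, Complex.exp (((∑ j, w j * bb (t j) ω : ℝ) : ℂ) *
      Complex.I) ∂PP)) := by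
    refine tendsto_integral_of_dominated_convergence (fun _ => (1 : ℝ)) (fun M => ?_)
      (integrable_const _) (fun M => ?_) ?_
    · have hm : Measurable fun ω : Om => ∑ j, w j * ∑ m ∈ range M, Dm m (t j) ω :=
        Finset.measurable_sum _ fun j _ =>
          (Finset.measurable_sum _ fun m _ => measurable_Dm m (t j)).const_mul _
      exact ((Complex.measurable_ofReal.comp hm).mul_const _).cexp.aestronglyMeasurable
    · exact Eventually.of_forall fun ω => by rw [Complex.norm_exp_ofReal_mul_I]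
    · filter_upwards [tendsto_bb] with ω hω
      have hc : Continuous fun x : ℝ => Complex.exp ((x : ℂ) * Complex.I) := by fun_prop
      refine (hc.tendsto _).comp ?_
      exact tendsto_finsetSum _ fun j _ => (hω (t j)).const_mul (w j)
  have h2 : Tendsto (fun M => Complex.exp (((-(1 / 2) * ∑ j, ∑ l, w j * w l * KM M (t j) (t l) : ℝ) : ℂ)))
      atTop (𝓝 (Complex.exp (((-(1 / 2) * ∑ j, ∑ l, w j * w l * Kb (t j) (t l) : ℝ) : ℂ)))) := by
    have hc : Continuous fun x : ℝ => Complex.exp (x : ℂ) := by fun_prop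
    refine (hc.tendsto _).comp ?_
    refine Tendsto.const_mul _ (tendsto_finsetSum _ fun j _ => tendsto_finsetSum _ fun l _ => ?_)
    exact (tendsto_KM (ht0 j) (ht1 j) (ht0 l) (ht1 l)).const_mul _
  simp_rw [char_partial] at h1
  exact tendsto_nhds_unique h1 h2

/-! ### Brownian motion -/

/-- Brownian motion from the bridge -/
def BM (t : ℝ≥0) (ω : Om) : ℝ := (1 + (t : ℝ)) * bb ((t : ℝ) / (1 + t)) ω

theorem aemeasurable_BM (t : ℝ≥0) : AEMeasurable (BM t) PP := (aemeasurable_bb _).const_mul _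

theorem kernel_BM (s t : ℝ≥0) :
    (1 + (s : ℝ)) * (1 + (t : ℝ)) * Kb ((s : ℝ) / (1 + s)) ((t : ℝ) / (1 + t)) =
      ((min s t : ℝ≥0) : ℝ) := by
  have hs : (0 : ℝ) < 1 + s := by positivity
  have ht : (0 : ℝ) < 1 + t := by positivity
  unfold Kb
  rw [NNReal.coe_min]
  rcases le_total (s : ℝ) (t : ℝ) with h | h
  · have h1 : (s : ℝ) / (1 + s) ≤ (t : ℝ) / (1 + t) := by
      rw [div_le_div_iff₀ hs ht]; linarith only [h]
    rw [min_eq_left h, min_eq_left h1]
    field_simp
    ring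
  · have h1 : (t : ℝ) / (1 + t) ≤ (s : ℝ) / (1 + s) := by
      rw [div_le_div_iff₀ ht hs]; linarith only [h]
    rw [min_eq_right h, min_eq_right h1]
    field_simp
    ring

theorem char_BM (w : ι → ℝ) (t : ι → ℝ≥0) :
    ∫ ω : Om, Complex.exp (((∑ j, w j * BM (t j) ω : ℝ) : ℂ) * Complex.I) ∂PP =
      Complex.exp (((-(1 / 2) * ∑ j, ∑ l, w j * w l * ((min (t j) (t l) : ℝ≥0) : ℝ) : ℝ) : ℂ)) := by
  have h := char_bb (fun j => w j * (1 + (t j : ℝ))) (fun j => (t j : ℝ) / (1 + t j))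
    (fun j => by positivity) (fun j => by rw [div_lt_one (by positivity)]; linarith)
  have e1 : ∀ ω, ∑ j, w j * BM (t j) ω = ∑ j, w j * (1 + (t j : ℝ)) * bb ((t j : ℝ) / (1 + t j)) ω := by
    intro ω
    unfold BM
    exact Finset.sum_congr rfl fun j _ => by ring
  simp_rw [e1]
  rw [h]
  congr 3
  refine Finset.sum_congr rfl fun j _ => Finset.sum_congr rfl fun l _ => ?_
  rw [← kernel_BM]
  ring

open BrownianReal in
theorem isPreBrownian_BM : IsPreBrownianReal BM PP where
  hasLaw I := by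
    classical
    have hm : AEMeasurable (fun ω ↦ I.restrict (BM · ω)) PP :=
      aemeasurable_pi_lambda _ fun i => aemeasurable_BM i
    refine ⟨hm, ?_⟩
    have : IsProbabilityMeasure (PP.map fun ω ↦ I.restrict (BM · ω)) :=
      Measure.isProbabilityMeasure_map hm
    apply Measure.ext_of_charFunDual
    funext L
    have hL : ∀ x : I → ℝ, L x = ∑ i, L (fun j => if i = j then 1 else 0) * x i := by
      intro x
      have := LinearMap.pi_apply_eq_sum_univ (L : (I → ℝ) →ₗ[ℝ] ℝ) x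
      simp only [ContinuousLinearMap.coe_coe, smul_eq_mul] at this
      rw [this]
      exact Finset.sum_congr rfl fun i _ => by ring
    set c : I → ℝ := fun i => L (fun j => if i = j then 1 else 0) with hc
    have hL' : ∀ x : I → ℝ, L x = ∑ i, c i * x i := hL
    rw [charFunDual_apply, integral_map hm (by
      exact (by (clear * -; fun_prop) : Continuous fun v : I → ℝ => Complex.exp ((L v : ℂ) * Complex.I)).aestronglyMeasurable)]
    have h1 : ∀ ω, L (I.restrict (BM · ω)) = ∑ i : I, c i * BM i ω := fun ω => by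
      rw [hL']; rfl
    simp_rw [h1]
    rw [char_BM c (fun i : I => (i : ℝ≥0)), IsGaussian.charFunDual_eq]
    have h2 : ∫ x, (L x : ℂ) ∂(projectiveFamily I) = 0 := by
      rw [integral_complex_ofReal]
      simp_rw [hL']
      rw [integral_finsetSum _ fun i _ => ?_]
      · simp_rw [integral_const_mul, integral_eval_projectiveFamily]
        simp only [univ_eq_attach, mul_zero, sum_const_zero, Complex.ofReal_zero]
      · exact (((IsGaussian.hasGaussianLaw_id (μ := projectiveFamily I)).eval i).integrable).const_mul _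
    have h3 : Var[⇑L; projectiveFamily I] = ∑ i : I, ∑ j : I, c i * c j * ((min (i : ℝ≥0) j : ℝ≥0) : ℝ) := by
      have : (⇑L : (I → ℝ) → ℝ) = fun x => ∑ i, c i * x i := funext hL'
      rw [this, variance_fun_sum' fun i _ => ?_]
      · refine Finset.sum_congr rfl fun i _ => Finset.sum_congr rfl fun j _ => ?_
        rw [covariance_const_mul_left, covariance_const_mul_right, covariance_eval_projectiveFamily]
        ring
      · exact (((IsGaussian.hasGaussianLaw_id (μ := projectiveFamily I)).eval i).memLp_two).const_mul _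
    rw [h2, h3]
    congr 1
    push_cast
    ring

theorem isBrownian_BM : IsBrownianReal BM PP where
  toIsPreBrownianReal := isPreBrownian_BM
  cont := by
    filter_upwards [continuous_bb] with ω hω
    unfold BM
    have h1 : Continuous fun t : ℝ≥0 => (t : ℝ) / (1 + t) :=
      NNReal.continuous_coe.div (by fun_prop) (fun t => by positivity)
    exact (by fun_prop : Continuous fun t : ℝ≥0 => 1 + (t : ℝ)).mul (hω.comp h1)

/-- Brownian motion exists. -/
theorem exists_isBrownianReal :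
    ∃ (Ω : Type) (_ : MeasurableSpace Ω) (P : Measure Ω) (B : ℝ≥0 → Ω → ℝ),
      IsProbabilityMeasure P ∧ IsBrownianReal B P :=
  ⟨Om, inferInstance, PP, BM, inferInstance, isBrownian_BM⟩

end

end Vale.Agent.P155.Tree.Bro
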