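import Vale.Agent.P155Z.Sk
import Vale.Agent.P155Z.BM

/-!
# P155, branching SLE₄(-2): good versions of Brownian motion and of the driving process
-/

namespace Vale.Agent.P155.Tree

open MeasureTheory Filter Topology ProbabilityTheory Set TopologicalSpace
open scoped NNReal

theorem bmx : BMX := Bro.exists_isBrownianReal

namespace Bsy

variable {Θ : Type} {m : MeasurableSpace Θ} {P : Measure Θ}

/-- The measurable sets which agree almost surely with a set of `G`. -/
@[reducible] def cmp (P : Measure Θ) (G : MeasurableSpace Θ) : MeasurableSpace Θ where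
  MeasurableSet' A := MeasurableSet[m] A ∧ ∃ B, MeasurableSet[G] B ∧ A =ᵐ[P] B
  measurableSet_empty := ⟨@MeasurableSet.empty _ m, ∅, @MeasurableSet.empty _ G, EventuallyEq.rfl⟩
  measurableSet_compl := fun _ ⟨h1, B, h2, h3⟩ => ⟨h1.compl, Bᶜ, h2.compl, h3.compl⟩
  measurableSet_iUnion := fun A h => by
    choose B h2 h3 using fun i => (h i).2
    exact ⟨MeasurableSet.iUnion fun i => (h i).1, ⋃ i, B i, MeasurableSet.iUnion h2,
      Filter.EventuallyEq.countable_iUnion h3⟩

theorem cmp_mono {G G' : MeasurableSpace Θ} (h : G ≤ G') : cmp (m := m) P G ≤ cmp (m := m) P G' :=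
  fun _ ⟨h1, B, h2, h3⟩ => ⟨h1, B, h _ h2, h3⟩

theorem le_cmp {G : MeasurableSpace Θ} (h : G ≤ m) : G ≤ cmp (m := m) P G :=
  fun A hA => ⟨h _ hA, A, hA, EventuallyEq.rfl⟩

theorem indep_cmp {G H : MeasurableSpace Θ} (h : @Indep Θ G H m P) :
    @Indep Θ (cmp (m := m) P G) H m P := by
  rw [Indep_iff] at h ⊢
  rintro A C ⟨-, B, h2, h3⟩ hC
  rw [measure_congr h3, measure_congr (show (A ∩ C : Set Θ) =ᵐ[P] (B ∩ C : Set Θ) from
    h3.inter EventuallyEq.rfl)]
  exact h B C h2 hC

/-- A measurable version with continuous paths. -/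
theorem version {B : ℝ≥0 → Θ → ℝ} (hB : IsBrownianReal B P) :
    ∃ B' : ℝ≥0 → Θ → ℝ, (∀ t, Measurable (B' t)) ∧ (∀ ω, Continuous fun t => B' t ω) ∧
      (∀ ω, B' 0 ω = 0) ∧ ∀ᵐ ω ∂P, ∀ t, B' t ω = B t ω := by
  have h1 : ∀ᵐ ω ∂P, (Continuous fun t => B t ω) ∧ B 0 ω = 0 ∧
      ∀ j, B (denseSeq ℝ≥0 j) ω = (hB.aemeasurable (denseSeq ℝ≥0 j)).mk _ ω := by
    filter_upwards [hB.cont, hB.eval_zero_ae_eq_zero,
      ae_all_iff.2 fun j => (hB.aemeasurable (denseSeq ℝ≥0 j)).ae_eq_mk] with ω a b c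
    exact ⟨a, b, c⟩
  obtain ⟨N, hN1, hN2, hN3⟩ := exists_measurable_superset_of_null (ae_iff.1 h1)
  have h2 : ∀ ω ∈ Nᶜ, (Continuous fun t => B t ω) ∧ B 0 ω = 0 ∧
      ∀ j, B (denseSeq ℝ≥0 j) ω = (hB.aemeasurable (denseSeq ℝ≥0 j)).mk _ ω := fun ω hω => by
    by_contra h
    exact hω (hN1 h)
  refine ⟨fun t => Nᶜ.indicator (B t), fun t => ?_, fun ω => ?_, fun ω => ?_, ?_⟩
  · obtain ⟨u, hu1, hu2⟩ := mem_closure_iff_seq_limit.1 (denseRange_denseSeq ℝ≥0 t)
    choose j hj using hu1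
    refine measurable_of_tendsto_metrizable (f := fun n =>
      Nᶜ.indicator ((hB.aemeasurable (denseSeq ℝ≥0 (j n))).mk _))
      (fun n => (hB.aemeasurable _).measurable_mk.indicator hN2.compl)
      (tendsto_pi_nhds.2 fun ω => ?_)
    by_cases hω : ω ∈ Nᶜ
    · simp only [indicator_of_mem hω]
      refine (((h2 ω hω).1.tendsto t).comp hu2).congr fun n => ?_
      rw [← (h2 ω hω).2.2, hj]
      rfl
    · simp only [indicator_of_notMem hω]
      exact tendsto_const_nhds
  · by_cases hω : ω ∈ Nᶜ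
    · simp only [indicator_of_mem hω]
      exact (h2 ω hω).1
    · simp only [indicator_of_notMem hω]
      exact continuous_const
  · by_cases hω : ω ∈ Nᶜ
    · simp only [indicator_of_mem hω]
      exact (h2 ω hω).2.1
    · simp only [indicator_of_notMem hω]
  · filter_upwards [compl_mem_ae_iff.2 hN3] with ω hω t
    exact indicator_of_mem hω _

/-- The past of a process. -/
@[reducible] def past (B : ℝ≥0 → Θ → ℝ) (t : ℝ≥0) : MeasurableSpace Θ :=
  MeasurableSpace.comap (fun ω (u : Iic t) => B u ω) inferInstance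

theorem meas_past (B : ℝ≥0 → Θ → ℝ) {s t : ℝ≥0} (h : s ≤ t) : Measurable[past B t] (B s) :=
  (measurable_pi_apply (⟨s, h⟩ : Iic t)).comp (comap_measurable fun ω (u : Iic t) => B u ω)

theorem past_le {B : ℝ≥0 → Θ → ℝ} {t : ℝ≥0} {G : MeasurableSpace Θ}
    (h : ∀ s, s ≤ t → Measurable[G] (B s)) : past B t ≤ G :=
  Measurable.comap_le (measurable_pi_lambda _ fun u => h u u.2)

theorem pv_congr {x y : ℝ → ℝ} (h : ∀ t, 0 ≤ t → x t = y t) (ε : ℝ) {t : ℝ} (ht : 0 ≤ t) :
    pv x ε t = pv y ε t := by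
  unfold pv
  refine intervalIntegral.integral_congr fun s hs => ?_
  rw [uIcc_of_le ht] at hs
  simp only [h s hs.1]

end Bsy

open Bsy in
theorem bsy : BSY := by
  intro Θ m P X hP hB
  obtain ⟨B, h1, h2, h3, h4⟩ := version hB
  have hB' : IsPreBrownianReal B P := hB.toIsPreBrownianReal.congr fun t => by
    filter_upwards [h4] with ω h using (h t).symm
  refine ⟨⟨⟨fun t => cmp P (past B t.toNNReal), fun s t h => cmp_mono (past_le fun u hu =>
      meas_past B (hu.trans (Real.toNNReal_le_toNNReal h))), fun t A hA => hA.1⟩,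
    fun ω t => 2 * B t.toNNReal ω, hP,
    fun ω => continuous_const.mul ((h2 ω).comp continuous_real_toNNReal), fun ω t ht => ?_,
    fun t => ?_, fun t N hN hN0 => ⟨hN, ∅, @MeasurableSet.empty _ (past B t.toNNReal),
      ae_eq_empty.2 hN0⟩, fun s t hs hst => ?_, fun s t hs hst => ?_⟩, ?_⟩
  · rw [Real.toNNReal_of_nonpos ht, h3, mul_zero]
  · exact ((meas_past B le_rfl).mono (le_cmp (past_le fun u _ => h1 u)) le_rfl).const_mul 2
  · have a1 := gaussianReal_const_mul (hB'.hasLaw_sub t.toNNReal s.toNNReal) 2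
    have a2 : (NNReal.mk ((2 : ℝ) ^ 2) (sq_nonneg _) *
        nndist (t.toNNReal).1 (s.toNNReal).1 : ℝ≥0) = (4 * (t - s)).toNNReal := by
      apply NNReal.eq
      rw [NNReal.coe_mul, Real.coe_toNNReal _ (by linarith), coe_nndist, NNReal.val_eq_coe,
        NNReal.val_eq_coe, Real.coe_toNNReal _ hs, Real.coe_toNNReal _ (hs.trans hst),
        Real.dist_eq, abs_of_nonneg (by linarith), NNReal.coe_mk]
      norm_num
    rw [a2, mul_zero] at a1
    refine a1.congr (Eventually.of_forall fun ω => ?_)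
    simp only [Pi.sub_apply]
    ring
  · have a1 := (IndepFun_iff_Indep _ _ _).1 (hB'.indepFun_shift s.toNNReal)
    refine indep_cmp (indep_of_indep_of_le_right a1.symm (Measurable.comap_le ?_))
    have a2 : s.toNNReal + (t - s).toNNReal = t.toNNReal := by
      rw [← Real.toNNReal_add hs (by linarith), add_sub_cancel]
    have a3 : (fun ω => 2 * B t.toNNReal ω - 2 * B s.toNNReal ω) =
        (fun x : ℝ≥0 → ℝ => 2 * x (t - s).toNNReal) ∘
          fun ω u => B (s.toNNReal + u) ω - B s.toNNReal ω := by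
      funext ω
      simp only [Function.comp_apply, a2]
      ring
    rw [a3]
    exact ((measurable_pi_apply _).const_mul 2).comp (comap_measurable _)
  · filter_upwards [h4] with ω h t ht
    rw [h, Real.coe_toNNReal _ ht]
    ring

open Bsy in
theorem setup_of (hX : BMX) (hB : BSY) (hP : PVX) : SETUP := by
  constructor
  · obtain ⟨Θ, m, P, B, h1, h2⟩ := hX
    have e : (fun (t : ℝ≥0) ω => 2 * B (t : ℝ).toNNReal ω / 2) = B := by
      funext t ω
      rw [Real.toNNReal_coe]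
      ring
    obtain ⟨S, hS⟩ := hB Θ m P (fun ω t => 2 * B t.toNNReal ω) h1 (e.symm ▸ h2)
    obtain ⟨S', rfl, h3⟩ := hP Θ m P S
    refine ⟨Θ, m, P, S', h1, ⟨h2.toIsPreBrownianReal.congr fun t => ?_,
      Eventually.of_forall fun ω => ((S'.cont ω).comp NNReal.continuous_coe).div_const 2⟩,
      Eventually.of_forall fun ω => (S'.contO ω).continuousOn, h3⟩
    filter_upwards [hS] with ω h
    rw [h t t.2, Real.toNNReal_coe]
    ring
  · intro Θ m P X O hD
    obtain ⟨S, hS⟩ := hB Θ m P X hD.prob hD.bm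
    obtain ⟨S', rfl, h3⟩ := hP Θ m P S
    refine ⟨S', ?_⟩
    have a1 : ∀ t, 0 ≤ t → ∀ᵐ ω ∂P, S'.O ω t = O ω t := fun t ht => by
      refine tendstoInMeasure_ae_unique (h3 t ht) ((hD.lim t ht).congr_left fun ε => ?_)
      filter_upwards [hS] with ω h
      rw [pv_congr h ε ht]
    filter_upwards [hS, hD.cont, ae_all_iff.2 fun j => a1 _ (denseSeq ℝ≥0 j).2] with ω h hc hj t ht
    refine ⟨h t ht, ?_⟩
    have c1 : Continuous fun u : ℝ≥0 => O ω u :=
      hc.comp_continuous NNReal.continuous_coe fun u => u.2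
    have c2 : Continuous fun u : ℝ≥0 => S'.O ω u := (S'.contO ω).comp NNReal.continuous_coe
    exact congrFun ((denseRange_denseSeq ℝ≥0).equalizer c2 c1 (funext hj)) ⟨t, ht⟩

end Vale.Agent.P155.Tree
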