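import Vale.Agent.P155Z.Sk
import Vale.Agent.P153.R2.L1.Rmt

/-!
# P155: the kernel theorem of Caratheodory
-/

namespace Vale.Agent.P155.Tree

open Filter Topology Set Metric Vale.Agent.P155

namespace Cara

variable {U V : Set ℂ} {a b a' b' : ℂ → ℂ}

theorem zero_mem : (0 : ℂ) ∈ DD := mem_ball_self one_pos

theorem b_der (h : CI.Conf U DD a b) : HasDerivAt b (deriv b 0) 0 :=
  (h.dg.differentiableAt (h.ho'.mem_nhds zero_mem)).hasDerivAt

theorem a_der (h : CI.Conf U DD a b) : HasDerivAt a (deriv a (b 0)) (b 0) :=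
  (h.df.differentiableAt (h.ho.mem_nhds (h.mg zero_mem))).hasDerivAt

theorem der_mul (h : CI.Conf U DD a b) : deriv a (b 0) * deriv b 0 = 1 := by
  have h1 : HasDerivAt (a ∘ b) (deriv a (b 0) * deriv b 0) 0 := (a_der h).comp 0 (b_der h)
  have h2 : HasDerivAt (a ∘ b) 1 0 := by
    refine (hasDerivAt_id (0 : ℂ)).congr_of_eventuallyEq ?_
    filter_upwards [h.ho'.mem_nhds zero_mem] with u hu
    exact h.fg u hu
  exact h1.unique h2

theorem comp_data (h : CI.Conf U DD a b) (h' : CI.Conf V DD a' b') (hz : b' 0 = b 0) {r : ℝ}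
    (hr : r ≤ 1) (hU : MapsTo b' (ball 0 r) U) :
    DifferentiableOn ℂ (a ∘ b') (ball 0 r) ∧ (a ∘ b') 0 = 0 ∧
      MapsTo (a ∘ b') (ball 0 r) (closedBall ((a ∘ b') 0) 1) := by
  have h0 : (a ∘ b') 0 = 0 := by
    rw [Function.comp_apply, hz]
    exact h.fg 0 zero_mem
  refine ⟨h.df.comp (h'.dg.mono (ball_subset_ball hr)) hU, h0, fun u hu => ?_⟩
  rw [h0]
  exact ball_subset_closedBall (h.mf (hU hu))

theorem der_ge (h : CI.Conf U DD a b) (h' : CI.Conf V DD a' b') (hz : b' 0 = b 0) {r : ℝ}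
    (hr0 : 0 < r) (hr : r ≤ 1) (hU : MapsTo b' (ball 0 r) U) :
    r * ‖deriv b' 0‖ ≤ ‖deriv b 0‖ := by
  obtain ⟨h1, -, h3⟩ := comp_data h h' hz hr hU
  have h4 := Complex.norm_deriv_le_div_of_mapsTo_ball h1 h3 hr0
  have h5 : HasDerivAt (a ∘ b') (deriv a (b 0) * deriv b' 0) 0 :=
    HasDerivAt.comp 0 (by rw [hz]; exact a_der h) (b_der h')
  rw [h5.deriv, norm_mul, le_div_iff₀ hr0] at h4
  have h6 : ‖deriv a (b 0)‖ * ‖deriv b 0‖ = 1 := by rw [← norm_mul, der_mul h, norm_one]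
  have h7 := mul_le_mul_of_nonneg_left h4 (norm_nonneg (deriv b 0))
  calc r * ‖deriv b' 0‖ = ‖deriv a (b 0)‖ * ‖deriv b 0‖ * (r * ‖deriv b' 0‖) := by rw [h6, one_mul]
    _ = ‖deriv b 0‖ * (‖deriv a (b 0)‖ * ‖deriv b' 0‖ * r) := by ring
    _ ≤ ‖deriv b 0‖ := by simpa using h7

theorem norm_le (h : CI.Conf U DD a b) (h' : CI.Conf V DD a' b') (hz : b' 0 = b 0) {r : ℝ}
    (hr : r ≤ 1) (hU : MapsTo b' (ball 0 r) U) {u : ℂ} (hu : u ∈ ball (0 : ℂ) r) :
    ‖a (b' u)‖ ≤ 1 / r * ‖u‖ := by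
  obtain ⟨h1, h2, h3⟩ := comp_data h h' hz hr hU
  have h4 := Complex.dist_le_div_mul_dist_of_mapsTo_ball h1 h3 hu
  rw [h2, dist_zero_right, dist_zero_right] at h4
  exact h4

theorem ev_maps {W : ℕ → Set ℂ} (h' : CI.Conf V DD a' b')
    (hK : ∀ K, IsCompact K → K ⊆ V → ∀ᶠ n in atTop, K ⊆ W n) {r : ℝ} (hr : r < 1) :
    ∀ᶠ n in atTop, MapsTo b' (ball 0 r) (W n) := by
  have h1 : closedBall (0 : ℂ) r ⊆ DD := closedBall_subset_ball hr
  have h2 := hK (b' '' closedBall 0 r)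
    ((isCompact_closedBall 0 r).image_of_continuousOn (h'.dg.continuousOn.mono h1))
    (image_subset_iff.2 fun u hu => h'.mg (h1 hu))
  filter_upwards [h2] with n hn u hu
  exact hn (mem_image_of_mem _ (ball_subset_closedBall hu))

/-- Montel for bounded families. -/
theorem montel (𝒰 : Ultrafilter ℕ) (f : ℕ → ℂ → ℂ) (hd : ∀ n, DifferentiableOn ℂ (f n) DD)
    {M : ℝ} (hM : 0 < M) (hb : ∀ n, ∀ u ∈ DD, ‖f n u‖ ≤ M) :
    ∃ F : ℂ → ℂ, TendstoLocallyUniformlyOn f F (𝒰 : Filter ℕ) DD := by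
  have hM' : (M : ℂ) ≠ 0 := by exact_mod_cast hM.ne'
  obtain ⟨g, hg⟩ := P153.TOP.RMT.exists_limit isOpen_ball 𝒰 (fun n u => f n u / M)
    (fun n => (hd n).div_const _) fun n u hu => by
      rw [norm_div, Complex.norm_real, Real.norm_of_nonneg hM.le, div_le_one hM]
      exact hb n u hu
  refine ⟨_, ((uniformContinuous_const_smul (M : ℂ)).comp_tendstoLocallyUniformlyOn hg).congr
    fun n u _ => ?_⟩
  simp only [Function.comp_apply, smul_eq_mul]
  field_simp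

/-- A holomorphic function with nonzero derivative at the centre is nowhere locally constant. -/
theorem not_const {F : ℂ → ℂ} (hF : DifferentiableOn ℂ F DD) (h0 : deriv F 0 ≠ 0) {u p : ℂ}
    (hu : u ∈ DD) : ¬ ∀ᶠ v in 𝓝 u, F v - p = 0 := by
  intro h
  have h1 : AnalyticOnNhd ℂ (fun v => F v - p) DD :=
    (hF.sub_const p).analyticOnNhd isOpen_ball
  have h2 := h1.eqOn_zero_of_preconnected_of_eventuallyEq_zero
    (convex_ball (0 : ℂ) 1).isPreconnected hu h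
  have h3 : F =ᶠ[𝓝 0] fun _ => p := by
    filter_upwards [isOpen_ball.mem_nhds zero_mem] with v hv
    exact sub_eq_zero.1 (h2 hv)
  exact h0 (by rw [h3.deriv_eq, deriv_const])

/-- Points outside the domains which converge to a point of the frontier. -/
theorem outside {W : ℕ → Set ℂ} {p : ℂ}
    (h : ∀ ε : ℝ, 0 < ε → ∀ᶠ n in atTop, ∃ q, q ∉ W n ∧ dist q p < ε)
    (hne : ∀ n, ∃ q, q ∉ W n) (hW : ∀ n, IsOpen (W n)) :
    ∃ q : ℕ → ℂ, (∀ n, q n ∉ W n) ∧ Tendsto q atTop (𝓝 p) := by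
  have h1 : ∀ n, ∃ q ∈ (W n)ᶜ, infDist p (W n)ᶜ = dist p q := fun n =>
    (hW n).isClosed_compl.exists_infDist_eq_dist (hne n) p
  choose q hq hd using h1
  refine ⟨q, hq, Metric.tendsto_nhds.2 fun ε hε => ?_⟩
  filter_upwards [h ε hε] with n hn
  obtain ⟨x, hx, hx'⟩ := hn
  rw [dist_comm, ← hd n]
  exact (infDist_le_dist_of_mem (show x ∈ (W n)ᶜ from hx)).trans_lt (by rwa [dist_comm])

theorem sub_tendsto {l : Filter ℕ} {f : ℕ → ℂ → ℂ} {F : ℂ → ℂ} {q : ℕ → ℂ} {p : ℂ}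
    (hf : TendstoLocallyUniformlyOn f F l DD) (hq : Tendsto q l (𝓝 p)) :
    TendstoLocallyUniformlyOn (fun n u => f n u - q n) (fun u => F u - p) l DD :=
  hf.sub (hq.tendstoUniformlyOn_const DD).tendstoLocallyUniformlyOn

/-- The equality case of the Schwarz lemma. -/
theorem eq_of_der (h' : CI.Conf V DD a' b') {F : ℂ → ℂ} (hF : DifferentiableOn ℂ F DD)
    (hV : MapsTo F DD V) (h0 : F 0 = b' 0) (him : (deriv F 0).im = 0) (hre : 0 ≤ (deriv F 0).re)
    (him' : (deriv b' 0).im = 0) (hre' : 0 < (deriv b' 0).re)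
    (hle : ‖deriv b' 0‖ ≤ ‖deriv F 0‖) : EqOn F b' DD := by
  have h1 : DifferentiableOn ℂ (a' ∘ F) DD := h'.df.comp hF hV
  have h2 : (a' ∘ F) 0 = 0 := by
    rw [Function.comp_apply, h0]
    exact h'.fg 0 zero_mem
  have h3 : MapsTo (a' ∘ F) DD (closedBall ((a' ∘ F) 0) 1) := fun u hu => by
    rw [h2]
    exact ball_subset_closedBall (h'.mf (hV hu))
  have h4 : HasDerivAt (a' ∘ F) (deriv a' (b' 0) * deriv F 0) 0 :=
    HasDerivAt.comp 0 (by rw [h0]; exact a_der h')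
      (hF.differentiableAt (isOpen_ball.mem_nhds zero_mem)).hasDerivAt
  have h5 := Complex.norm_deriv_le_one_of_mapsTo_ball h1 h3 one_pos
  have h6 : ‖deriv a' (b' 0)‖ * ‖deriv b' 0‖ = 1 := by rw [← norm_mul, der_mul h', norm_one]
  rw [h4.deriv, norm_mul] at h5
  have h7 : ‖deriv F 0‖ ≤ ‖deriv b' 0‖ := by
    have h8 := mul_le_mul_of_nonneg_left h5 (norm_nonneg (deriv b' 0))
    calc ‖deriv F 0‖ = ‖deriv a' (b' 0)‖ * ‖deriv b' 0‖ * ‖deriv F 0‖ := by rw [h6, one_mul]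
      _ = ‖deriv b' 0‖ * (‖deriv a' (b' 0)‖ * ‖deriv F 0‖) := by ring
      _ ≤ ‖deriv b' 0‖ := by simpa using h8
  have e1 : ‖deriv F 0‖ = (deriv F 0).re := by
    rw [← Complex.abs_re_eq_norm.2 him, abs_of_nonneg hre]
  have e2 : ‖deriv b' 0‖ = (deriv b' 0).re := by
    rw [← Complex.abs_re_eq_norm.2 him', abs_of_nonneg hre'.le]
  have h9 : deriv F 0 = deriv b' 0 := Complex.ext (by linarith) (by rw [him, him'])
  have h10 : dslope (a' ∘ F) 0 0 = 1 := by rw [dslope_same, h4.deriv, h9, der_mul h']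
  have h11 := Complex.affine_of_mapsTo_ball_of_norm_dslope_eq_div h1 h3 zero_mem
    (by rw [h10]; simp)
  intro u hu
  have h12 : a' (F u) = u := by
    have := h11 hu
    rw [h2, h10] at this
    simpa using this
  rw [← h'.gf _ (hV hu), h12]

theorem le_of_forall_lt_one {x y : ℝ} (h : ∀ r : ℝ, 0 < r → r < 1 → r * x ≤ y) : x ≤ y := by
  have h1 : Tendsto (fun r : ℝ => r * x) (𝓝[<] 1) (𝓝 (1 * x)) :=
    ((continuous_id.mul continuous_const).tendsto 1).mono_left nhdsWithin_le_nhds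
  rw [one_mul] at h1
  refine le_of_tendsto h1 ?_
  filter_upwards [Ioo_mem_nhdsLT (show (0 : ℝ) < 1 from one_pos)] with r hr
  exact h r hr.1 hr.2

section main

variable {W : ℕ → Set ℂ} {z : ℂ} {A B : ℕ → ℂ → ℂ}

/-- Convergence along an ultrafilter. -/
theorem lim_ultra (h : ∀ n, CI.Conf (W n) DD (A n) (B n)) (h' : CI.Conf V DD a' b')
    (hb : Bornology.IsBounded (⋃ n, W n))
    (hn : ∀ n, B n 0 = z ∧ (deriv (B n) 0).im = 0 ∧ 0 < (deriv (B n) 0).re)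
    (hn' : b' 0 = z ∧ (deriv b' 0).im = 0 ∧ 0 < (deriv b' 0).re)
    (hK : ∀ K, IsCompact K → K ⊆ V → ∀ᶠ n in atTop, K ⊆ W n)
    (hp : ∀ p ∈ frontier V, ∀ ε : ℝ, 0 < ε → ∀ᶠ n in atTop, ∃ q, q ∉ W n ∧ dist q p < ε)
    (𝒰 : Ultrafilter ℕ) (h𝒰 : (𝒰 : Filter ℕ) ≤ atTop) :
    TendstoLocallyUniformlyOn B b' (𝒰 : Filter ℕ) DD := by
  obtain ⟨M, hM, hM'⟩ := hb.exists_pos_norm_le
  obtain ⟨F, hF⟩ := montel 𝒰 B (fun n => (h n).dg) hM fun n u hu =>
    hM' _ (mem_iUnion.2 ⟨n, (h n).mg hu⟩)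
  have hd : ∀ᶠ n in (𝒰 : Filter ℕ), DifferentiableOn ℂ (B n) DD :=
    Eventually.of_forall fun n => (h n).dg
  have hFd : DifferentiableOn ℂ F DD := hF.differentiableOn hd isOpen_ball
  have h0 : F 0 = b' 0 := by
    have h1 := hF.tendsto_at zero_mem
    simp only [fun n => (hn n).1] at h1
    rw [hn'.1]
    exact tendsto_nhds_unique h1 tendsto_const_nhds
  have hder : Tendsto (fun n => deriv (B n) 0) 𝒰 (𝓝 (deriv F 0)) :=
    (hF.deriv hd isOpen_ball).tendsto_at zero_mem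
  have him : (deriv F 0).im = 0 := by
    have h1 := (Complex.continuous_im.tendsto _).comp hder
    have h2 : (Complex.im ∘ fun n => deriv (B n) 0) = fun _ => 0 := funext fun n => (hn n).2.1
    rw [h2] at h1
    exact tendsto_nhds_unique h1 tendsto_const_nhds
  have hre : 0 ≤ (deriv F 0).re :=
    ge_of_tendsto' ((Complex.continuous_re.tendsto _).comp hder) fun n => (hn n).2.2.le
  have hle : ‖deriv b' 0‖ ≤ ‖deriv F 0‖ := le_of_forall_lt_one fun r hr0 hr1 => by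
    refine ge_of_tendsto hder.norm ?_
    filter_upwards [h𝒰 (ev_maps h' hK hr1)] with n hn1
    exact der_ge (h n) h' (hn'.1.trans (hn n).1.symm) hr0 hr1.le hn1
  have hne : deriv F 0 ≠ 0 := by
    intro h1
    rw [h1, norm_zero, norm_le_zero_iff] at hle
    have := hn'.2.2
    rw [hle] at this
    simp at this
  have hout : ∀ n, ∃ q, q ∉ W n := fun n => by
    refine ⟨((M + 1 : ℝ) : ℂ), fun h1 => ?_⟩
    have h2 := hM' _ (mem_iUnion.2 ⟨n, h1⟩)
    rw [Complex.norm_real, Real.norm_of_nonneg (by linarith)] at h2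
    linarith
  have hfr : ∀ u ∈ DD, F u ∉ frontier V := fun u hu hfu => by
    obtain ⟨q, hq, hq'⟩ := outside (hp _ hfu) hout fun n => (h n).ho
    refine P153.TOP.RMT.hurwitz isOpen_ball (sub_tendsto hF (hq'.mono_left h𝒰))
      (Eventually.of_forall fun n => (h n).dg.sub_const _) hu
      (Eventually.of_forall fun n v hv h1 => hq n ?_) (not_const hFd hne hu) (sub_self _)
    rw [← sub_eq_zero.1 h1]
    exact (h n).mg hv
  have hV : MapsTo F DD V := by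
    have h1 : IsPreconnected (F '' DD) :=
      (convex_ball (0 : ℂ) 1).isPreconnected.image F hFd.continuousOn
    have h2 : F '' DD ⊆ V := by
      refine h1.subset_left_of_subset_union h'.ho isClosed_closure.isOpen_compl
        (disjoint_compl_right_iff_subset.2 subset_closure) ?_
        ⟨F 0, mem_image_of_mem _ zero_mem, h0 ▸ h'.mg zero_mem⟩
      rintro _ ⟨u, hu, rfl⟩
      by_cases h3 : F u ∈ closure V
      · left
        by_contra h4
        exact hfr u hu ⟨h3, by rwa [h'.ho.interior_eq]⟩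
      · exact Or.inr h3
    exact fun u hu => h2 (mem_image_of_mem _ hu)
  exact hF.congr_right (eq_of_der h' hFd hV h0 him hre hn'.2.1 hn'.2.2 hle)

theorem of_ultra {f : ℕ → ℂ → ℂ} {F : ℂ → ℂ} {l : Filter ℕ}
    (h : ∀ 𝒰 : Ultrafilter ℕ, (𝒰 : Filter ℕ) ≤ l → TendstoLocallyUniformlyOn f F 𝒰 DD) :
    TendstoLocallyUniformlyOn f F l DD := by
  rw [tendstoLocallyUniformlyOn_iff_forall_isCompact isOpen_ball]
  intro K hK hK' u hu
  refine Filter.mem_iff_ultrafilter.2 fun 𝒰 h𝒰 => ?_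
  exact (tendstoLocallyUniformlyOn_iff_forall_isCompact isOpen_ball).1 (h 𝒰 h𝒰) K hK hK' u hu

/-- Joint convergence. -/
theorem joint {ι : Type} {l : Filter ι} {k : ι → ℕ} {g : ι → ℂ} {v : ℂ}
    (h' : CI.Conf V DD a' b') (hB : TendstoLocallyUniformlyOn B b' atTop DD)
    (hk : Tendsto k l atTop) (hv : v ∈ DD) (hg : Tendsto g l (𝓝 v)) :
    Tendsto (fun i => B (k i) (g i)) l (𝓝 (b' v)) := by
  have h1 : TendstoLocallyUniformlyOn (fun i => B (k i)) b' l DD := fun u hu x hx => by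
    obtain ⟨t, ht, ht'⟩ := hB u hu x hx
    exact ⟨t, ht, hk.eventually ht'⟩
  refine h1.tendsto_comp (h'.dg.continuousOn v hv) hv ?_
  rw [isOpen_ball.nhdsWithin_eq hv]
  exact hg

theorem lim_a (h : ∀ n, CI.Conf (W n) DD (A n) (B n)) (h' : CI.Conf V DD a' b')
    (hz : ∀ n, b' 0 = B n 0) (hK : ∀ K, IsCompact K → K ⊆ V → ∀ᶠ n in atTop, K ⊆ W n)
    (hB : TendstoLocallyUniformlyOn B b' atTop DD) {x : ℂ} (hx : x ∈ V) :
    Tendsto (fun y : ℕ × ℂ => A y.1 y.2) (atTop ×ˢ 𝓝 x) (𝓝 (a' x)) := by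
  have hc : ContinuousAt a' x := h'.df.continuousOn.continuousAt (h'.ho.mem_nhds hx)
  have h1 : ‖a' x‖ < 1 := by simpa using h'.mf hx
  obtain ⟨s, hs1, hs2⟩ := exists_between h1
  obtain ⟨r, hr1, hr2⟩ := exists_between hs2
  have hs0 : 0 < s := (norm_nonneg _).trans_lt hs1
  have hr0 : 0 < r := hs0.trans hr1
  have h2 : ∀ᶠ y : ℕ × ℂ in atTop ×ˢ 𝓝 x, y.2 ∈ W y.1 ∧ A y.1 y.2 ∈ closedBall (0 : ℂ) (s / r) := by
    have h3 : ∀ᶠ w in 𝓝 x, w ∈ V ∧ ‖a' w‖ < s :=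
      (h'.ho.eventually_mem hx).and (hc.norm.eventually (gt_mem_nhds hs1))
    filter_upwards [(ev_maps h' hK hr2).prod_mk h3] with y hy
    obtain ⟨hy1, hy2, hy3⟩ := hy
    have h4 : a' y.2 ∈ ball (0 : ℂ) r := by
      rw [mem_ball_zero_iff]
      exact hy3.trans hr1
    have h5 := norm_le (h y.1) h' (hz y.1) hr2.le hy1 h4
    have h6 := hy1 h4
    rw [h'.gf _ hy2] at h5 h6
    refine ⟨h6, mem_closedBall_zero_iff.2 (h5.trans ?_)⟩
    rw [one_div, inv_mul_eq_div]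
    exact div_le_div_of_nonneg_right hy3.le hr0.le
  rw [tendsto_iff_ultrafilter]
  intro 𝒲 h𝒲
  obtain ⟨v, hv, hv'⟩ := (isCompact_closedBall (0 : ℂ) (s / r)).ultrafilter_le_nhds
    (𝒲.map fun y => A y.1 y.2) (by
      rw [le_principal_iff, Ultrafilter.coe_map, Filter.mem_map]
      exact (h2.filter_mono h𝒲).mono fun y hy => hy.2)
  have hvD : v ∈ DD := closedBall_subset_ball ((div_lt_one hr0).2 hr1) hv
  have h7 : Tendsto (fun y : ℕ × ℂ => A y.1 y.2) 𝒲 (𝓝 v) := hv'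
  have h8 := joint h' hB (tendsto_fst.mono_left h𝒲) hvD h7
  have h9 : Tendsto (fun y : ℕ × ℂ => B y.1 (A y.1 y.2)) 𝒲 (𝓝 x) := by
    refine (tendsto_snd.mono_left h𝒲).congr' ?_
    filter_upwards [h𝒲 h2] with y hy
    exact ((h y.1).gf _ hy.1).symm
  have h10 : a' x = v := by rw [← tendsto_nhds_unique h8 h9, h'.fg v hvD]
  rw [h10]
  exact h7

theorem lim_out (h : ∀ n, CI.Conf (W n) DD (A n) (B n)) (h' : CI.Conf V DD a' b')
    (hB : TendstoLocallyUniformlyOn B b' atTop DD) {w : ℂ} (hw : w ∉ V) (hw' : ∀ n, w ∈ W n) :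
    Tendsto (fun n => ‖A n w‖) atTop (𝓝 1) := by
  rw [tendsto_iff_ultrafilter]
  intro 𝒰 h𝒰
  obtain ⟨v, hv, hv'⟩ := (isCompact_closedBall (0 : ℂ) 1).ultrafilter_le_nhds
    (𝒰.map fun n => A n w) (by
      rw [le_principal_iff, Ultrafilter.coe_map, Filter.mem_map]
      exact Eventually.of_forall (p := fun n => A n w ∈ closedBall (0 : ℂ) 1) fun n =>
        ball_subset_closedBall ((h n).mf (hw' n)))
  have h7 : Tendsto (fun n => A n w) 𝒰 (𝓝 v) := hv'
  have h1 : ‖v‖ = 1 := by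
    refine le_antisymm (mem_closedBall_zero_iff.1 hv) (not_lt.1 fun h2 => hw ?_)
    have hvD : v ∈ DD := mem_ball_zero_iff.2 h2
    have h8 := joint (k := id) h' hB h𝒰 hvD h7
    simp only [id, fun n => (h n).gf w (hw' n)] at h8
    rw [tendsto_nhds_unique tendsto_const_nhds h8]
    exact h'.mg hvD
  rw [← h1]
  exact h7.norm

end main

end Cara

theorem cara : CARA := by
  intro U V z a b a' b' h h' hb hn hn' hK hp
  have hB := Cara.of_ultra (Cara.lim_ultra h h' hb hn hn' hK hp)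
  refine ⟨hB, ?_, fun w hw hw' => Cara.lim_out h h' hB hw hw'⟩
  rw [tendstoLocallyUniformlyOn_iff_forall_tendsto]
  intro x hx
  rw [h'.ho.nhdsWithin_eq hx]
  have h1 := Cara.lim_a h h' (fun n => hn'.1.trans (hn n).1.symm) hK hB hx
  have h2 : Tendsto (fun y : ℕ × ℂ => a' y.2) (atTop ×ˢ 𝓝 x) (𝓝 (a' x)) :=
    (h'.df.continuousOn.continuousAt (h'.ho.mem_nhds hx)).tendsto.comp tendsto_snd
  exact (h2.prodMk_nhds h1).mono_right (nhds_le_uniformity _)

end Vale.Agent.P155.Tree
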