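import Vale.Agent.P155Z.Sk

/-!
# P155, branching SLE₄(-2): the limit of the harmonic measure is `0`, `1` or `-1`
-/

namespace Vale.Agent.P155.Tree

open MeasureTheory Filter Topology Set Vale.Agent.P164

namespace DETa

theorem mono_of_deriv {f f' : ℝ → ℝ} {a b : ℝ} (h : ∀ t ∈ Ioo a b, HasDerivAt f (f' t) t)
    (h0 : ∀ t ∈ Ioo a b, 0 ≤ f' t) : MonotoneOn f (Ioo a b) := by
  refine monotoneOn_of_deriv_nonneg (convex_Ioo a b)
    (fun t ht => (h t ht).continuousAt.continuousWithinAt) ?_ ?_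
  · rw [interior_Ioo]
    exact fun t ht => (h t ht).differentiableAt.differentiableWithinAt
  · rw [interior_Ioo]
    intro t ht
    rw [(h t ht).deriv]
    exact h0 t ht

theorem arg_mem {z : ℂ} (h : 0 < z.im) : z.arg ∈ Icc 0 Real.pi :=
  ⟨Complex.arg_nonneg_iff.2 h.le, Complex.arg_le_pi z⟩

theorem sin_arg_pos {z : ℂ} (h : 0 < z.im) : 0 < Real.sin z.arg := by
  rw [Complex.sin_arg]
  exact div_pos h (h.trans_le ((le_abs_self _).trans (Complex.abs_im_le_norm z)))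

theorem re_eq {Z : ℂ} (h : 0 < Z.im) (x : ℝ) :
    (Complex.log Z - Complex.log (Z + x)).re =
      Real.log (Real.sin (Z + x).arg) - Real.log (Real.sin Z.arg) := by
  have h1 : (Z + x).im = Z.im := by simp
  have h2 : ∀ u : ℂ, 0 < u.im → ‖u‖ ≠ 0 := fun u hu =>
    (hu.trans_le ((le_abs_self _).trans (Complex.abs_im_le_norm u))).ne'
  rw [Complex.sub_re, Complex.log_re, Complex.log_re, Complex.sin_arg, Complex.sin_arg,
    Real.log_div (h1 ▸ h.ne') (h2 _ (h1 ▸ h)), Real.log_div h.ne' (h2 _ h), h1]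
  ring

theorem sin_zero {u : ℝ} (h : u ∈ Icc 0 Real.pi) (h0 : Real.sin u = 0) : u = 0 ∨ u = Real.pi := by
  rcases h.2.eq_or_lt with h1 | h1
  · exact Or.inr h1
  · exact Or.inl ((Real.sin_eq_zero_iff_of_lt_of_lt (by linarith [h.1, Real.pi_pos]) h1).1 h0)

theorem log_sin_bot {F : Filter ℝ} {f : ℝ → ℝ} {u : ℝ} (h : Tendsto f F (𝓝 u))
    (h0 : Real.sin u = 0) (hp : ∀ᶠ t in F, 0 < Real.sin (f t)) :
    Tendsto (fun t => Real.log (Real.sin (f t))) F atBot := by
  refine Real.tendsto_log_nhdsGT_zero.comp (tendsto_nhdsWithin_iff.2 ⟨?_, hp⟩)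
  rw [← h0]
  exact (Real.continuous_sin.tendsto u).comp h

theorem log_sin_fin {F : Filter ℝ} {f : ℝ → ℝ} {u : ℝ} (h : Tendsto f F (𝓝 u))
    (h0 : Real.sin u ≠ 0) :
    Tendsto (fun t => Real.log (Real.sin (f t))) F (𝓝 (Real.log (Real.sin u))) :=
  ((Real.continuous_sin.tendsto u).comp h).log h0

theorem quot_eq {Z : ℂ} (h : 0 < Z.im) {x : ℝ} (hx : x ≠ 0) :
    (2 / Z + 2 / (x : ℂ)) / (Z + x) =
      ((2 / (x * Complex.normSq Z) : ℝ) : ℂ) * (starRingEnd ℂ) Z := by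
  have h1 : Z ≠ 0 := fun h0 => by simp [h0] at h
  have h2 : Z + x ≠ 0 := fun h0 => by
    have := congrArg Complex.im h0
    simp at this
    linarith
  have h3 : (x : ℂ) ≠ 0 := by exact_mod_cast hx
  have h4 : (starRingEnd ℂ) Z ≠ 0 := by simpa using h1
  push_cast
  rw [Complex.normSq_eq_conj_mul_self]
  field_simp
  ring

/-- The end of an excursion. -/
theorem core {Z : ℝ → ℂ} {x : ℝ → ℝ} {t0 T σ a : ℝ} (hT : t0 < T) (hσ : σ * σ = 1)
    (him : ∀ t ∈ Ioo t0 T, 0 < (Z t).im) (hx : ∀ t ∈ Ioo t0 T, 0 < σ * x t)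
    (hd : ∀ t ∈ Ioo t0 T, HasDerivAt (fun s => Z s + (x s : ℂ)) (2 / Z t + 2 / (x t : ℂ)) t)
    (hY : Tendsto (fun s => Z s + (x s : ℂ)) (𝓝[<] T) (𝓝 0))
    (ha : Tendsto (fun t => ((Z t).arg - (Z t + (x t : ℂ)).arg) / Real.pi) (𝓝[<] T) (𝓝 a))
    (h1 : ¬ Tendsto (fun t => (Complex.log (Z t) - Complex.log (Z t + (x t : ℂ))).re) (𝓝[<] T)
      atTop)
    (h2 : ¬ Tendsto (fun t => (Complex.log (Z t) - Complex.log (Z t + (x t : ℂ))).re) (𝓝[<] T)
      atBot) : a = 0 ∨ a = 1 ∨ a = -1 := by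
  have hπ := Real.pi_pos
  have hσ1 : |σ| = 1 := by
    have h3 : |σ| * |σ| = 1 := by rw [← abs_mul, hσ, abs_one]
    nlinarith [abs_nonneg σ]
  have hx0 : ∀ t ∈ Ioo t0 T, x t ≠ 0 := fun t ht h => by simpa [h] using hx t ht
  have hYim : ∀ t ∈ Ioo t0 T, 0 < (Z t + (x t : ℂ)).im := fun t ht => by simpa using him t ht
  have hev : ∀ᶠ t in 𝓝[<] T, t ∈ Ioo t0 T := Ioo_mem_nhdsLT hT
  have hlog : ∀ t ∈ Ioo t0 T, HasDerivAt (fun s => Complex.log (Z s + (x s : ℂ)))
      (((2 / (x t * Complex.normSq (Z t)) : ℝ) : ℂ) * (starRingEnd ℂ) (Z t)) t := fun t ht => by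
    rw [← quot_eq (him t ht) (hx0 t ht)]
    exact (hd t ht).clog_real (Or.inr (hYim t ht).ne')
  have hr : ∀ t ∈ Ioo t0 T, 0 < σ * (2 / (x t * Complex.normSq (Z t))) := fun t ht => by
    have h3 : Z t ≠ 0 := fun h0 => by simpa [h0] using him t ht
    have h4 := Complex.normSq_pos.2 h3
    have h5 : σ * (2 / (x t * Complex.normSq (Z t))) =
        2 / (σ * x t * Complex.normSq (Z t)) := by
      have h6 := hx0 t ht
      have h7 : σ ≠ 0 := fun h => by simp [h] at hσ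
      field_simp
      nlinarith
    rw [h5]
    exact div_pos two_pos (mul_pos (hx t ht) h4)
  have hφ : ∀ t ∈ Ioo t0 T, HasDerivAt (fun s => (Z s + (x s : ℂ)).arg)
      (-(2 / (x t * Complex.normSq (Z t)) * (Z t).im)) t := fun t ht => by
    have h3 := Complex.imCLM.hasFDerivAt.comp_hasDerivAt t (hlog t ht)
    simpa [Function.comp_def, Complex.log_im, -Complex.ofReal_div] using h3
  have hn : ∀ t ∈ Ioo t0 T, HasDerivAt (fun s => Real.log ‖Z s + (x s : ℂ)‖)
      (2 / (x t * Complex.normSq (Z t)) * (Z t).re) t := fun t ht => by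
    have h3 := Complex.reCLM.hasFDerivAt.comp_hasDerivAt t (hlog t ht)
    simpa [Function.comp_def, Complex.log_re, -Complex.ofReal_div] using h3
  have hb : ∀ t ∈ Ioo t0 T, |σ * (Z t + (x t : ℂ)).arg| ≤ Real.pi := fun t ht => by
    rw [abs_mul, hσ1, one_mul]
    exact Complex.abs_arg_le_pi _
  obtain ⟨φ, hφl⟩ : ∃ φ, Tendsto (fun t => (Z t + (x t : ℂ)).arg) (𝓝[<] T) (𝓝 φ) := by
    have h3 : MonotoneOn (fun s => -σ * (Z s + (x s : ℂ)).arg) (Ioo t0 T) :=
      mono_of_deriv (fun t ht => (hφ t ht).const_mul (-σ)) fun t ht => by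
        nlinarith [mul_pos (hr t ht) (him t ht)]
    have h4 := (h3.tendsto_nhdsWithin_Ioo_left (nonempty_Ioo.2 hT) ⟨Real.pi, by
      rintro _ ⟨t, ht, rfl⟩
      have := (abs_le.1 (hb t ht)).1
      dsimp only
      linarith⟩).const_mul (-σ)
    refine ⟨_, h4.congr fun t => ?_⟩
    rw [← mul_assoc, neg_mul_neg, hσ, one_mul]
  have hθ : Tendsto (fun t => (Z t).arg) (𝓝[<] T) (𝓝 (φ + Real.pi * a)) := by
    refine (hφl.add (ha.const_mul Real.pi)).congr fun t => ?_
    field_simp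
    ring
  have mφ : φ ∈ Icc 0 Real.pi :=
    isClosed_Icc.mem_of_tendsto hφl (hev.mono fun t ht => arg_mem (hYim t ht))
  have mθ : φ + Real.pi * a ∈ Icc 0 Real.pi :=
    isClosed_Icc.mem_of_tendsto hθ (hev.mono fun t ht => arg_mem (him t ht))
  have hre : (fun t => Real.log (Real.sin (Z t + (x t : ℂ)).arg) +
      -Real.log (Real.sin (Z t).arg)) =ᶠ[𝓝[<] T]
      fun t => (Complex.log (Z t) - Complex.log (Z t + (x t : ℂ))).re :=
    hev.mono fun t ht => by
      dsimp only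
      rw [re_eq (him t ht), sub_eq_add_neg]
  by_cases s1 : Real.sin φ = 0 <;> by_cases s2 : Real.sin (φ + Real.pi * a) = 0
  · rcases sin_zero mφ s1 with h3 | h3 <;> rcases sin_zero mθ s2 with h4 | h4
    · exact Or.inl (mul_left_cancel₀ hπ.ne' (by linarith))
    · exact Or.inr (Or.inl (mul_left_cancel₀ hπ.ne' (by linarith)))
    · exact Or.inr (Or.inr (mul_left_cancel₀ hπ.ne' (by linarith)))
    · exact Or.inl (mul_left_cancel₀ hπ.ne' (by linarith))
  · exact (h2 (((log_sin_bot hφl s1 (hev.mono fun t ht => sin_arg_pos (hYim t ht))).atBot_add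
      (log_sin_fin hθ s2).neg).congr' hre)).elim
  · exact (h1 (((log_sin_fin hφl s1).add_atTop (tendsto_neg_atBot_atTop.comp
      (log_sin_bot hθ s2 (hev.mono fun t ht => sin_arg_pos (him t ht))))).congr' hre)).elim
  · exfalso
    have h3 : 0 < Real.sin (φ + Real.pi * a) :=
      lt_of_le_of_ne (Real.sin_nonneg_of_mem_Icc mθ) (Ne.symm s2)
    set c := Real.sin (φ + Real.pi * a) / 2 with hc
    have hc0 : 0 < c := half_pos h3
    have h4 : ∀ᶠ t in 𝓝[<] T, c < Real.sin (Z t).arg :=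
      ((Real.continuous_sin.tendsto _).comp hθ).eventually (lt_mem_nhds (half_lt_self h3))
    obtain ⟨t1, ht1, h5⟩ := (mem_nhdsLT_iff_exists_Ioo_subset).1 (hev.and h4)
    have h6 : MonotoneOn (fun s => c * Real.log ‖Z s + (x s : ℂ)‖ -
        σ * (Z s + (x s : ℂ)).arg) (Ioo t1 T) := by
      refine mono_of_deriv (fun t ht => ((hn t (h5 ht).1).const_mul c).sub
        ((hφ t (h5 ht).1).const_mul σ)) fun t ht => ?_
      have h7 := hr t (h5 ht).1
      have h8 : c < Real.sin (Z t).arg := (h5 ht).2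
      have h9 := him t (h5 ht).1
      rw [Complex.sin_arg, lt_div_iff₀
        (h9.trans_le ((le_abs_self _).trans (Complex.abs_im_le_norm _)))] at h8
      have h10 : |σ * (Z t).re| ≤ ‖Z t‖ := by
        rw [abs_mul, hσ1, one_mul]
        exact Complex.abs_re_le_norm _
      have h11 := mul_le_mul_of_nonneg_left (abs_le.1 h10).1 hc0.le
      have h12 : 0 ≤ σ * (2 / (x t * Complex.normSq (Z t))) *
          (c * (σ * (Z t).re) + (Z t).im) := mul_nonneg h7.le (by linarith)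
      have h13 : σ * (2 / (x t * Complex.normSq (Z t))) * (c * (σ * (Z t).re) + (Z t).im) =
          σ * σ * (c * (2 / (x t * Complex.normSq (Z t)) * (Z t).re)) -
            σ * -(2 / (x t * Complex.normSq (Z t)) * (Z t).im) := by ring
      rw [h13, hσ, one_mul] at h12
      exact h12
    have h7 : Tendsto (fun s => c * Real.log ‖Z s + (x s : ℂ)‖) (𝓝[<] T) atBot := by
      refine Tendsto.const_mul_atBot hc0 (Real.tendsto_log_nhdsGT_zero.comp
        (tendsto_nhdsWithin_iff.2 ⟨by simpa using hY.norm, hev.mono fun t ht => ?_⟩))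
      exact (hYim t ht).trans_le ((le_abs_self _).trans (Complex.abs_im_le_norm _))
    obtain ⟨t2, ht2, ht2'⟩ := exists_between (show t1 < T from ht1)
    obtain ⟨t, h8, h9⟩ := ((h7.eventually (eventually_lt_atBot
      (c * Real.log ‖Z t2 + (x t2 : ℂ)‖ - σ * (Z t2 + (x t2 : ℂ)).arg - Real.pi))).and
      (Ioo_mem_nhdsLT ht2')).exists
    have h10 : t ∈ Ioo t1 T := ⟨ht2.trans h9.1, h9.2⟩
    have h11 := h6 ⟨ht2, ht2'⟩ h10 h9.1.le
    have h12 := (abs_le.1 (hb t (h5 h10).1)).1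
    dsimp only at h11
    linarith

theorem pv_int {x : ℝ → ℝ} (hx : Continuous x) {ε : ℝ} (hε : 0 < ε) (a b : ℝ) :
    IntervalIntegrable (fun s => if ε < |x s| then 2 / x s else 0) volume a b := by
  have h1 : Measurable (fun s => if ε < |x s| then 2 / x s else 0) :=
    Measurable.ite (measurableSet_lt measurable_const hx.abs.measurable)
      (measurable_const.div hx.measurable) measurable_const
  refine (intervalIntegrable_const (c := 2 / ε)).mono_fun' h1.aestronglyMeasurable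
    (Eventually.of_forall fun s => ?_)
  dsimp only
  split_ifs with h
  · rw [Real.norm_eq_abs, abs_div, abs_two]
    exact div_le_div_of_nonneg_left zero_le_two hε h.le
  · rw [norm_zero]
    positivity

/-- The force point away from the zeros of `x`. -/
theorem force_eq {x o : ℝ → ℝ} {e : ℕ → ℝ} (hx : Continuous x) (he : ∀ k, 0 < e k)
    (hl : Tendsto e atTop (𝓝 0))
    (hc : ∀ T : ℝ, TendstoUniformlyOn (fun k t => -pv x (e k) t) o atTop (Icc 0 T)) {a b : ℝ}
    (ha : 0 ≤ a) (hab : a ≤ b) (h0 : ∀ s ∈ Icc a b, x s ≠ 0) :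
    o b = o a - ∫ s in a..b, 2 / x s := by
  obtain ⟨m, hm, hmin⟩ := isCompact_Icc.exists_isMinOn (nonempty_Icc.2 hab) hx.abs.continuousOn
  have h1 := ((hc b).tendsto_at ⟨ha.trans hab, le_rfl⟩).sub ((hc b).tendsto_at ⟨ha, hab⟩)
  have h2 : ∀ᶠ k in atTop, -pv x (e k) b - -pv x (e k) a = -∫ s in a..b, 2 / x s := by
    filter_upwards [hl.eventually (gt_mem_nhds (abs_pos.2 (h0 m hm)))] with k hk
    have h3 := intervalIntegral.integral_interval_sub_left (pv_int hx (he k) 0 b)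
      (pv_int hx (he k) 0 a)
    have h4 : ∫ s in a..b, (if e k < |x s| then 2 / x s else 0) = ∫ s in a..b, 2 / x s := by
      refine intervalIntegral.integral_congr fun s hs => ?_
      rw [uIcc_of_le hab] at hs
      exact if_pos (hk.trans_le (hmin hs))
    unfold pv
    linarith
  have h3 := tendsto_nhds_unique (h1.congr' h2) tendsto_const_nhds
  linarith

theorem force_deriv {x o : ℝ → ℝ} {e : ℕ → ℝ} (hx : Continuous x) (he : ∀ k, 0 < e k)
    (hl : Tendsto e atTop (𝓝 0))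
    (hc : ∀ T : ℝ, TendstoUniformlyOn (fun k t => -pv x (e k) t) o atTop (Icc 0 T)) {a b : ℝ}
    (ha : 0 ≤ a) (h0 : ∀ s ∈ Ico a b, x s ≠ 0) {t : ℝ} (ht : t ∈ Ioo a b) :
    HasDerivAt o (-(2 / x t)) t := by
  have h1 : ∀ s ∈ Ico a b, ContinuousAt (fun u => 2 / x u) s := fun s hs =>
    continuousAt_const.div hx.continuousAt (h0 s hs)
  have h2 : IntervalIntegrable (fun u => 2 / x u) volume a t := by
    refine ContinuousOn.intervalIntegrable fun s hs => (h1 s ?_).continuousWithinAt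
    rw [uIcc_of_le ht.1.le] at hs
    exact ⟨hs.1, hs.2.trans_lt ht.2⟩
  have h3 := (intervalIntegral.integral_hasDerivAt_right h2
    (measurable_const.div hx.measurable).stronglyMeasurable.stronglyMeasurableAtFilter
    (h1 t ⟨ht.1.le, ht.2⟩)).const_sub (o a)
  refine h3.congr_of_eventuallyEq ?_
  filter_upwards [Ioo_mem_nhds ht.1 ht.2] with s hs
  exact force_eq hx he hl hc ha hs.1.le fun u hu => h0 u ⟨hu.1, hu.2.trans_lt hs.2⟩

theorem sign_const {x : ℝ → ℝ} (hx : Continuous x) {a b : ℝ} (hab : a < b)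
    (h0 : ∀ s ∈ Ico a b, x s ≠ 0) : ∃ σ : ℝ, σ * σ = 1 ∧ ∀ t ∈ Ioo a b, 0 < σ * x t := by
  have key : ∀ σ : ℝ, σ ≠ 0 → 0 < σ * x a → ∀ t ∈ Ioo a b, 0 < σ * x t := fun σ hσ h t ht => by
    by_contra h1
    obtain ⟨s, hs, h2⟩ := intermediate_value_Icc' ht.1.le
      (continuous_const.mul hx).continuousOn (⟨not_lt.1 h1, h.le⟩ : (0 : ℝ) ∈ Icc _ _)
    exact h0 s ⟨hs.1, hs.2.trans_lt ht.2⟩ ((mul_eq_zero.1 h2).resolve_left hσ)
  rcases lt_or_gt_of_ne (h0 a ⟨le_rfl, hab⟩) with h | h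
  · exact ⟨-1, by norm_num, key _ (by norm_num) (by linarith)⟩
  · exact ⟨1, by norm_num, key _ (by norm_num) (by linarith)⟩

end DETa

open DETa in
/-- The limit of `hh` is `0`, `1` or `-1`. -/
theorem det_of (hG : GEO0) : DET := by
  intro x o e hx ho he hl hc hrec w hw a ha h1 h2
  obtain ⟨⟨g0, g1⟩, g2, -, -, g5⟩ := hG (o + x) (ho.add hx) w hw
  have : Nonempty (life (o + x) w) := ⟨⟨0, g0⟩⟩
  by_cases hz : ∀ t ∈ life (o + x) w, ∃ s ∈ life (o + x) w, t ≤ s ∧ x s = 0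
  · refine Or.inl (tendsto_nhds_unique_of_frequently_eq ha tendsto_const_nhds ?_)
    refine frequently_atTop.2 fun t => ?_
    obtain ⟨s, hs, h3, h4⟩ := hz t.1 t.2
    exact ⟨⟨s, hs⟩, h3, by simp [hh, h4]⟩
  push Not at hz
  obtain ⟨t0, ht0, hz⟩ := hz
  have hbd : BddAbove (life (o + x) w) := by
    obtain ⟨s, h3, h4⟩ := hrec t0
    refine ⟨s, fun t ht => ?_⟩
    by_contra h5
    exact hz s ((g1 t ht).2 s (ht0.1.trans h3) (not_le.1 h5).le) h3 h4
  set T := sSup (life (o + x) w) with hT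
  have hlt : ∀ t ∈ life (o + x) w, t < T := fun t ht => by
    obtain ⟨s, hs, h3⟩ := (g1 t ht).1
    exact h3.trans_le (le_csSup hbd hs)
  have hmem : ∀ t, 0 ≤ t → t < T → t ∈ life (o + x) w := fun t h3 h4 => by
    obtain ⟨s, hs, h5⟩ := exists_lt_of_lt_csSup ⟨0, g0⟩ h4
    exact (g1 s hs).2 t h3 h5.le
  have hmap : map ((↑) : life (o + x) w → ℝ) atTop = 𝓝[<] T :=
    map_coe_atTop_of_Ioo_subset hlt fun _ _ => ⟨0, hlt 0 g0, fun t ht => hmem t ht.1.le ht.2⟩
  have hT0 := hlt t0 ht0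
  have hin : ∀ t ∈ Ico t0 T, t ∈ life (o + x) w := fun t ht => hmem t (ht0.1.trans ht.1) ht.2
  have hx0 : ∀ t ∈ Ico t0 T, x t ≠ 0 := fun t ht => hz t (hin t ht) ht.1
  have him : ∀ t ∈ Ioo t0 T, 0 < (Zf (o + x) w t).im := fun t ht =>
    Zf_im_pos (hin t ⟨ht.1.le, ht.2⟩).1 (hin t ⟨ht.1.le, ht.2⟩).2
  have hZ : Tendsto (Zf (o + x) w) (𝓝[<] T) (𝓝 0) := by
    rw [← hmap, tendsto_map'_iff]
    exact g2 hbd
  have hY : Tendsto (fun s => Zf (o + x) w s + (x s : ℂ)) (𝓝[<] T) (𝓝 (x T : ℂ)) := by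
    have h3 := hZ.add (((Complex.continuous_ofReal.comp hx).tendsto T).mono_left
      (nhdsWithin_le_nhds (s := Iio T)))
    rwa [zero_add] at h3
  have h1' : ¬ Tendsto (fun t => (NN x o w t).re) (𝓝[<] T) atTop := by
    rw [← hmap, tendsto_map'_iff]
    exact h1
  have h2' : ¬ Tendsto (fun t => (NN x o w t).re) (𝓝[<] T) atBot := by
    rw [← hmap, tendsto_map'_iff]
    exact h2
  by_cases hxT : x T = 0
  · obtain ⟨σ, hσ, hs⟩ := sign_const hx hT0 hx0
    refine core hT0 hσ him hs (fun t ht => ?_) (by simpa [hxT] using hY) ?_ h1' h2'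
    · obtain ⟨s, hs, h3⟩ := (g1 t (hin t ⟨ht.1.le, ht.2⟩)).1
      have h4 : 0 < t := ht0.1.trans_lt ht.1
      have h5 := (gf_hasDeriv hs.2 ⟨h4.le, h3.le⟩).hasDerivAt (Icc_mem_nhds h4 h3)
      have h6 := h5.sub (force_deriv hx he hl hc ht0.1 hx0 ht).ofReal_comp
      have h7 : (fun s => Zf (o + x) w s + (x s : ℂ)) = gf (o + x) w - fun s => (o s : ℂ) := by
        funext s
        simp only [gf, Pi.sub_apply, Pi.add_apply, Complex.ofReal_add]
        ring
      rw [h7]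
      refine h6.congr_deriv ?_
      push_cast
      ring
    · rw [← hmap, tendsto_map'_iff]
      refine ha.congr fun t => ?_
      have h3 : gf (o + x) w t - ((o t + x t : ℝ) : ℂ) = Zf (o + x) w t := Zf_eq.symm
      have h4 : gf (o + x) w t - (o t : ℂ) = Zf (o + x) w t + (x t : ℂ) := by
        simp only [gf, Pi.add_apply, Complex.ofReal_add]
        ring
      simp only [hh, Function.comp_apply]
      rw [g5 t.1 t.2, h3, h4]
  · exfalso
    refine h2' ?_
    have h3 : Tendsto (fun t => Real.log ‖Zf (o + x) w t‖) (𝓝[<] T) atBot := by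
      refine Real.tendsto_log_nhdsGT_zero.comp (tendsto_nhdsWithin_iff.2
        ⟨by simpa using hZ.norm, (show ∀ᶠ t in 𝓝[<] T, t ∈ Ioo t0 T from
          Ioo_mem_nhdsLT hT0).mono fun t ht => ?_⟩)
      exact (him t ht).trans_le ((le_abs_self _).trans (Complex.abs_im_le_norm _))
    have h4 := (hY.norm.log (by simpa using hxT)).neg
    refine (h3.atBot_add h4).congr fun t => ?_
    rw [NN, Complex.sub_re, Complex.log_re, Complex.log_re, sub_eq_add_neg]

end Vale.Agent.P155.Tree
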