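import Vale.Agent.P155Z.FIX.B

/-!
# P155, block FIX: the identities for a fixed carpet
-/

namespace Vale.Agent.P155.Tree

open MeasureTheory Filter Topology ProbabilityTheory Set TopologicalSpace Metric Vale.Agent.P155
  Vale.Agent.P155.Q1 Vale.Agent.P155.Uq

namespace Fix

variable {Ω : Set ℂ} {K : NonemptyCompacts ℂ}

/-- approximation of a test function of `Ω` by test functions of `Ω \ K` -/
theorem exists_approx (hEN : EN) (hΩ : IsOpen Ω) (h0 : volume ((K : Set ℂ) ∩ Ω) = 0)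
    {φ : ℂ → ℝ} (hφ : IsTest Ω φ) : ∃ u : ℕ → ℂ → ℝ, (∀ n, IsTest (Ω \ (K : Set ℂ)) (u n)) ∧
      (∀ n z, |u n z| ≤ |φ z|) ∧ (∀ n z, |u n z - φ z| ≤ |φ z|) ∧
      ∀ᵐ z, Tendsto (fun n => u n z) atTop (𝓝 (φ z)) := by
  obtain ⟨ζ, h1, h2, h3⟩ := hEN.2.2 _ (isOpen_O hΩ K)
  refine ⟨fun n z => ζ n z * φ z, fun n => ⟨(h1 n).1.mul hφ.1, (h1 n).2.1.mul_right,
    (tsupport_mul_subset_left).trans (h1 n).2.2⟩, fun n z => ?_, fun n z => ?_, ?_⟩
  · rw [abs_mul, abs_of_nonneg (h2 n z).1]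
    exact mul_le_of_le_one_left (abs_nonneg _) (h2 n z).2
  · have e : ζ n z * φ z - φ z = -((1 - ζ n z) * φ z) := by ring
    rw [e, abs_neg, abs_mul, abs_of_nonneg (by linarith [(h2 n z).2])]
    exact mul_le_of_le_one_left (abs_nonneg _) (by linarith [(h2 n z).1])
  · filter_upwards [measure_eq_zero_iff_ae_notMem.1 h0] with z hz
    by_cases hzΩ : z ∈ Ω
    · refine tendsto_const_nhds.congr' ?_
      filter_upwards [h3 z ⟨hzΩ, fun hK => hz ⟨hK, hzΩ⟩⟩] with n hn
      rw [hn, one_mul]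
    · simp [CI.test_off hφ hzΩ]

theorem bmf_test {U : Set ℂ} {φ : ℂ → ℝ} (hφ : IsTest U φ) : BMf φ :=
  ⟨hφ.1.continuous.measurable, test_bdd hφ⟩

section

variable {φ : ℂ → ℝ} {u : ℕ → ℂ → ℝ}

theorem lim_int (hφ : IsTest Ω φ) (hu : ∀ n, IsTest (Ω \ (K : Set ℂ)) (u n))
    (h1 : ∀ n z, |u n z| ≤ |φ z|) (h3 : ∀ᵐ z, Tendsto (fun n => u n z) atTop (𝓝 (φ z)))
    {γ : ℂ → ℝ} (hγ : Measurable γ) (hb : ∃ C : ℝ, ∀ z, |γ z| ≤ C) :
    Tendsto (fun n => ∫ z, γ z * u n z) atTop (𝓝 (∫ z, γ z * φ z)) := by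
  refine tendsto_integral_of_dominated_convergence (fun z => ‖γ z * φ z‖)
    (fun n => (int_mul (hu n) hγ hb).aestronglyMeasurable) (int_mul hφ hγ hb).norm
    (fun n => Eventually.of_forall fun z => ?_) ?_
  · rw [norm_mul, norm_mul]
    exact mul_le_mul_of_nonneg_left (h1 n z) (norm_nonneg _)
  · filter_upwards [h3] with z hz
    exact hz.const_mul _

theorem lim_en (hEN : EN) (hb : Bornology.IsBounded Ω) (hφ : IsTest Ω φ)
    (hu : ∀ n, IsTest (Ω \ (K : Set ℂ)) (u n)) (h2 : ∀ n z, |u n z - φ z| ≤ |φ z|)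
    (h3 : ∀ᵐ z, Tendsto (fun n => u n z) atTop (𝓝 (φ z))) {U : Set ℂ} (hU : IsOpen U)
    (hUΩ : U ⊆ Ω) : Tendsto (fun n => greenEnergy U (u n)) atTop (𝓝 (greenEnergy U φ)) := by
  obtain ⟨C, -, hC⟩ := hEN.2.1 Ω hb
  have a1 : Tendsto (fun n => ∫ z in U, (u n z - φ z) ^ 2) atTop (𝓝 (∫ _z in U, (0 : ℝ))) := by
    refine tendsto_integral_of_dominated_convergence (fun z => φ z * φ z)
      (fun n => (((hu n).1.continuous.sub hφ.1.continuous).pow 2).aestronglyMeasurable)
      (int_mul hφ hφ.1.continuous.measurable (test_bdd hφ)).integrableOn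
      (fun n => Eventually.of_forall fun z => ?_) (ae_restrict_of_ae ?_)
    · rw [Real.norm_eq_abs, abs_of_nonneg (sq_nonneg _), ← sq, ← sq_abs, ← sq_abs (φ z)]
      exact pow_le_pow_left₀ (abs_nonneg _) (h2 n z) 2
    · filter_upwards [h3] with z hz
      simpa using (hz.sub_const (φ z)).pow 2
  have a2 : Tendsto (fun n => C * √(∫ z in U, (u n z - φ z) ^ 2)) atTop (𝓝 0) := by
    simpa using a1.sqrt.const_mul C
  have a3 : Tendsto (fun n => √(greenEnergy U (u n))) atTop (𝓝 √(greenEnergy U φ)) := by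
    rw [tendsto_iff_norm_sub_tendsto_zero]
    exact squeeze_zero (fun n => norm_nonneg _)
      (fun n => hC U hU hUΩ _ _ (bmf_test (hu n)) (bmf_test hφ)) a2
  have a4 : ∀ ψ, BMf ψ → √(greenEnergy U ψ) ^ 2 = greenEnergy U ψ := fun ψ hψ => by
    obtain ⟨M, hM⟩ := hψ.2
    exact Real.sq_sqrt (green_nonneg (hb.subset hUΩ) hM)
  have a5 := a3.pow 2
  rw [a4 φ (bmf_test hφ)] at a5
  exact a5.congr fun n => a4 _ (bmf_test (hu n))

end

theorem meas_int' {X : Type} [MeasurableSpace X] {γ : X → ℂ → ℝ}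
    (hγ : Measurable fun p : X × ℂ => γ p.1 p.2) {U : Set ℂ} {φ : ℂ → ℝ} (hφ : IsTest U φ) :
    Measurable fun s => ∫ z, γ s z * φ z := by
  have h : Measurable (fun p : X × ℂ => γ p.1 p.2 * φ p.2) :=
    hγ.mul (hφ.1.continuous.measurable.comp measurable_snd)
  exact (h.stronglyMeasurable.integral_prod_right' (ν := volume)).measurable

/-- from test functions of `Ω \ K` to test functions of `Ω` -/
theorem approx (hEN : EN) (hΩ : IsOpen Ω) (hb : Bornology.IsBounded Ω)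
    (h0 : volume ((K : Set ℂ) ∩ Ω) = 0) {X : Type} [MeasurableSpace X] (μ : Measure X)
    [IsFiniteMeasure μ] {S S' : X → NonemptyCompacts ℂ} (hS : Measurable S) (hS' : Measurable S')
    {γ γ' : X → ℂ → ℝ} (hγ : Measurable fun p : X × ℂ => γ p.1 p.2)
    (hγ' : Measurable fun p : X × ℂ => γ' p.1 p.2) (bγ : ∀ s, ∃ C : ℝ, ∀ z, |γ s z| ≤ C)
    (bγ' : ∀ s, ∃ C : ℝ, ∀ z, |γ' s z| ≤ C) {Φ : X → ℂ} (hΦ : Measurable Φ) {C : ℝ}
    (hC : ∀ s, ‖Φ s‖ ≤ C)
    (H : ∀ φ, IsTest (Ω \ (K : Set ℂ)) φ → ∫ s, Φ s * Complex.exp (Complex.I * cst *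
        (((∫ z, γ' s z * φ z : ℝ) - (∫ z, γ s z * φ z : ℝ) : ℝ) : ℂ) -
        greenEnergy (Ω \ (S' s : Set ℂ)) φ / 2) ∂μ =
      ∫ s, Φ s * Complex.exp (-greenEnergy (Ω \ (S s : Set ℂ)) φ / 2) ∂μ)
    {φ : ℂ → ℝ} (hφ : IsTest Ω φ) :
    ∫ s, Φ s * Complex.exp (Complex.I * cst *
        (((∫ z, γ' s z * φ z : ℝ) - (∫ z, γ s z * φ z : ℝ) : ℝ) : ℂ) -
        greenEnergy (Ω \ (S' s : Set ℂ)) φ / 2) ∂μ =
      ∫ s, Φ s * Complex.exp (-greenEnergy (Ω \ (S s : Set ℂ)) φ / 2) ∂μ := by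
  obtain ⟨u, hu, h1, h2, h3⟩ := exists_approx hEN hΩ h0 hφ
  have hE : ∀ (A : NonemptyCompacts ℂ), Tendsto (fun n => (greenEnergy (Ω \ (A : Set ℂ)) (u n) : ℂ))
      atTop (𝓝 (greenEnergy (Ω \ (A : Set ℂ)) φ : ℂ)) := fun A =>
    (Complex.continuous_ofReal.tendsto _).comp
      (lim_en hEN hb hφ hu h2 h3 (isOpen_O hΩ A) sdiff_subset)
  have hn : ∀ n (A : NonemptyCompacts ℂ), 0 ≤ greenEnergy (Ω \ (A : Set ℂ)) (u n) := fun n A => by
    obtain ⟨M, hM⟩ := test_bdd (hu n)
    exact green_nonneg (hb.subset sdiff_subset) hM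
  have hm : ∀ n {A : X → NonemptyCompacts ℂ}, Measurable A →
      Measurable fun s => greenEnergy (Ω \ (A s : Set ℂ)) (u n) := fun n A hA => by
    obtain ⟨M, hM⟩ := test_bdd (hu n)
    exact meas_green hb hM hA
  refine tendsto_nhds_unique (f := fun n =>
    ∫ s, Φ s * Complex.exp (-greenEnergy (Ω \ (S s : Set ℂ)) (u n) / 2) ∂μ) (l := atTop) ?_ ?_
  · simp only [← H _ (hu _)]
    refine tendsto_integral_of_dominated_convergence (fun _ => C) (fun n => ?_)
      (integrable_const _) (fun n => Eventually.of_forall fun s => ?_)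
      (Eventually.of_forall fun s => ?_)
    · have b1 := meas_int' hγ (hu n)
      have b2 := meas_int' hγ' (hu n)
      have b3 := hm n hS'
      refine Measurable.aestronglyMeasurable ?_
      fun_prop
    · exact mul_le (hC s) (norm_weight_le _ _ (hn n _))
    · have b1 := lim_int hφ hu h1 h3 (hγ.comp (measurable_prodMk_left (x := s))) (bγ s)
      have b2 := lim_int hφ hu h1 h3 (hγ'.comp (measurable_prodMk_left (x := s))) (bγ' s)
      have b3 := (Complex.continuous_ofReal.tendsto _).comp (b2.sub b1)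
      exact (((b3.const_mul _).sub ((hE _).div_const _)).cexp).const_mul _
  · refine tendsto_integral_of_dominated_convergence (fun _ => C) (fun n => ?_)
      (integrable_const _) (fun n => Eventually.of_forall fun s => ?_)
      (Eventually.of_forall fun s => ?_)
    · have b3 := hm n hS
      refine Measurable.aestronglyMeasurable ?_
      fun_prop
    · exact mul_le (hC s) (norm_weight_le' _ (hn n _))
    · exact (((hE _).neg.div_const _).cexp).const_mul _

variable {M : Model} {a b : NonemptyCompacts ℂ → ℕ → ℂ → ℂ} {h : ℂ → ℝ}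

theorem h_le (hT : Typed Ω K h) (z : ℂ) : |h z| ≤ 1 := by
  rcases hT.val z with e | e | e <;> simp [e]

theorem unit_red {X Y : Type} [mX : MeasurableSpace X] [MeasurableSpace Y]
    {m : MeasurableSpace X} (hm : m ≤ mX) {F : X → Y}
    (hF : Measurable[(inferInstance : MeasurableSpace Unit).prod m] fun y : Unit × X => F y.2) :
    Measurable[mX] F :=
  (hF.mono (sup_le_sup le_rfl (MeasurableSpace.comap_mono hm)) le_rfl).comp
    (@measurable_prodMk_left Unit X _ mX ())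

theorem unit_red' {X : Type} [mX : MeasurableSpace X] {m : MeasurableSpace X} (hm : m ≤ mX)
    {F : X → ℂ → ℝ}
    (hF : Measurable[((inferInstance : MeasurableSpace Unit).prod m).prod inferInstance]
      fun p : (Unit × X) × ℂ => F p.1.2 p.2) : @Measurable (X × ℂ) ℝ (mX.prod inferInstance) _
        fun p => F p.1 p.2 := by
  have h1 : @Measurable ((Unit × X) × ℂ) ℝ
      (((inferInstance : MeasurableSpace Unit).prod mX).prod inferInstance) _
      fun p => F p.1.2 p.2 :=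
    hF.mono (sup_le_sup (MeasurableSpace.comap_mono
      (sup_le_sup le_rfl (MeasurableSpace.comap_mono hm))) le_rfl) le_rfl
  clear hF hm m
  exact h1.comp (((measurable_const (a := ())).prodMk measurable_fst).prodMk measurable_snd)

theorem meas_gl (hJM : JM) (hD : Dom Ω) (hR : Rie Ω a b) (hT : Typed Ω K h) (k : ℕ) :
    (Measurable fun s : M.Cop => glG M Ω a K h s k) ∧
      Measurable fun p : M.Cop × ℂ => glg M Ω a K h p.1 k p.2 := by
  obtain ⟨h1, h2⟩ := (hJM M Ω a b hD hR).2 Unit inferInstance (fun _ => K) (fun _ => h)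
    measurable_const (hT.meas.comp measurable_snd) (fun _ => hT) k k le_rfl
  exact ⟨unit_red (F := fun s : M.Cop => glG M Ω a K h s k) (pastL_le M (lev k)) h1,
    unit_red' (F := fun (s : M.Cop) z => glg M Ω a K h s k z) (pastL_le M (lev k)) h2⟩

theorem glg_bdd (hT : Typed Ω K h) (s : M.Cop) (k : ℕ) :
    ∃ C : ℝ, ∀ z, |glg M Ω a K h s k z| ≤ C := by
  refine ⟨1 + k, fun z => ?_⟩
  unfold glg
  split_ifs
  · refine (abs_add_le _ _).trans (add_le_add (h_le hT z) ((M.bdd _ _ _).trans ?_))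
    unfold lev
    split_ifs
    · exact_mod_cast Nat.sub_le k 1
    · exact le_rfl
  · rw [abs_zero]
    positivity

theorem gl_gl (hJM : JM) (hD : Dom Ω) (hR : Rie Ω a b) (hT : Typed Ω K h) {k : ℕ} (hk : k ≠ 0)
    (s : M.Cop) : Gl M Ω a K h (lev k) s (glG M Ω a K h s k) (glg M Ω a K h s k) := by
  have e := (hJM M Ω a b hD hR).1 K h hT s k hk
  refine ⟨?_, fun z hz => ?_, fun z hz => ?_,
    (meas_gl hJM hD hR hT k).2.comp (measurable_prodMk_left (x := s)), glg_bdd hT s k⟩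
  · rw [e]
    exact subset_union_left
  · rw [e]
    exact ⟨fun h1 => (h1.resolve_left hz.2).2, fun h1 => Or.inr ⟨hz, h1⟩⟩
  · unfold glg
    rw [if_pos ⟨hk, hz⟩]

theorem gl_zero (hD : Dom Ω) (hR : Rie Ω a b) (hT : Typed Ω K h) (s : M.Cop) :
    Gl M Ω a K h (fun _ => 0) s K h := by
  refine ⟨subset_rfl, fun z hz => ?_, fun z _ => ?_, hT.meas, 1, h_le hT⟩
  · have hz' := hz
    rw [← iUnion_HU hD.1] at hz'
    obtain ⟨j, hj⟩ := mem_iUnion.1 hz'
    have h1 : a K (ix Ω K h z).1 z ∈ DD := by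
      rw [ix_eq hT hj]
      exact (conf_HU hR hT j).mg hj
    rw [(M.zero _).1]
    refine ⟨fun h2 => absurd h2 hz.2, fun h2 => ?_⟩
    exact absurd (mem_sphere.1 h2) (mem_ball.1 h1).ne
  · rw [(M.zero _).2, add_zero]

end Fix

open Vale.Agent.P155.Tree.Fix in
/-- **FIX** -/
theorem fix_of (hJM : JM) (hEN : EN) : FIX := by
  intro M Ω a b hD hR K h hT φ hφ
  constructor
  · have key := approx hEN hD.1 hD.2.1 hT.null M.QQ (S := fun _ => K) measurable_const
      (meas_gl (M := M) hJM hD hR hT 1).1 (γ := fun _ => h) (hT.meas.comp measurable_snd)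
      (meas_gl (M := M) hJM hD hR hT 1).2 (fun _ => ⟨1, h_le hT⟩) (fun s => glg_bdd hT s 1)
      (Φ := fun _ => Complex.exp (Complex.I * cst * (∫ z, h z * φ z : ℝ))) measurable_const
      (C := ‖Complex.exp (Complex.I * cst * (∫ z, h z * φ z : ℝ))‖) (fun _ => le_rfl)
      (fun ψ hψ => fin_step hD.1 hD.2.1 hR hT (L := fun _ => 0) (L' := lev 1)
        (fun b => by cases b <;> simp [lev]) (gl_zero hD hR hT)
        (gl_gl hJM hD hR hT one_ne_zero) measurable_const (fun _ => le_rfl) hψ) hφ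
    simp only [← Complex.exp_add, integral_const, probReal_univ, one_smul] at key
    convert key using 2
    · funext s
      congr 1
      push_cast
      ring
    · ring
  · intro k hk Ψ hΨ ⟨C, hC⟩
    have hΦ : Measurable[pastL M (lev k)] fun s => (Ψ s : ℂ) :=
      Complex.measurable_ofReal.comp hΨ
    have hC' : ∀ s, ‖(Ψ s : ℂ)‖ ≤ C := fun s => by simpa using hC s
    have key := approx hEN hD.1 hD.2.1 hT.null M.QQ (meas_gl (M := M) hJM hD hR hT k).1
      (meas_gl (M := M) hJM hD hR hT (k + 1)).1 (meas_gl (M := M) hJM hD hR hT k).2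
      (meas_gl (M := M) hJM hD hR hT (k + 1)).2 (fun s => glg_bdd hT s k)
      (fun s => glg_bdd hT s (k + 1)) (hΦ.mono (pastL_le M _) le_rfl) hC'
      (fun ψ hψ => fin_step hD.1 hD.2.1 hR hT (L := lev k) (L' := lev (k + 1))
        (fun b => by
          cases b
          · simp [lev]
          · simp only [lev, if_true]
            omega) (gl_gl hJM hD hR hT (by omega))
        (gl_gl hJM hD hR hT (by omega)) hΦ hC' hψ) hφ
    simpa only [Complex.ofReal_sub] using key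

end Vale.Agent.P155.Tree
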