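import Vale.Agent.P155Z.FOL.QV

/-!
# P155: the pathwise Ito formulas `FOL2` and `FOLL`
-/

namespace Vale.Agent.P155.Tree

open MeasureTheory Filter Topology Set

namespace FOL

variable {E : Type} [NormedAddCommGroup E] [NormedSpace ℝ E] [CompleteSpace E]

/-- Telescoping along the grid. -/
lemma tele {x : ℝ → ℝ} (hq : HasQV x) {ρ ρ' : ℝ} (hρ : 0 ≤ ρ) (hρ' : ρ < ρ') {m : ℕ → ℕ}
    (hm : Tendsto (fun n => tt n (m n)) atTop (𝓝 ρ)) {G c w : ℝ → E} {a : ℕ → ℕ → E}
    (hG : ContinuousOn G (Icc 0 ρ')) (hc : ContinuousOn c (Icc 0 ρ'))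
    (hw : IntervalIntegrable w volume 0 ρ')
    (hr : ∀ ε : ℝ, 0 < ε → ∀ᶠ n in atTop, ∀ i < m n,
      ‖G (tt n (i + 1)) - G (tt n i) - a n i - dx x n i ^ 2 • c (tt n i) -
        ∫ s in tt n i..tt n (i + 1), w s‖ ≤ ε * (dx x n i ^ 2 + 1 / 2 ^ n)) :
    Tendsto (fun n => ∑ i ∈ Finset.range (m n), a n i) atTop
      (𝓝 (G ρ - G 0 - ((4 : ℝ) • ∫ s in (0 : ℝ)..ρ, c s) - ∫ s in (0 : ℝ)..ρ, w s)) := by
  have h0 : (0 : ℝ) ≤ ρ' := hρ.trans hρ'.le
  have hev := hm.eventually (gt_mem_nhds hρ')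
  have hm' : Tendsto (fun n => tt n (m n)) atTop (𝓝[Icc 0 ρ'] ρ) :=
    tendsto_nhdsWithin_iff.2 ⟨hm, hev.mono fun n h => ⟨tt_nonneg _ _, h.le⟩⟩
  have h1 := (hG ρ ⟨hρ, hρ'.le⟩).tendsto.comp hm'
  have h2 := wqv hq hρ hρ' hm hc
  have h3 : ContinuousOn (fun b => ∫ s in (0 : ℝ)..b, w s) (Icc 0 ρ') := by
    have := intervalIntegral.continuousOn_primitive_interval' hw left_mem_uIcc
    rwa [uIcc_of_le h0] at this
  have h4 := (h3 ρ ⟨hρ, hρ'.le⟩).tendsto.comp hm'
  have h5 := rem_zero hq hρ hm hr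
  have h6 := (((h1.sub_const (G 0)).sub h2).sub h4).sub h5
  rw [sub_zero] at h6
  refine h6.congr' (hev.mono fun n hn => ?_)
  have e1 : ∑ i ∈ Finset.range (m n), ∫ s in tt n i..tt n (i + 1), w s =
      ∫ s in (0 : ℝ)..tt n (m n), w s := by
    rw [intervalIntegral.sum_integral_adjacent_intervals (a := tt n), tt_zero]
    intro k hk
    refine hw.mono_set ?_
    rw [uIcc_of_le h0, uIcc_of_le (tt_mono n (Nat.le_succ k))]
    exact Icc_subset_Icc (tt_nonneg _ _) ((tt_mono n hk).trans hn.le)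
  have e2 : ∑ i ∈ Finset.range (m n), (G (tt n (i + 1)) - G (tt n i)) =
      G (tt n (m n)) - G 0 := by
    rw [Finset.sum_range_sub (fun i => G (tt n i)), tt_zero]
  simp only [Function.comp_apply, Finset.sum_sub_distrib] at e2 ⊢
  rw [e1, e2]
  abel

lemma taylor2 {F : ℝ → ℝ} (hF : ContDiff ℝ 2 F) {a b ε : ℝ}
    (h : ∀ t ∈ uIcc a b, |deriv (deriv F) t - deriv (deriv F) a| ≤ ε) :
    |F b - F a - deriv F a * (b - a) - (b - a) ^ 2 * (deriv (deriv F) a / 2)| ≤
      ε * (b - a) ^ 2 := by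
  have hF1 : ContDiff ℝ 1 (deriv F) := hF.deriv' (n := 1)
  have d1 : Differentiable ℝ F := hF.differentiable (by norm_num)
  have d2 : Differentiable ℝ (deriv F) := hF1.differentiable (by norm_num)
  have hε : 0 ≤ ε := (abs_nonneg _).trans (h a left_mem_uIcc)
  have k1 : ∀ t ∈ uIcc a b, ‖deriv F t - deriv F a - (t - a) * deriv (deriv F) a‖ ≤
      ε * |b - a| := by
    intro t ht
    have := (convex_uIcc a b).norm_image_sub_le_of_norm_hasDerivWithin_le
      (f := fun t => deriv F t - (t - a) * deriv (deriv F) a)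
      (f' := fun t => deriv (deriv F) t - deriv (deriv F) a) (C := ε)
      (fun s _ => by
        have := (d2 s).hasDerivAt.sub
          (((hasDerivAt_id s).sub_const a).mul_const (deriv (deriv F) a))
        rw [one_mul] at this
        exact this.hasDerivWithinAt) h left_mem_uIcc ht
    have e : deriv F t - (t - a) * deriv (deriv F) a - (deriv F a - (a - a) * deriv (deriv F) a) =
      deriv F t - deriv F a - (t - a) * deriv (deriv F) a := by ring
    rw [e] at this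
    refine this.trans ?_
    gcongr
    exact abs_sub_left_of_mem_uIcc ht
  have := (convex_uIcc a b).norm_image_sub_le_of_norm_hasDerivWithin_le
    (f := fun t => F t - deriv F a * (t - a) - (t - a) ^ 2 * (deriv (deriv F) a / 2))
    (f' := fun t => deriv F t - deriv F a - (t - a) * deriv (deriv F) a) (C := ε * |b - a|)
    (fun s _ => by
      have := ((d1 s).hasDerivAt.sub
        (((hasDerivAt_id s).sub_const a).const_mul (deriv F a))).sub
        ((((hasDerivAt_id s).sub_const a).pow 2).mul_const (deriv (deriv F) a / 2))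
      refine (this.congr_deriv ?_).hasDerivWithinAt
      simp only [id, Nat.cast_ofNat, Nat.add_one_sub_one, pow_one]
      ring) k1 left_mem_uIcc right_mem_uIcc
  have e : F b - deriv F a * (b - a) - (b - a) ^ 2 * (deriv (deriv F) a / 2) -
      (F a - deriv F a * (a - a) - (a - a) ^ 2 * (deriv (deriv F) a / 2)) =
      F b - F a - deriv F a * (b - a) - (b - a) ^ 2 * (deriv (deriv F) a / 2) := by ring
  rw [e, Real.norm_eq_abs, Real.norm_eq_abs, mul_assoc, abs_mul_abs_self, ← sq] at this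
  exact this

lemma log_step {z z' : ℂ} (hz : 0 < z.im) (hz' : 0 < z'.im) (hu : ‖(z' - z) / z‖ ≤ 1 / 2) :
    ‖Complex.log z' - Complex.log z - ((z' - z) / z - ((z' - z) / z) ^ 2 / 2)‖ ≤
      ‖(z' - z) / z‖ ^ 3 := by
  have z0 : z ≠ 0 := fun h => by simp [h] at hz
  have z0' : z' ≠ 0 := fun h => by simp [h] at hz'
  have e : Complex.log z' - Complex.log z = Complex.log (1 + (z' - z) / z) := by
    have e1 : 1 + (z' - z) / z = Complex.exp (Complex.log z' - Complex.log z) := by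
      rw [Complex.exp_sub, Complex.exp_log z0, Complex.exp_log z0']
      field_simp
      ring
    have a1 : 0 ≤ z.arg := Complex.arg_nonneg_iff.2 hz.le
    have a2 : 0 ≤ z'.arg := Complex.arg_nonneg_iff.2 hz'.le
    have a3 : z.arg < Real.pi := Complex.arg_lt_pi_iff.2 (Or.inr hz.ne')
    have a4 : z'.arg ≤ Real.pi := Complex.arg_le_pi _
    rw [e1, Complex.log_exp]
    · rw [Complex.sub_im, Complex.log_im, Complex.log_im]; linarith
    · rw [Complex.sub_im, Complex.log_im, Complex.log_im]; linarith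
  rw [e]
  generalize (z' - z) / z = u at hu ⊢
  have := Complex.norm_log_sub_logTaylor_le 2 (z := u) (by linarith)
  have e2 : Complex.logTaylor (2 + 1) u = u - u ^ 2 / 2 := by
    simp [Complex.logTaylor_succ, Complex.logTaylor_zero]
    ring
  rw [e2] at this
  refine this.trans ?_
  have h1 : (1 - ‖u‖)⁻¹ ≤ 2 := by
    rw [inv_le_comm₀ (by linarith) two_pos]; linarith
  have h2 : 0 ≤ ‖u‖ ^ 3 := by positivity
  have : ‖u‖ ^ (2 + 1) * (1 - ‖u‖)⁻¹ ≤ ‖u‖ ^ 3 * 2 := by gcongr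
  push_cast
  linarith

lemma arith {K η θ h d U : ℝ} (hK0 : 0 ≤ K) (hη : 0 < η) (hθ0 : 0 < θ) (hθ1 : θ ≤ η / 4)
    (hh0 : 0 < h) (hKh : K * h ≤ θ) (hU : 0 ≤ U) (b5 : U ≤ (K * h + |d|) * η⁻¹)
    (b6 : U ≤ 2 * θ * η⁻¹) :
    U ^ 3 + K * θ * h + K * h * (3 * θ) * η⁻¹ ^ 2 / 2 ≤
      θ * (4 * (1 + K * η) / η ^ 3 + K + 2 * K / η ^ 2) * (d ^ 2 + h) := by
  have b10 : U ^ 3 ≤ θ * (4 * (1 + K * η) / η ^ 3) * (d ^ 2 + h) := by
    have k1 : (K * h + |d|) ^ 2 ≤ 2 * (1 + K * η) * (d ^ 2 + h) := by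
      have k2 : (K * h) * (K * h) ≤ (K * h) * η := by gcongr; linarith
      have k3 : 0 ≤ K * η * d ^ 2 := by positivity
      nlinarith [sq_abs d, sq_nonneg (K * h - |d|)]
    calc U ^ 3 = U * U ^ 2 := by ring
      _ ≤ (2 * θ * η⁻¹) * ((K * h + |d|) * η⁻¹) ^ 2 := by gcongr
      _ = (2 * θ * η⁻¹ ^ 3) * (K * h + |d|) ^ 2 := by ring
      _ ≤ (2 * θ * η⁻¹ ^ 3) * (2 * (1 + K * η) * (d ^ 2 + h)) := by gcongr
      _ = _ := by field_simp; ring
  have b11 : K * θ * h ≤ θ * K * (d ^ 2 + h) := by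
    have : 0 ≤ θ * K * d ^ 2 := by positivity
    nlinarith
  have b12 : K * h * (3 * θ) * η⁻¹ ^ 2 / 2 ≤ θ * (2 * K / η ^ 2) * (d ^ 2 + h) := by
    have k1 : 0 ≤ θ * (K / η ^ 2) * d ^ 2 := by positivity
    have k2 : 0 ≤ θ * (K / η ^ 2) * h := by positivity
    have k3 : K * h * (3 * θ) * η⁻¹ ^ 2 / 2 = 3 / 2 * (θ * (K / η ^ 2) * h) := by
      field_simp
    have k4 : θ * (2 * K / η ^ 2) * (d ^ 2 + h) =
      2 * (θ * (K / η ^ 2) * d ^ 2) + 2 * (θ * (K / η ^ 2) * h) := by ring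
    rw [k3, k4]
    linarith
  calc _ ≤ θ * (4 * (1 + K * η) / η ^ 3) * (d ^ 2 + h) +
        θ * K * (d ^ 2 + h) + θ * (2 * K / η ^ 2) * (d ^ 2 + h) := add_le_add_three b10 b11 b12
    _ = _ := by ring

end FOL

open FOL

theorem fol2 : FOL2 := by
  intro x hx hq ρ m hρ hm F hF
  have hF1 : ContDiff ℝ 1 (deriv F) := hF.deriv' (n := 1)
  have c2 : Continuous (deriv (deriv F)) := hF1.continuous_deriv le_rfl
  have hρ' : ρ < ρ + 1 := by linarith
  have := tele hq hρ hρ' hm (G := fun s => F (x s)) (c := fun s => deriv (deriv F) (x s) / 2)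
    (w := fun _ => 0) (a := fun n i => deriv F (x (tt n i)) * dx x n i)
    (hF.continuous.comp hx).continuousOn ((c2.comp hx).div_const 2).continuousOn
    (by simp) (fun ε hε => ?_)
  · have e : F (x ρ) - F (x 0) - ((4 : ℝ) • ∫ s in (0 : ℝ)..ρ, deriv (deriv F) (x s) / 2) -
        ∫ _ in (0 : ℝ)..ρ, (0 : ℝ) =
        F (x ρ) - F (x 0) - 2 * ∫ s in (0 : ℝ)..ρ, deriv (deriv F) (x s) := by
      rw [intervalIntegral.integral_div, intervalIntegral.integral_zero, smul_eq_mul]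
      ring
    rwa [e] at this
  · obtain ⟨M, hM⟩ := (isCompact_Icc (a := (0 : ℝ)) (b := ρ + 1)).exists_bound_of_continuousOn
      hx.continuousOn
    obtain ⟨δ₁, hδ₁, h₁⟩ := Metric.uniformContinuousOn_iff.1
      ((isCompact_Icc (a := -M) (b := M)).uniformContinuousOn_of_continuous c2.continuousOn) ε hε
    obtain ⟨δ, hδ, h₂⟩ := Metric.uniformContinuousOn_iff.1
      ((isCompact_Icc (a := (0 : ℝ)) (b := ρ + 1)).uniformContinuousOn_of_continuous
        hx.continuousOn) δ₁ hδ₁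
    filter_upwards [grid_fine hρ' hm hδ] with n hn i hi
    have m1 : tt n (i + 1) ∈ Icc 0 (ρ + 1) := ⟨tt_nonneg _ _, hn.2 i hi⟩
    have m0 : tt n i ∈ Icc 0 (ρ + 1) := ⟨tt_nonneg _ _, (tt_mono n (Nat.le_succ i)).trans m1.2⟩
    have hd : |x (tt n (i + 1)) - x (tt n i)| < δ₁ := h₂ _ m1 _ m0 (by
      rw [Real.dist_eq, tt_succ, add_sub_cancel_left, abs_of_pos (by positivity)]; exact hn.1)
    have k0 : x (tt n i) ∈ Icc (-M) M := abs_le.1 (hM _ m0)
    have k1 : x (tt n (i + 1)) ∈ Icc (-M) M := abs_le.1 (hM _ m1)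
    have := taylor2 hF (a := x (tt n i)) (b := x (tt n (i + 1))) (ε := ε) fun t ht =>
      (h₁ t (uIcc_subset_Icc k0 k1 ht) _ k0
        (lt_of_le_of_lt (abs_sub_left_of_mem_uIcc ht) hd)).le
    rw [intervalIntegral.integral_zero, sub_zero, smul_eq_mul, Real.norm_eq_abs]
    refine this.trans ?_
    unfold dx
    gcongr
    exact le_add_of_nonneg_right (by positivity)

theorem foll : FOLL := by
  intro x hx hq ρ ρ' m hρ hρ' hm y v K hv hK hy hpos
  have h0 : (0 : ℝ) ≤ ρ' := hρ.trans hρ'.le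
  have hK0 : 0 ≤ K := (norm_nonneg _).trans (hK 0 ⟨le_rfl, h0⟩)
  have hvi : IntervalIntegrable v volume 0 ρ' := by
    rw [intervalIntegrable_iff_integrableOn_Icc_of_le h0]
    refine Measure.integrableOn_of_bounded (M := K) (by simp) hv.aestronglyMeasurable ?_
    exact (ae_restrict_mem measurableSet_Icc).mono hK
  have sub : ∀ {s t : ℝ}, s ∈ Icc 0 ρ' → t ∈ Icc 0 ρ' → uIcc s t ⊆ uIcc 0 ρ' := fun hs ht => by
    rw [uIcc_of_le h0]; exact uIcc_subset_Icc hs ht
  have hyc : ContinuousOn y (Icc 0 ρ') := by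
    have := intervalIntegral.continuousOn_primitive_interval' hvi left_mem_uIcc
    rw [uIcc_of_le h0] at this
    exact (continuousOn_const.add this).congr hy
  have hdy : ∀ s ∈ Icc 0 ρ', ∀ t ∈ Icc 0 ρ', y t - y s = ∫ u in s..t, v u := by
    intro s hs t ht
    rw [hy s hs, hy t ht, add_sub_add_left_eq_sub,
      intervalIntegral.integral_interval_sub_left (hvi.mono_set (sub ⟨le_rfl, h0⟩ ht))
        (hvi.mono_set (sub ⟨le_rfl, h0⟩ hs))]
  set z : ℝ → ℂ := fun s => y s - x s with hz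
  have hzc : ContinuousOn z (Icc 0 ρ') :=
    hyc.sub (Complex.continuous_ofReal.comp hx).continuousOn
  have hzi : ∀ s ∈ Icc 0 ρ', 0 < (z s).im := fun s hs => by
    simpa [hz] using hpos s hs
  have hz0 : ∀ s ∈ Icc 0 ρ', z s ≠ 0 := fun s hs h => by simpa [h] using hzi s hs
  obtain ⟨η, hη, hηz⟩ : ∃ η : ℝ, 0 < η ∧ ∀ s ∈ Icc 0 ρ', η ≤ ‖z s‖ := by
    obtain ⟨s₀, hs₀, h⟩ := isCompact_Icc.exists_isMinOn (nonempty_Icc.2 h0) hzc.norm
    exact ⟨_, norm_pos_iff.2 (hz0 s₀ hs₀), fun s hs => h hs⟩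
  have hic : ContinuousOn (fun s => (z s)⁻¹) (Icc 0 ρ') := hzc.inv₀ hz0
  have hwi : IntervalIntegrable (fun s => v s * (z s)⁻¹) volume 0 ρ' :=
    hvi.mul_continuousOn (by rwa [uIcc_of_le h0])
  have hcc : ContinuousOn (fun s => (z s)⁻¹ ^ 2 / 2) (Icc 0 ρ') := (hic.pow 2).div_const 2
  have := tele hq hρ hρ' hm (G := fun s => -Complex.log (z s)) (c := fun s => (z s)⁻¹ ^ 2 / 2)
    (w := fun s => -(v s * (z s)⁻¹)) (a := fun n i => (z (tt n i))⁻¹ * (dx x n i : ℂ))
    (hzc.clog fun s hs => Or.inr (hzi s hs).ne').neg hcc hwi.neg (fun ε hε => ?_)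
  · have r : uIcc 0 ρ ⊆ uIcc 0 ρ' := sub ⟨le_rfl, h0⟩ ⟨hρ, hρ'.le⟩
    have i2 : IntervalIntegrable (fun s => (z s)⁻¹ ^ 2 / 2) volume 0 ρ :=
      (hcc.mono (by rwa [uIcc_of_le h0] at r)).intervalIntegrable
    have e : -Complex.log (z ρ) - -Complex.log (z 0) -
        ((4 : ℝ) • ∫ s in (0 : ℝ)..ρ, (z s)⁻¹ ^ 2 / 2) - ∫ s in (0 : ℝ)..ρ, -(v s * (z s)⁻¹) =
        Complex.log (z 0) - Complex.log (z ρ) +
          ∫ s in (0 : ℝ)..ρ, (v s / z s - 2 / z s ^ 2) := by
      have e1 : (fun s => v s / z s - 2 / z s ^ 2) =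
          fun s => v s * (z s)⁻¹ - 4 * ((z s)⁻¹ ^ 2 / 2) := by
        funext s
        rw [div_eq_mul_inv, div_eq_mul_inv 2, inv_pow]
        ring
      rw [e1, intervalIntegral.integral_sub (hwi.mono_set r) (i2.const_mul 4),
        intervalIntegral.integral_const_mul, intervalIntegral.integral_neg, Complex.real_smul]
      push_cast
      ring
    rw [e] at this
    exact this
  · set C : ℝ := 4 * (1 + K * η) / η ^ 3 + K + 2 * K / η ^ 2 with hC
    have hC0 : 0 < C := by positivity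
    set θ : ℝ := min (η / 4) (ε / C) with hθ
    have hθ0 : 0 < θ := lt_min (by positivity) (by positivity)
    have hθ1 : θ ≤ η / 4 := min_le_left _ _
    have hθ2 : θ * C ≤ ε := (le_div_iff₀ hC0).1 (min_le_right _ _)
    obtain ⟨δ₁, hδ₁, h₁⟩ := Metric.uniformContinuousOn_iff.1
      (isCompact_Icc.uniformContinuousOn_of_continuous hic) θ hθ0
    obtain ⟨δ₂, hδ₂, h₂⟩ := Metric.uniformContinuousOn_iff.1
      ((isCompact_Icc (a := (0 : ℝ)) (b := ρ')).uniformContinuousOn_of_continuous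
        hx.continuousOn) θ hθ0
    filter_upwards [grid_fine hρ' hm (δ := min (min δ₁ δ₂) (θ / (K + 1)))
      (lt_min (lt_min hδ₁ hδ₂) (by positivity))] with n hn i hi
    have m1 : tt n (i + 1) ∈ Icc 0 ρ' := ⟨tt_nonneg _ _, hn.2 i hi⟩
    have hle := tt_mono n (Nat.le_succ i)
    have m0 : tt n i ∈ Icc 0 ρ' := ⟨tt_nonneg _ _, hle.trans m1.2⟩
    have hs := tt_succ n i
    obtain ⟨⟨g1, g2⟩, g3⟩ : (1 / 2 ^ n < δ₁ ∧ 1 / 2 ^ n < δ₂) ∧ (1 : ℝ) / 2 ^ n < θ / (K + 1) := by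
      simpa only [lt_min_iff] using hn.1
    have hh0 : (0 : ℝ) < 1 / 2 ^ n := by positivity
    unfold dx
    generalize (1 : ℝ) / 2 ^ n = h at *
    generalize tt n i = s at *
    generalize tt n (i + 1) = t at *
    have hts : t - s = h := by linarith
    have hKh : K * h ≤ θ := by
      rw [lt_div_iff₀ (by positivity)] at g3
      nlinarith
    have b1 : |x t - x s| ≤ θ := (h₂ t m1 s m0 (by
      rw [Real.dist_eq, hts, abs_of_pos hh0]; exact g2)).le
    have inI : ∀ u ∈ uIoc s t, u ∈ Icc 0 ρ' ∧ dist u s < δ₁ := fun u hu => by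
      rw [uIoc_of_le hle] at hu
      refine ⟨⟨m0.1.trans hu.1.le, hu.2.trans m1.2⟩, ?_⟩
      rw [Real.dist_eq, abs_of_pos (by linarith [hu.1])]
      linarith [hu.2]
    have b2 : ‖y t - y s‖ ≤ K * h := by
      rw [hdy s m0 t m1]
      have := intervalIntegral.norm_integral_le_of_norm_le_const (a := s) (b := t) (C := K)
        (f := v) fun u hu => hK u (inI u hu).1
      rwa [hts, abs_of_pos hh0] at this
    have b3 : ‖(∫ u in s..t, v u * (z u)⁻¹) - (y t - y s) * (z s)⁻¹‖ ≤ K * θ * h := by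
      rw [hdy s m0 t m1, ← intervalIntegral.integral_mul_const,
        ← intervalIntegral.integral_sub (hwi.mono_set (sub m0 m1))
          ((hvi.mono_set (sub m0 m1)).mul_const _)]
      have := intervalIntegral.norm_integral_le_of_norm_le_const (a := s) (b := t) (C := K * θ)
        (f := fun u => v u * (z u)⁻¹ - v u * (z s)⁻¹) fun u hu => by
          rw [← mul_sub, norm_mul, ← dist_eq_norm]
          have := (h₁ u (inI u hu).1 s m0 (inI u hu).2).le
          have := hK u (inI u hu).1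
          gcongr
      rwa [hts, abs_of_pos hh0] at this
    have b4 : ‖(z s)⁻¹‖ ≤ η⁻¹ := by
      rw [norm_inv]; exact inv_anti₀ hη (hηz s m0)
    have ez : z t - z s = (y t - y s) - ((x t - x s : ℝ) : ℂ) := by
      simp only [hz]; push_cast; ring
    have b5 : ‖(z t - z s) / z s‖ ≤ (K * h + |x t - x s|) * η⁻¹ := by
      rw [div_eq_mul_inv, norm_mul, ez]
      gcongr
      refine (norm_sub_le _ _).trans ?_
      rw [Complex.norm_real, Real.norm_eq_abs]
      gcongr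
    have b6 : ‖(z t - z s) / z s‖ ≤ 2 * θ * η⁻¹ := b5.trans (by gcongr; linarith)
    have b7 : ‖(z t - z s) / z s‖ ≤ 1 / 2 := b6.trans (by
      rw [← div_eq_mul_inv, div_le_iff₀ hη]; linarith)
    have b8 := log_step (hzi s m0) (hzi t m1) b7
    have e : -Complex.log (z t) - -Complex.log (z s) - (z s)⁻¹ * ((x t - x s : ℝ) : ℂ) -
        (x t - x s) ^ 2 • ((z s)⁻¹ ^ 2 / 2) - ∫ u in s..t, -(v u * (z u)⁻¹) =
        -(Complex.log (z t) - Complex.log (z s) -
          ((z t - z s) / z s - ((z t - z s) / z s) ^ 2 / 2)) +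
        ((∫ u in s..t, v u * (z u)⁻¹) - (y t - y s) * (z s)⁻¹) +
        (y t - y s) * ((y t - y s) - 2 * ((x t - x s : ℝ) : ℂ)) * (z s)⁻¹ ^ 2 / 2 := by
      rw [intervalIntegral.integral_neg, Complex.real_smul, ez, div_eq_mul_inv _ (z s)]
      push_cast
      ring
    rw [e]
    have b9 : ‖(y t - y s) * ((y t - y s) - 2 * ((x t - x s : ℝ) : ℂ)) * (z s)⁻¹ ^ 2 / 2‖ ≤
        K * h * (3 * θ) * η⁻¹ ^ 2 / 2 := by
      rw [norm_div, norm_mul, norm_mul, norm_pow, Complex.norm_two]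
      gcongr
      refine (norm_sub_le _ _).trans ?_
      rw [norm_mul, Complex.norm_two, Complex.norm_real, Real.norm_eq_abs]
      linarith
    refine (norm_add₃_le).trans ?_
    rw [norm_neg]
    have := arith hK0 hη hθ0 hθ1 hh0 hKh (norm_nonneg _) b5 b6
    calc _ ≤ _ := add_le_add_three b8 b3 b9
      _ ≤ θ * C * ((x t - x s) ^ 2 + h) := this
      _ ≤ _ := by gcongr

end Vale.Agent.P155.Tree
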