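import Vale.Agent.P155Z.Sk

/-!
# P155, branching SLE₄(-2): the life interval
-/

namespace Vale.Agent.P155.Tree

open MeasureTheory Filter Topology ProbabilityTheory Set TopologicalSpace Metric Vale.Agent.P155
  Vale.Agent.P155.Q1 Vale.Agent.P164 Vale.Agent.P155.Uq

namespace G0

variable {W : ℝ → ℝ} {w : ℂ}

theorem step (hW : Continuous W) (T : ℝ) {η : ℝ} (hη : 0 < η) : ∃ δ > 0, ∀ (w : ℂ) (s t : ℝ),
    s ≤ t → t ≤ T → t - s ≤ δ → s ∈ life W w → η ≤ ‖Zf W w s‖ → t ∈ life W w := by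
  have hu := isCompact_Icc.uniformContinuousOn_of_continuous (s := Icc 0 T) hW.continuousOn
  obtain ⟨δ, hδ, h⟩ := Metric.uniformContinuousOn_iff_le.1 hu (η / 8) (by positivity)
  refine ⟨min δ (η ^ 2 / 64), lt_min hδ (by positivity), fun w s t hst htT hd hs hZ => ?_⟩
  refine ⟨hs.1.trans hst, one_step_alive hη hW hs.1 hst hs.2 hZ (hd.trans (min_le_right _ _))
    le_rfl fun u hu => ?_⟩
  rw [← Real.dist_eq]
  refine h u ⟨hs.1.trans hu.1, hu.2.trans htT⟩ s ⟨hs.1, hst.trans htT⟩ ?_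
  rw [Real.dist_eq, abs_of_nonneg (sub_nonneg.2 hu.1)]
  linarith [hu.2, min_le_left δ (η ^ 2 / 64)]

theorem zero_mem (hw : w ∈ HH) : (0 : ℝ) ∈ life W w := ⟨le_rfl, dom_zero.2 hw⟩

theorem ext (hW : Continuous W) {t : ℝ} (ht : t ∈ life W w) : ∃ s ∈ life W w, t < s := by
  obtain ⟨δ, hδ, h⟩ := dom_extend hW ht.1 ht.2
  exact ⟨t + δ, ⟨by linarith [ht.1], h⟩, by linarith⟩

theorem down {s t : ℝ} (ht : t ∈ life W w) (h0 : 0 ≤ s) (hs : s ≤ t) : s ∈ life W w :=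
  ⟨h0, dom_mono hs ht.2⟩

theorem close (hW : Continuous W) (hw : w ∈ HH) {t η : ℝ} (ht : 0 ≤ t) (hη : 0 < η)
    (h : ∀ s, 0 ≤ s → s < t → s ∈ life W w ∧ η ≤ ‖Zf W w s‖) : t ∈ life W w := by
  rcases ht.eq_or_lt with rfl | ht'
  · exact zero_mem hw
  obtain ⟨δ, hδ, H⟩ := step hW t hη
  have h1 : max 0 (t - δ) < t := max_lt ht' (by linarith)
  obtain ⟨h2, h3⟩ := h _ (le_max_left _ _) h1
  exact H w _ t h1.le le_rfl (by linarith [le_max_right 0 (t - δ)]) h2 h3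

theorem tends (hW : Continuous W) (hw : w ∈ HH) (hb : BddAbove (life W w)) :
    Tendsto (fun t : life W w => Zf W w t) atTop (𝓝 0) := by
  have hne : (life W w).Nonempty := ⟨0, zero_mem hw⟩
  have hT : sSup (life W w) ∉ life W w := by
    intro h
    obtain ⟨s, hs, hlt⟩ := ext hW h
    exact absurd (le_csSup hb hs) (not_le.2 hlt)
  rw [Metric.tendsto_nhds]
  intro η hη
  obtain ⟨δ, hδ, H⟩ := step hW (sSup (life W w)) hη
  obtain ⟨t₀, ht₀, hlt⟩ := exists_lt_of_lt_csSup hne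
    (show sSup (life W w) - δ < sSup (life W w) by linarith)
  filter_upwards [eventually_ge_atTop (⟨t₀, ht₀⟩ : life W w)] with t ht
  have ht' : t₀ ≤ (t : ℝ) := ht
  rw [dist_zero_right]
  by_contra hc
  exact hT (H w t _ (le_csSup hb t.2) le_rfl (by linarith) t.2 (not_lt.1 hc))

theorem im_sq (hw : w ∈ HH) {t : ℝ} (ht : t ∈ life W w) :
    w.im ^ 2 ≤ (Zf W w t).im ^ 2 + 4 * t := by
  have hd : ∀ s ∈ Icc 0 t, HasDerivWithinAt (fun u => (Zf W w u).im ^ 2 + 4 * u)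
      (2 * (Zf W w s).im * (-(2 * (Zf W w s).im / ‖Zf W w s‖ ^ 2)) + 4) (Icc 0 t) s := by
    intro s hs
    have h1 := (Y_hasDeriv ht.2 hs).pow 2
    have h2 : HasDerivWithinAt (fun u : ℝ => 4 * u) 4 (Icc 0 t) s := by
      simpa using ((hasDerivAt_id s).const_mul (4 : ℝ)).hasDerivWithinAt
    have h3 := h1.add h2
    refine (h3.congr_deriv ?_)
    norm_num
  have hm : MonotoneOn (fun u => (Zf W w u).im ^ 2 + 4 * u) (Icc 0 t) := by
    refine monotoneOn_of_hasDerivWithinAt_nonneg (convex_Icc 0 t)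
      (fun s hs => (hd s hs).continuousWithinAt)
      (fun s hs => (hd s (interior_subset hs)).mono interior_subset) fun s hs => ?_
    have hs' : s ∈ Icc 0 t := interior_subset hs
    have hp : 0 < ‖Zf W w s‖ := Zf_norm_pos hs'.1 (dom_mono hs'.2 ht.2)
    have h1 : (Zf W w s).im ^ 2 ≤ ‖Zf W w s‖ ^ 2 := by
      rw [sq_le_sq, abs_norm]
      exact Complex.abs_im_le_norm _
    have h2 : (Zf W w s).im ^ 2 / ‖Zf W w s‖ ^ 2 ≤ 1 := (div_le_one (by positivity)).2 h1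
    have h3 : 2 * (Zf W w s).im * (-(2 * (Zf W w s).im / ‖Zf W w s‖ ^ 2)) =
        -4 * ((Zf W w s).im ^ 2 / ‖Zf W w s‖ ^ 2) := by ring
    rw [h3]
    linarith
  have := hm ⟨le_rfl, ht.1⟩ ⟨ht.1, le_rfl⟩ ht.1
  simp only [Zf_zero hw] at this
  simpa using this

theorem early (hW : Continuous W) (hw : w ∈ HH) {t : ℝ} (ht : 0 ≤ t) (h : 4 * t < w.im ^ 2) :
    t ∈ life W w := by
  set A : Set ℝ := life W w ∩ Iic t with hA
  have hne : A.Nonempty := ⟨0, zero_mem hw, ht⟩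
  have hb : BddAbove A := ⟨t, fun s hs => hs.2⟩
  have hT : sSup A ≤ t := csSup_le hne fun s hs => hs.2
  have h0 : 0 ≤ sSup A := le_csSup hb ⟨zero_mem hw, ht⟩
  have hη : 0 < √(w.im ^ 2 - 4 * t) := Real.sqrt_pos.2 (by linarith)
  have h1 : sSup A ∈ life W w := by
    refine close hW hw h0 hη fun s hs hlt => ?_
    obtain ⟨u, hu, hsu⟩ := exists_lt_of_lt_csSup hne hlt
    have hs' : s ∈ life W w := down hu.1 hs hsu.le
    refine ⟨hs', le_trans ?_ ((le_abs_self _).trans (Complex.abs_im_le_norm _))⟩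
    refine Real.sqrt_le_iff.2 ⟨(Zf_im_pos hs hs'.2).le, ?_⟩
    linarith [im_sq hw hs']
  rcases hT.eq_or_lt with e | hlt
  · rwa [e] at h1
  · obtain ⟨s, hs, hlt'⟩ := ext hW h1
    have h2 : min s t ∈ A := ⟨down hs (le_min hs.1 ht) (min_le_left _ _), mem_Iic.2 (min_le_right _ _)⟩
    exact absurd (le_csSup hb h2) (not_le.2 (lt_min hlt' hlt))

theorem gt_eq {t : ℝ} (ht : t ∈ life W w) : gt W t w = gf W w t := by
  have h : ∃ g, IsLoewnerSol W w t g := ht.2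
  unfold gt
  rw [dif_pos h]
  exact (gf_eq h.choose_spec ⟨ht.1, le_rfl⟩).symm

end G0

/-- **GEO0** -/
theorem geo0 : GEO0 := fun _ hW _ hw =>
  ⟨⟨G0.zero_mem hw, fun _ ht => ⟨G0.ext hW ht, fun _ h0 hs => G0.down ht h0 hs⟩⟩,
    G0.tends hW hw, fun _ _ ht hη h => G0.close hW hw ht hη h,
    fun _ ht h => G0.early hW hw ht h, fun _ ht => G0.gt_eq ht⟩

end Vale.Agent.P155.Tree
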