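import Vale.Agent.P155Z.Sk
import Vale.Agent.P155Z.GEO1.Koe

/-!
# P155, branching SLE₄(-2): the calm set
-/

namespace Vale.Agent.P155.Tree

open MeasureTheory Filter Topology ProbabilityTheory Set TopologicalSpace Metric Vale.Agent.P155
  Vale.Agent.P155.Q1 Vale.Agent.P164 Vale.Agent.P155.Uq

namespace Ge1

variable {W : ℝ → ℝ}

/-- a Harnack inequality -/
theorem harnack {F : ℂ → ℂ} {c z : ℂ} {R : ℝ} (hR : 0 < R)
    (hF : DifferentiableOn ℂ F (ball c R)) (hp : ∀ y ∈ ball c R, 0 < (F y).im)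
    (hz : dist z c ≤ R / 8) : (F c).im / 4 ≤ (F z).im := by
  have hc : c ∈ ball c R := mem_ball_self hR
  have hzb : z ∈ ball c R := mem_ball.2 (by linarith)
  set Y := (F c).im with hY
  have hY0 : 0 < Y := hp c hc
  set G : ℂ → ℂ := fun y => Complex.exp (Complex.I * (Y⁻¹ : ℝ) * F y) with hG
  have hn : ∀ y, ‖G y‖ = Real.exp (-((F y).im / Y)) := by
    intro y
    rw [hG]
    simp only [Complex.norm_exp]
    congr 1
    simp only [Complex.mul_re, Complex.I_re, Complex.ofReal_re, zero_mul, Complex.I_im,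
      Complex.ofReal_im, mul_zero, sub_zero, Complex.mul_im, one_mul, zero_add, zero_sub]
    rw [div_eq_inv_mul]
  have hd : DifferentiableOn ℂ G (ball c R) := (hF.const_mul _).cexp
  have hle : ∀ y ∈ ball c R, ‖G y‖ ≤ 1 := by
    intro y hy
    rw [hn]
    exact Real.exp_le_one_iff.2 (neg_nonpos.2 (div_pos (hp y hy) hY0).le)
  have hm : MapsTo G (ball c R) (closedBall (G c) 2) := by
    intro y hy
    rw [mem_closedBall, dist_eq_norm]
    have := norm_sub_le (G y) (G c)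
    linarith [hle y hy, hle c hc]
  have h1 := Complex.dist_le_div_mul_dist_of_mapsTo_ball hd hm hzb
  have h2 : 2 / R * dist z c ≤ 1 / 4 := by
    refine (mul_le_mul_of_nonneg_left hz (by positivity)).trans (le_of_eq ?_)
    field_simp
    norm_num
  have h3 : ‖G c‖ ≤ 1 / 2 := by
    rw [hn, ← hY, div_self hY0.ne', Real.exp_neg, one_div]
    exact inv_anti₀ two_pos (by linarith [Real.add_one_le_exp (1 : ℝ)])
  have h4 : ‖G z‖ ≤ 3 / 4 := by
    have := norm_sub_norm_le (G z) (G c)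
    rw [dist_eq_norm] at h1
    linarith
  rw [hn] at h4
  have h5 := Real.add_one_le_exp (-((F z).im / Y))
  have h6 : 1 / 4 ≤ (F z).im / Y := by linarith
  rw [le_div_iff₀ hY0] at h6
  linarith

theorem loc (h0 : GEO0) (hW : Continuous W) {w : ℂ} (hw : w ∈ HH) {ρ : ℝ}
    (h : ∀ t ∈ life W w, ball w ρ ⊆ loewnerDomain W t) {w' : ℂ} (hw' : w' ∈ ball w (ρ / 16)) :
    life W w' = life W w := by
  have hρ : 0 < ρ := by
    have := nonempty_ball.1 ⟨_, hw'⟩
    linarith
  obtain ⟨⟨e0, e1⟩, e2, -⟩ := h0 W hW w hw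
  refine Subset.antisymm (fun T hT => ?_)
    fun t ht => ⟨ht.1, h t ht (ball_subset_ball (by linarith) hw')⟩
  by_contra hc
  have hb : ∀ t ∈ life W w, t ≤ T := fun t ht => by
    by_contra h'
    exact hc ((e1 t ht).2 T hT.1 (not_le.1 h').le)
  have hne : Nonempty (life W w) := ⟨⟨0, e0⟩⟩
  have h1 : Tendsto (fun t : life W w => (Zf W w t).im) atTop (𝓝 0) :=
    (Complex.continuous_im.tendsto 0).comp (e2 ⟨T, hb⟩)
  have h2 : (Zf W w' T).im / 4 ≤ 0 := by
    refine ge_of_tendsto' h1 fun t => ?_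
    have hsub : ball w' (ρ / 2) ⊆ loewnerDomain W t := by
      refine subset_trans (fun y hy => ?_) (h t t.2)
      rw [mem_ball] at hy hw' ⊢
      linarith [dist_triangle y w' w]
    have h3 := harnack (F := fun y => Zf W y t) (c := w') (z := w) (R := ρ / 2) (by positivity)
      (fun y hy => (Zf_hasDerivAt hW t.2.1 (hsub hy)).differentiableAt.differentiableWithinAt)
      (fun y hy => Zf_im_pos t.2.1 (hsub hy))
      (by rw [dist_comm]; linarith [mem_ball.1 hw'])
    have h4 := im_le_of_le t.2.1 (hb t t.2) hT.2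
    linarith
  linarith [Zf_im_pos hT.1 hT.2]

theorem isOpen_HH : IsOpen HH := isOpen_lt continuous_const Complex.continuous_im

theorem isOpen_calm (W : ℝ → ℝ) : IsOpen (calm W) := by
  rw [isOpen_iff_mem_nhds]
  intro w hw
  filter_upwards [isOpen_HH.mem_nhds hw.1, hw.2.eventually_nhds, hw.2] with y h1 h2 h3
  refine ⟨h1, h2.mono fun v hv => ?_⟩
  rw [hv, h3]

theorem const {s : Set ℂ} (hs : IsPreconnected s) (h : s ⊆ calm W) {w w' : ℂ} (hw : w ∈ s)
    (hw' : w' ∈ s) : life W w' = life W w :=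
  hs.induction₂' (fun x y => life W y = life W x)
    (fun _ hx => mem_nhdsWithin_of_mem_nhds ((h hx).2.mono fun _ e => ⟨e, e.symm⟩))
    (fun _ _ _ _ _ _ e1 e2 => e2.trans e1) hw hw'

theorem five (h0 : GEO0) (hW : Continuous W) {w w₁ : ℂ} {r : ℝ} (h1 : w₁ ∈ ball w r)
    (h : ∀ t ∈ life W w₁, ball w r ⊆ loewnerDomain W t) (hH : w₁ ∈ HH) :
    ∀ w' ∈ ball w r, w' ∈ calm W ∧ life W w' = life W w₁ := by
  have e0 := (h0 W hW w₁ hH).1.1
  have hHH : ball w r ⊆ HH := fun y hy => dom_zero.1 (h 0 e0 hy)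
  have hu : IsOpen {y | y ∈ ball w r ∧ life W y = life W w₁} := by
    rw [isOpen_iff_mem_nhds]
    rintro y ⟨hy, e⟩
    obtain ⟨ρ, hρ, hb⟩ := Metric.isOpen_iff.1 isOpen_ball y hy
    filter_upwards [ball_mem_nhds y (show 0 < ρ / 16 by positivity)] with v hv
    refine ⟨hb (ball_subset_ball (by linarith) hv), ?_⟩
    rw [← e]
    refine loc h0 hW (hHH hy) (fun t ht => hb.trans (h t ?_)) hv
    rwa [← e]
  have hv : IsOpen (⋃ T ∈ {T | 0 ≤ T ∧ T ∉ life W w₁}, loewnerDomain W T) :=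
    isOpen_biUnion fun T hT => isOpen_dom hW hT.1
  have hsub : ball w r ⊆ {y | y ∈ ball w r ∧ life W y = life W w₁} := by
    refine IsPreconnected.subset_left_of_subset_union hu hv ?_ ?_ ⟨w₁, h1, h1, rfl⟩
      (convex_ball w r).isPreconnected
    · rw [disjoint_left]
      rintro y ⟨-, e⟩ hy
      obtain ⟨T, hT, hyT⟩ := mem_iUnion₂.1 hy
      exact hT.2 (e ▸ ⟨hT.1, hyT⟩)
    · intro y hy
      by_cases e : life W y ⊆ life W w₁
      · exact Or.inl ⟨hy, Subset.antisymm e fun t ht => ⟨ht.1, h t ht hy⟩⟩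
      · obtain ⟨T, hT, hT'⟩ := not_subset.1 e
        exact Or.inr (mem_iUnion₂.2 ⟨T, ⟨hT.1, hT'⟩, hT.2⟩)
  intro w' hw'
  refine ⟨⟨hHH hw', ?_⟩, (hsub hw').2⟩
  filter_upwards [isOpen_ball.mem_nhds hw'] with y hy
  rw [(hsub hy).2, (hsub hw').2]

/-- the inverse of an injective holomorphic map -/
theorem conf_of {U V : Set ℂ} {g : ℂ → ℂ} (ho : IsOpen U) (ho' : IsOpen V)
    (h1 : DifferentiableOn ℂ g U) (h2 : InjOn g U) (h3 : g '' U = V)
    (h4 : ∀ z ∈ U, deriv g z ≠ 0) : ∃ f, CI.Conf U V g f := by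
  have hsd : ∀ w ∈ U, HasStrictDerivAt g (deriv g w) w := fun w hw =>
    (h1.analyticOnNhd ho w hw).hasStrictDerivAt
  set f : ℂ → ℂ := Function.invFunOn g U with hf
  have hfU : ∀ w ∈ V, f w ∈ U ∧ g (f w) = w := by
    intro w hw
    rw [← h3] at hw
    exact ⟨Function.invFunOn_mem hw, Function.invFunOn_eq hw⟩
  have hcont : ∀ w ∈ V, ContinuousAt f w := by
    intro w hw
    obtain ⟨hz, hgz⟩ := hfU w hw
    rw [ContinuousAt, Filter.tendsto_def]
    intro s hs
    have h6 : g '' (s ∩ U) ∈ 𝓝 (g (f w)) := by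
      rw [← (hsd _ hz).map_nhds_eq (h4 _ hz)]
      exact image_mem_map (inter_mem hs (ho.mem_nhds hz))
    rw [hgz] at h6
    filter_upwards [h6] with y hy
    obtain ⟨x, ⟨hxs, hxU⟩, rfl⟩ := hy
    have hy' : g x ∈ V := by rw [← h3]; exact mem_image_of_mem _ hxU
    have := h2 (hfU _ hy').1 hxU (hfU _ hy').2
    show f (g x) ∈ s
    rw [this]; exact hxs
  have hder : ∀ w ∈ V, HasStrictDerivAt f (deriv g (f w))⁻¹ w := by
    intro w hw
    obtain ⟨hz, hgz⟩ := hfU w hw
    refine HasStrictDerivAt.of_local_left_inverse (hcont w hw) (hsd _ hz) (h4 _ hz) ?_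
    filter_upwards [ho'.mem_nhds hw] with y hy
    exact (hfU y hy).2
  have hm : MapsTo g U V := fun w hw => by rw [← h3]; exact mem_image_of_mem _ hw
  refine ⟨f, ⟨ho, ho', h1,
    fun w hw => (hder w hw).hasDerivAt.differentiableAt.differentiableWithinAt, hm,
    fun w hw => (hfU w hw).1, fun w hw => ?_, fun w hw => (hfU w hw).2⟩⟩
  exact h2 (hfU _ (hm hw)).1 hw (hfU _ (hm hw)).2

theorem six (hW : Continuous W) {t : ℝ} (ht : 0 ≤ t) :
    ∃ b : ℂ → ℂ, CI.Conf (loewnerDomain W t) HH (fun w => gf W w t) b := by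
  have hd : ∀ z ∈ loewnerDomain W t, HasDerivAt (fun w => gf W w t)
      (Complex.exp (-∫ s in (0 : ℝ)..t, 2 / (Zf W z s) ^ 2)) z := fun z hz =>
    (Zf_hasDerivAt hW ht hz).add_const _
  refine conf_of (isOpen_dom hW ht) isOpen_HH
    (fun z hz => (hd z hz).differentiableAt.differentiableWithinAt)
    (fun z hz z' hz' e => Zf_injOn hW ht hz hz' (add_right_cancel e)) ?_ fun z hz => ?_
  · refine Subset.antisymm ?_ fun w hw => ?_
    · rintro _ ⟨z, hz, rfl⟩
      have := Zf_im_pos ht hz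
      rwa [Zf_im_eq] at this
    · obtain ⟨z, g, hg, e⟩ := exists_preimage ht hW.continuousOn hw
      exact ⟨z, ⟨g, hg⟩, (gf_eq hg ⟨ht, le_rfl⟩).trans e⟩
  · rw [(hd z hz).deriv]
    exact Complex.exp_ne_zero _

end Ge1

/-- **GEO1** -/
theorem geo1_of (h0 : GEO0) : GEO1 := by
  intro W hW
  refine ⟨Ge1.isOpen_calm W, fun w hw c hc => ?_, fun w r hr hb t ht => ?_, ?_,
    fun w r w₁ h1 h hH => Ge1.five h0 hW h1 h hH, fun t ht => Ge1.six hW ht⟩
  · refine Ge1.five h0 hW (mem_ball_self (by positivity)) (fun t ht => ?_) hw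
    refine subset_trans (ball_subset_ball ?_) (Ge1.ball_subset_dom hW ht.1 ht.2)
    have := Real.exp_le_exp.2 (hc t ht)
    linarith
  · have h1 : ball w r ⊆ loewnerDomain W t := fun y hy => by
      have e := Ge1.const (convex_ball w r).isPreconnected hb (mem_ball_self hr) hy
      exact (e ▸ ht : t ∈ life W y).2
    have h2 := Ge1.le_exp_Uf hW ht.1 hr h1
    rw [Real.log_le_iff_le_exp (by positivity)]
    linarith
  · rintro V ⟨w₀, -, rfl⟩ w hw w' hw'
    exact Ge1.const isPreconnected_connectedComponentIn (connectedComponentIn_subset _ _) hw hw'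

end Vale.Agent.P155.Tree
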