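import Vale.Agent.P155Z.Sk

/-!
# P155, branching SLE₄(-2): the type is locally constant, almost every path is good
-/

namespace Vale.Agent.P155.Tree

open MeasureTheory Filter Topology ProbabilityTheory Set TopologicalSpace Metric Vale.Agent.P155
  Vale.Agent.P155.Q1 Vale.Agent.P164 Vale.Agent.P155.Uq

namespace G2

theorem abs_sub_le_exp {a b : ℝ} (ha : -Real.pi ≤ a) (hb : -Real.pi ≤ b) :
    |a - b| ≤ Real.exp Real.pi * |Real.exp a - Real.exp b| := by
  wlog h : b ≤ a generalizing a b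
  · rw [abs_sub_comm a b, abs_sub_comm (Real.exp a)]
    exact this hb ha (le_of_not_ge h)
  have h1 : Real.exp b ≤ Real.exp a := Real.exp_le_exp.2 h
  rw [abs_of_nonneg (sub_nonneg.2 h), abs_of_nonneg (sub_nonneg.2 h1)]
  have h2 : Real.exp a = Real.exp b * Real.exp (a - b) := by
    rw [← Real.exp_add]
    congr 1
    ring
  have h3 : a - b + 1 ≤ Real.exp (a - b) := Real.add_one_le_exp _
  have h4 : 1 ≤ Real.exp Real.pi * Real.exp b := by
    rw [← Real.exp_add]
    exact Real.one_le_exp (by linarith)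
  have h5 : 0 < Real.exp b := Real.exp_pos b
  have h6 : 0 < Real.exp Real.pi := Real.exp_pos _
  calc a - b ≤ (Real.exp Real.pi * Real.exp b) * (a - b) :=
        le_mul_of_one_le_left (sub_nonneg.2 h) h4
    _ = Real.exp Real.pi * (Real.exp b * (a - b)) := by ring
    _ ≤ Real.exp Real.pi * (Real.exp a - Real.exp b) := by
        refine mul_le_mul_of_nonneg_left ?_ h6.le
        rw [h2]
        nlinarith

theorem arg_mem {z : ℂ} (hz : 0 < z.im) : 0 ≤ Complex.arg z ∧ Complex.arg z ≤ Real.pi :=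
  ⟨Complex.arg_nonneg_iff.2 hz.le, Complex.arg_le_pi z⟩

/-- the difference of the arguments is Lipschitz, uniformly in the map -/
theorem lip {g : ℂ → ℂ} {c : ℂ} {r : ℝ} (hg : DifferentiableOn ℂ g (ball c r))
    (hp : ∀ z ∈ ball c r, 0 < (g z).im) (u v : ℝ) {z : ℂ} (hz : z ∈ ball c r) :
    |(Complex.arg (g z - u) - Complex.arg (g z - v)) -
      (Complex.arg (g c - u) - Complex.arg (g c - v))| ≤
      Real.exp Real.pi * (2 * Real.exp Real.pi / r * dist z c) := by
  have hr : 0 < r := nonempty_ball.1 ⟨z, hz⟩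
  set G : ℂ → ℂ := fun z => Complex.exp (-Complex.I *
    (Complex.log (g z - u) - Complex.log (g z - v))) with hG
  have hn : ∀ z, ‖G z‖ = Real.exp (Complex.arg (g z - u) - Complex.arg (g z - v)) := by
    intro z
    rw [hG]
    simp only [Complex.norm_exp]
    congr 1
    simp [Complex.log_im]
  have him : ∀ z ∈ ball c r, ∀ y : ℝ, 0 < (g z - y).im := by
    intro z hz y
    simpa using hp z hz
  have hb : ∀ z ∈ ball c r, -Real.pi ≤ Complex.arg (g z - u) - Complex.arg (g z - v) ∧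
      Complex.arg (g z - u) - Complex.arg (g z - v) ≤ Real.pi := by
    intro z hz
    have h1 := arg_mem (him z hz u)
    have h2 := arg_mem (him z hz v)
    constructor <;> linarith [h1.1, h1.2, h2.1, h2.2]
  have hd : DifferentiableOn ℂ G (ball c r) := by
    refine DifferentiableOn.cexp (DifferentiableOn.const_mul (DifferentiableOn.sub ?_ ?_) _)
    · exact (hg.sub_const _).clog fun z hz => Or.inr (him z hz u).ne'
    · exact (hg.sub_const _).clog fun z hz => Or.inr (him z hz v).ne'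
  have hle : ∀ z ∈ ball c r, ‖G z‖ ≤ Real.exp Real.pi := by
    intro z hz
    rw [hn]
    exact Real.exp_le_exp.2 (hb z hz).2
  have hm : MapsTo G (ball c r) (closedBall (G c) (2 * Real.exp Real.pi)) := by
    intro z hz
    rw [mem_closedBall, dist_eq_norm]
    have := norm_sub_le (G z) (G c)
    linarith [hle z hz, hle c (mem_ball_self hr)]
  have h1 := Complex.dist_le_div_mul_dist_of_mapsTo_ball hd hm hz
  refine (abs_sub_le_exp (hb z hz).1 (hb c (mem_ball_self hr)).1).trans
    (mul_le_mul_of_nonneg_left ?_ (Real.exp_pos _).le)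
  rw [← hn, ← hn]
  refine le_trans ?_ h1
  rw [dist_eq_norm]
  exact abs_norm_sub_norm_le _ _

theorem tendsto_life {L L' : Set ℝ} (e : L = L') (F : ℝ → ℝ) (l : Filter ℝ) :
    Tendsto (fun t : L => F t) atTop l ↔ Tendsto (fun t : L' => F t) atTop l := by
  subst e
  rfl

theorem typ_eq {x o : ℝ → ℝ} {w : ℂ} (hne : Nonempty (life (o + x) w)) {a : ℝ}
    (ha : a = 0 ∨ a = 1 ∨ a = -1)
    (h : Tendsto (fun t : life (o + x) w => hh x o w t) atTop (𝓝 a)) : typ x o w = a := by
  unfold typ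
  split_ifs with h1 h2
  · exact tendsto_nhds_unique h1 h
  · exact tendsto_nhds_unique h2 h
  · rcases ha with rfl | rfl | rfl
    · rfl
    · exact absurd h h1
    · exact absurd h h2

end G2

/-- **GEO2** -/
theorem geo2_of (h0 : GEO0) (h1 : GEO1) : GEO2 := by
  intro x o hx ho hd w hw
  have hW : Continuous (o + x) := ho.add hx
  obtain ⟨hop, -, -, -, -, hconf⟩ := h1 (o + x) hW
  obtain ⟨r, hr, hball⟩ : ∃ r > 0, ∀ w' ∈ ball w r,
      w' ∈ calm (o + x) ∧ life (o + x) w' = life (o + x) w := by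
    have := (hop.mem_nhds hw : calm (o + x) ∈ 𝓝 w)
    obtain ⟨r, hr, h⟩ := Metric.eventually_nhds_iff_ball.1 ((show ∀ᶠ w' in 𝓝 w,
      w' ∈ calm (o + x) from this).and hw.2)
    exact ⟨r, hr, h⟩
  set L := life (o + x) w with hL
  have hne : Nonempty L := ⟨⟨0, (h0 (o + x) hW w hw.1).1.1⟩⟩
  set C : ℝ := Real.exp Real.pi * (2 * Real.exp Real.pi / (r / 2)) with hC
  have hC0 : 0 < C := by positivity
  -- the uniform Lipschitz bound
  have hlip : ∀ p ∈ ball w (r / 4), ∀ q ∈ ball w (r / 4), ∀ t ∈ L,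
      |hh x o p t - hh x o q t| ≤ C * dist p q := by
    intro p hp q hq t ht
    have hsub : ball q (r / 2) ⊆ ball w r := by
      intro y hy
      rw [mem_ball] at hy hq ⊢
      linarith [dist_triangle y q w]
    have hpq : p ∈ ball q (r / 2) := by
      rw [mem_ball] at hp hq ⊢
      linarith [dist_triangle_right p q w]
    have hlife : ∀ y ∈ ball w r, t ∈ life (o + x) y := fun y hy => by
      rw [(hball y hy).2]
      exact ht
    obtain ⟨b, hb⟩ := hconf t ht.1
    have hdom : ball q (r / 2) ⊆ loewnerDomain (o + x) t := fun y hy => (hlife y (hsub hy)).2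
    have key := G2.lip (hb.df.mono hdom) (fun z hz => hb.mf (hdom hz)) (o t + x t) (o t) hpq
    have ep : gt (o + x) t p = gf (o + x) p t :=
      (h0 (o + x) hW p (hball p (hsub hpq)).1.1).2.2.2.2 t (hlife p (hsub hpq))
    have hq' : q ∈ ball q (r / 2) := mem_ball_self (by positivity)
    have eq : gt (o + x) t q = gf (o + x) q t :=
      (h0 (o + x) hW q (hball q (hsub hq')).1.1).2.2.2.2 t (hlife q (hsub hq'))
    unfold hh
    rw [ep, eq, ← sub_div, abs_div, abs_of_pos Real.pi_pos]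
    refine le_trans (div_le_self (abs_nonneg _) (by linarith [Real.pi_gt_three])) ?_
    refine key.trans (le_of_eq ?_)
    rw [hC]
    ring
  set ρ : ℝ := min (r / 4) (1 / (4 * C)) with hρ
  have hρ0 : 0 < ρ := lt_min (by positivity) (by positivity)
  have hρr : ball w ρ ⊆ ball w (r / 4) := ball_subset_ball (min_le_left _ _)
  have hρr' : ball w ρ ⊆ ball w r := hρr.trans (ball_subset_ball (by linarith))
  -- limits at the points of the dense sequence
  have hlim : ∀ j, denseSeq ℂ j ∈ ball w ρ → ∃ a : ℝ, (a = 0 ∨ a = 1 ∨ a = -1) ∧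
      Tendsto (fun t : L => hh x o (denseSeq ℂ j) t) atTop (𝓝 a) := by
    intro j hj
    obtain ⟨a, ha, h⟩ := hd j (hball _ (hρr' hj)).1.1
    exact ⟨a, ha, (G2.tendsto_life (hball _ (hρr' hj)).2 _ _).1 h⟩
  obtain ⟨j₀, hj₀⟩ := (denseRange_denseSeq ℂ).exists_mem_open isOpen_ball
    ⟨w, mem_ball_self hρ0⟩
  obtain ⟨a, ha, hla⟩ := hlim j₀ hj₀
  have hsame : ∀ j, denseSeq ℂ j ∈ ball w ρ →
      Tendsto (fun t : L => hh x o (denseSeq ℂ j) t) atTop (𝓝 a) := by
    intro j hj
    obtain ⟨a', ha', hla'⟩ := hlim j hj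
    have h2 : |a' - a| ≤ C * dist (denseSeq ℂ j) (denseSeq ℂ j₀) :=
      le_of_tendsto' (hla'.sub hla).abs fun t => hlip _ (hρr hj) _ (hρr hj₀) t t.2
    have h3 : dist (denseSeq ℂ j) (denseSeq ℂ j₀) ≤ 2 * (1 / (4 * C)) := by
      rw [mem_ball] at hj hj₀
      have := dist_triangle_right (denseSeq ℂ j) (denseSeq ℂ j₀) w
      have h4 : ρ ≤ 1 / (4 * C) := min_le_right _ _
      linarith
    have h5 : |a' - a| ≤ 1 / 2 := by
      refine h2.trans ((mul_le_mul_of_nonneg_left h3 hC0.le).trans (le_of_eq ?_))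
      field_simp
      norm_num
    have h6 : a' = a := by
      rw [abs_le] at h5
      rcases ha with rfl | rfl | rfl <;> rcases ha' with rfl | rfl | rfl <;>
        first | rfl | (exfalso; linarith [h5.1, h5.2])
    rwa [h6] at hla'
  have hall : ∀ p ∈ ball w ρ, Tendsto (fun t : L => hh x o p t) atTop (𝓝 a) := by
    intro p hp
    rw [Metric.tendsto_nhds]
    intro ε hε
    obtain ⟨j, hj⟩ := (denseRange_denseSeq ℂ).exists_mem_open
      (isOpen_ball.inter isOpen_ball : IsOpen (ball w ρ ∩ ball p (ε / (2 * C))))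
      ⟨p, hp, mem_ball_self (by positivity)⟩
    filter_upwards [Metric.tendsto_nhds.1 (hsame j hj.1) (ε / 2) (by positivity)] with t ht
    have h2 := hlip _ (hρr hp) _ (hρr hj.1) t t.2
    have h3 : C * dist p (denseSeq ℂ j) ≤ ε / 2 := by
      have h4 : dist p (denseSeq ℂ j) ≤ ε / (2 * C) := by
        rw [dist_comm]
        exact (mem_ball.1 hj.2).le
      refine (mul_le_mul_of_nonneg_left h4 hC0.le).trans (le_of_eq ?_)
      field_simp
    rw [Real.dist_eq] at ht ⊢
    have := abs_sub_le (hh x o p t) (hh x o (denseSeq ℂ j) t) a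
    linarith
  have htyp : ∀ p ∈ ball w ρ, typ x o p = a := by
    intro p hp
    have e := (hball p (hρr' hp)).2
    refine G2.typ_eq (by rw [e]; exact hne) ha ((G2.tendsto_life e _ _).2 (hall p hp))
  refine ⟨?_, ?_⟩
  · rw [htyp w (mem_ball_self hρ0)]
    exact hall w (mem_ball_self hρ0)
  · filter_upwards [ball_mem_nhds w hρ0] with p hp
    rw [htyp p hp, htyp w (mem_ball_self hρ0)]

/-- **ASG** -/
theorem asg_of (h1 : ONE1) (h2 : ONE2) (h3 : ONE3) (hD : DET) (hP : PATH) (hG1 : GEO1)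
    (hG2 : GEO2) (hM : MEASA) : ASG := by
  intro Θ mΘ P S
  have := S.prob
  have hW : ∀ ω, Continuous (S.W ω) := fun ω => (S.contO ω).add (S.cont ω)
  have hcalm : ∀ w ∈ HH, ∀ᵐ ω ∂P, w ∈ calm (S.W ω) := by
    intro w hw
    filter_upwards [h1 Θ mΘ P S w hw] with ω hω
    obtain ⟨c, hc⟩ := hω.1
    exact ((hG1 _ (hW ω)).2.1 w hw c hc w (mem_ball_self (by positivity))).1
  have hnull : ∀ᵐ ω ∂P, volume (HH \ calm (S.W ω)) = 0 := by
    have hm : MeasurableSet {p : Θ × ℂ | p.2 ∈ HH → p.2 ∈ calm (S.W p.1)} := by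
      have hH : MeasurableSet HH := (isOpen_lt continuous_const Complex.continuous_im).measurableSet
      exact MeasurableSet.imp (measurable_snd hH) (hM Θ mΘ P S).1
    have h4 : ∀ᵐ w ∂(volume : Measure ℂ), ∀ᵐ ω ∂P, w ∈ HH → w ∈ calm (S.W ω) := by
      refine Eventually.of_forall fun w => ?_
      by_cases hw : w ∈ HH
      · filter_upwards [hcalm w hw] with ω hω _ using hω
      · exact Eventually.of_forall fun ω h => absurd h hw
    filter_upwards [(Measure.ae_ae_comm (μ := P) (ν := volume)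
      (p := fun ω w => w ∈ HH → w ∈ calm (S.W ω)) hm).2 h4] with ω hω
    rw [ae_iff] at hω
    convert hω using 2
    ext w
    simp
  have hdense : ∀ᵐ ω ∂P, ∀ j, denseSeq ℂ j ∈ HH → ∃ a : ℝ, (a = 0 ∨ a = 1 ∨ a = -1) ∧
      Tendsto (fun t : life (S.W ω) (denseSeq ℂ j) =>
        hh (S.X ω) (S.O ω) (denseSeq ℂ j) t) atTop (𝓝 a) := by
    rw [ae_all_iff]
    intro j
    by_cases hj : denseSeq ℂ j ∈ HH
    · filter_upwards [h1 Θ mΘ P S _ hj, h2 Θ mΘ P S _ hj, hP Θ mΘ P S.toBSys, S.conv]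
        with ω e1 e2 e3 e4 _
      obtain ⟨a, ha⟩ := e1.2
      exact ⟨a, hD _ _ S.e (S.cont ω) (S.contO ω) S.epos S.elim e4 e3.2.2 _ hj a ha e2.1 e2.2, ha⟩
    · exact Eventually.of_forall fun ω h => absurd h hj
  have hgood : ∀ᵐ ω ∂P, GoodP (S.X ω) (S.O ω) := by
    filter_upwards [hnull, hdense] with ω e1 e2
    have := hG2 _ _ (S.cont ω) (S.contO ω) e2
    exact ⟨e1, fun w hw => (this w hw).1, fun w hw => (this w hw).2⟩
  have hI : Complex.I ∈ HH := by simp [HH]
  refine ⟨hgood, hcalm, fun h0 => h3 Θ mΘ P S _ hI ?_⟩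
  have h5 : ∀ᵐ ω ∂P, typ (S.X ω) (S.O ω) Complex.I = 0 := by
    rw [ae_iff]
    exact h0
  filter_upwards [hgood, hcalm _ hI, h5] with ω e1 e2 e3
  have := e1.lim _ e2
  rwa [e3] at this

end Vale.Agent.P155.Tree
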