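import Vale.Agent.P155Z.Sk
import Vale.Agent.P155.CI.Green
import Vale.Agent.P155.CI.Holes

/-!
# P155, block GEO3: the carpet of the exploration
-/

namespace Vale.Agent.P155.Tree

open MeasureTheory Filter Topology Set Metric Vale.Agent.P155 Vale.Agent.P155.Q1 Vale.Agent.P164

namespace G3

variable {Ω : Set ℂ} {f g : ℂ → ℂ} {W : ℝ → ℝ}

theorem dom_sub {s : ℝ} (hs : 0 ≤ s) : loewnerDomain W s ⊆ HH := fun _ hw => im_pos_of_dom hs hw

theorem img_open (hc : CI.Conf HH Ω f g) {U : Set ℂ} (hU : IsOpen U) (hs : U ⊆ HH) :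
    IsOpen (f '' U) := by
  rw [CI.Holes.image_eq hc hs]
  exact hc.dg.continuousOn.isOpen_inter_preimage hc.ho' hU

theorem img_sub (hc : CI.Conf HH Ω f g) {U : Set ℂ} (hs : U ⊆ HH) : f '' U ⊆ Ω := by
  rintro _ ⟨w, hw, rfl⟩
  exact hc.mf (hs hw)

theorem mem_img (hc : CI.Conf HH Ω f g) {U : Set ℂ} (hs : U ⊆ HH) {z : ℂ} (hz : z ∈ Ω) :
    z ∈ f '' U ↔ g z ∈ U := by
  rw [CI.Holes.image_eq hc hs]
  exact ⟨fun h => h.2, fun h => ⟨hz, h⟩⟩

/-- the images of the domains of the flow -/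
theorem dom_img (hT : TOPO) (h1 : GEO1) (hΩ : Dom Ω) (hc : CI.Conf HH Ω f g) (hW : Continuous W)
    {s : ℝ} (hs : 0 ≤ s) : Dom (f '' loewnerDomain W s) := by
  obtain ⟨b, hb⟩ := (h1 W hW).2.2.2.2.2 s hs
  have hsub : loewnerDomain W s ⊆ HH := dom_sub hs
  have hΩ' := img_sub hc hsub
  have hg : MapsTo g (f '' loewnerDomain W s) (loewnerDomain W s) := fun z hz =>
    (mem_img hc hsub (hΩ' hz)).1 hz
  refine hT.2.1 _ (fun w => f (b w)) (fun z => gf W (g z) s) (hΩ.2.1.subset hΩ')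
    ⟨hc.ho, img_open hc hb.ho hsub, ?_, ?_, ?_, ?_, ?_, ?_⟩
  · exact hc.df.comp hb.dg fun w hw => hsub (hb.mg hw)
  · exact hb.df.comp (hc.dg.mono hΩ') hg
  · exact fun w hw => ⟨b w, hb.mg hw, rfl⟩
  · exact fun z hz => hb.mf (hg hz)
  · intro w hw
    rw [hc.gf _ (hsub (hb.mg hw))]
    exact hb.fg w hw
  · intro z hz
    rw [hb.gf _ (hg hz)]
    exact hc.fg z (hΩ' hz)

theorem frontier_sub (hc : CI.Conf HH Ω f g) (hW : Continuous W) {s : ℝ} (hs : 0 ≤ s) :
    frontier (f '' loewnerDomain W s) ⊆ closure Ω \ f '' calm W := by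
  have hsub : loewnerDomain W s ⊆ HH := dom_sub hs
  have ho : IsOpen (f '' loewnerDomain W s) :=
    img_open hc (isOpen_domain hs hW.continuousOn) hsub
  intro z hz
  rw [ho.frontier_eq] at hz
  refine ⟨closure_mono (img_sub hc hsub) hz.1, ?_⟩
  rintro ⟨w, hw, rfl⟩
  have hz' : f w ∈ Ω := hc.mf hw.1
  have h1 : Tendsto g (𝓝 (f w)) (𝓝 w) := by
    have := (hc.dg.continuousOn.continuousAt (hc.ho'.mem_nhds hz')).tendsto
    rwa [hc.gf w hw.1] at this
  obtain ⟨z', ⟨h2, h3⟩, h4⟩ := mem_closure_iff_nhds.1 hz.1 _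
    ((h1.eventually hw.2).and (hc.ho'.mem_nhds hz'))
  have h5 : s ∈ life W (g z') := ⟨hs, (mem_img hc hsub h3).1 h4⟩
  rw [h2] at h5
  exact hz.2 ⟨w, h5.2, rfl⟩

theorem frontier_meets (h0 : GEO0) (hΩ : Dom Ω) (hc : CI.Conf HH Ω f g) (hW : Continuous W)
    {s : ℝ} (hs : 0 ≤ s) : (frontier (f '' loewnerDomain W s) ∩ frontier Ω).Nonempty := by
  have hsub : loewnerDomain W s ⊆ HH := dom_sub hs
  have ho : IsOpen (f '' loewnerDomain W s) :=
    img_open hc (isOpen_domain hs hW.continuousOn) hsub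
  obtain ⟨w, hw⟩ : ∃ w : ℕ → ℂ, w = fun n : ℕ => ((n + (s + 2) : ℝ) : ℂ) * Complex.I := ⟨_, rfl⟩
  have him : ∀ n, (w n).im = n + (s + 2) := fun n => by simp [hw]
  have hH : ∀ n, w n ∈ HH := fun n => by
    show 0 < (w n).im
    rw [him]
    positivity
  have hd : ∀ n, w n ∈ loewnerDomain W s := fun n => by
    refine ((h0 W hW (w n) (hH n)).2.2.2.1 s hs ?_).2
    rw [him]
    nlinarith [(Nat.cast_nonneg n : (0 : ℝ) ≤ n)]
  obtain ⟨z, hz, φ, hφ, hl⟩ := hΩ.2.1.isCompact_closure.tendsto_subseq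
    (x := fun n => f (w n)) fun n => subset_closure (hc.mf (hH n))
  have hzΩ : z ∉ Ω := by
    intro hzΩ
    have h1 := ((hc.dg.continuousOn.continuousAt (hc.ho'.mem_nhds hzΩ)).tendsto.comp hl)
    have h2 : Tendsto (fun n => (w (φ n)).im) atTop (𝓝 (g z).im) := by
      refine ((Complex.continuous_im.tendsto _).comp h1).congr fun n => ?_
      show (g (f (w (φ n)))).im = _
      rw [hc.gf _ (hH _)]
    have h3 : Tendsto (fun n => (w (φ n)).im) atTop atTop := by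
      simp only [him]
      exact tendsto_atTop_add_const_right _ _
        (tendsto_natCast_atTop_atTop.comp hφ.tendsto_atTop)
    exact not_tendsto_nhds_of_tendsto_atTop h3 _ h2
  refine ⟨z, ?_, ?_⟩
  · rw [ho.frontier_eq]
    exact ⟨mem_closure_of_tendsto hl (Eventually.of_forall fun n => ⟨_, hd _, rfl⟩),
      fun h => hzΩ (img_sub hc hsub h)⟩
  · rw [hΩ.1.frontier_eq]
    exact ⟨hz, hzΩ⟩

theorem sub_closure (hΩ : Dom Ω) (hc : CI.Conf HH Ω f g) (hW : Continuous W) :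
    closure Ω \ f '' calm W ⊆
      closure (frontier Ω ∪ ⋃ s : Ici (0 : ℝ), frontier (f '' loewnerDomain W s)) := by
  intro z hz
  by_cases hzΩ : z ∈ Ω
  swap
  · refine subset_closure (Or.inl ?_)
    rw [hΩ.1.frontier_eq]
    exact ⟨hz.1, hzΩ⟩
  by_contra hn
  obtain ⟨ρ, hρ, hb⟩ := Metric.isOpen_iff.1 (hΩ.1.inter isClosed_closure.isOpen_compl) z ⟨hzΩ, hn⟩
  have key : ∀ s, 0 ≤ s → ∀ a ∈ ball z ρ, ∀ b ∈ ball z ρ, g a ∈ loewnerDomain W s →
      g b ∈ loewnerDomain W s := by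
    intro s hs a ha b hb' h
    have hsub : loewnerDomain W s ⊆ HH := dom_sub hs
    have ho : IsOpen (f '' loewnerDomain W s) :=
      img_open hc (isOpen_domain hs hW.continuousOn) hsub
    have h1 : ball z ρ ⊆ f '' loewnerDomain W s := by
      refine (convex_ball z ρ).isPreconnected.subset_of_closure_inter_subset ho
        ⟨a, ha, (mem_img hc hsub (hb ha).1).2 h⟩ fun y hy => ?_
      by_contra hy'
      refine (hb hy.2).2 (subset_closure (Or.inr (mem_iUnion.2 ⟨⟨s, hs⟩, ?_⟩)))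
      show y ∈ frontier (f '' loewnerDomain W s)
      rw [ho.frontier_eq]
      exact ⟨hy.1, hy'⟩
    exact (mem_img hc hsub (hb hb').1).1 (h1 hb')
  have hw : g z ∈ HH := hc.mg hzΩ
  refine hz.2 ⟨g z, ⟨hw, ?_⟩, hc.fg z hzΩ⟩
  have h1 : Tendsto f (𝓝 (g z)) (𝓝 z) := by
    have := (hc.df.continuousOn.continuousAt (hc.ho.mem_nhds hw)).tendsto
    rwa [hc.fg z hzΩ] at this
  filter_upwards [h1.eventually (ball_mem_nhds z hρ), hc.ho.mem_nhds hw] with w' h2 h3
  ext s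
  constructor
  · rintro ⟨hs, h4⟩
    exact ⟨hs, key s hs _ h2 z (mem_ball_self hρ) (by rwa [hc.gf w' h3])⟩
  · rintro ⟨hs, h4⟩
    have := key s hs z (mem_ball_self hρ) _ h2 h4
    rw [hc.gf w' h3] at this
    exact ⟨hs, this⟩

end G3

/-- **GEO3** -/
theorem geo3_of (hT : TOPO) (h0 : GEO0) (h1 : GEO1) : GEO3 := by
  intro Ω f g W hΩ hc hW
  have hcH : calm W ⊆ HH := fun w hw => hw.1
  have hco : IsOpen (f '' calm W) := G3.img_open hc (h1 W hW).1 hcH
  have hcΩ : f '' calm W ⊆ Ω := G3.img_sub hc hcH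
  have hfr : frontier Ω ⊆ closure Ω \ f '' calm W := by
    rw [hΩ.1.frontier_eq]
    exact fun z hz => ⟨hz.1, fun h => hz.2 (hcΩ h)⟩
  have hconn := (hT.1 Ω hΩ).1
  have e1 : (AA Ω f W : Set ℂ) = closure Ω \ f '' calm W := by
    unfold AA toNC
    rw [dif_pos ⟨hΩ.2.1.isCompact_closure.diff hco, hconn.nonempty.mono hfr⟩]
    rfl
  have e2 : Ω \ (AA Ω f W : Set ℂ) = f '' calm W := by
    rw [e1]
    ext z
    constructor
    · intro hz
      by_contra h
      exact hz.2 ⟨subset_closure hz.1, h⟩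
    · exact fun hz => ⟨hcΩ hz, fun h => h.2 hz⟩
  refine ⟨e1, e2, ⟨?_, ?_, ?_⟩, fun U => ?_, fun hn => ?_⟩
  · rw [e1]
    refine ⟨hconn.nonempty.mono hfr, IsPreconnected.subset_closure
      (s := frontier Ω ∪ ⋃ s : Ici (0 : ℝ), frontier (f '' loewnerDomain W s)) ?_ ?_
      (G3.sub_closure hΩ hc hW)⟩
    · obtain ⟨p, hp⟩ := hconn.nonempty
      refine isPreconnected_of_forall p fun y hy => ?_
      rcases hy with hy | hy
      · exact ⟨frontier Ω, subset_union_left, hp, hy, hconn.isPreconnected⟩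
      · obtain ⟨s, hs⟩ := mem_iUnion.1 hy
        obtain ⟨q, hq1, hq2⟩ := G3.frontier_meets h0 hΩ hc hW s.2
        exact ⟨frontier Ω ∪ frontier (f '' loewnerDomain W s),
          union_subset_union_right _ (subset_iUnion
            (fun s : Ici (0 : ℝ) => frontier (f '' loewnerDomain W s)) s), Or.inl hp, Or.inr hs,
          hconn.isPreconnected.union q hq2 hq1
            (hT.1 _ (G3.dom_img hT h1 hΩ hc hW s.2)).1.isPreconnected⟩
    · exact union_subset hfr (iUnion_subset fun s => G3.frontier_sub hc hW s.2)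
  · rw [e1]
    exact hfr
  · rw [e1]
    exact sdiff_subset
  · have hr : CI.Holes.Rel HH f (calm W)ᶜ (AA Ω f W : Set ℂ) := by
      intro w hw
      rw [e1]
      constructor
      · intro h
        refine ⟨subset_closure (hc.mf hw), fun h' => h ?_⟩
        have := (G3.mem_img hc hcH (hc.mf hw)).1 h'
        rwa [hc.gf w hw] at this
      · exact fun h h' => h.2 ⟨w, h', rfl⟩
    have e3 : HH \ (calm W)ᶜ = calm W := by
      ext w
      exact ⟨fun h => not_not.1 h.2, fun h => ⟨h.1, fun h' => h' h⟩⟩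
    have e4 : ∀ w ∈ calm W, f '' connectedComponentIn (calm W) w =
        connectedComponentIn (Ω \ (AA Ω f W : Set ℂ)) (f w) := by
      intro w hw
      have := CI.Holes.image_cc hc hr (z := w) (by rw [e3]; exact hw)
      rwa [e3] at this
    constructor
    · rintro ⟨z, hz, rfl⟩
      rw [e2] at hz
      obtain ⟨w, hw, rfl⟩ := hz
      exact ⟨_, ⟨w, hw, rfl⟩, (e4 w hw).symm⟩
    · rintro ⟨_, ⟨w, hw, rfl⟩, rfl⟩
      refine ⟨f w, ?_, e4 w hw⟩
      rw [e2]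
      exact ⟨w, hw, rfl⟩
  · refine measure_mono_null ?_ (CI.null_image hc sdiff_subset hn)
    rw [e1]
    rintro z ⟨hz, hzΩ⟩
    exact ⟨g z, ⟨hc.mg hzΩ, fun h => hz.2 ⟨g z, h, hc.fg z hzΩ⟩⟩, hc.fg z hzΩ⟩

end Vale.Agent.P155.Tree
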