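import Vale.Agent.P155Z.GLUE.A

/-!
# P155, gluing: the glued objects are signed carpets
-/

namespace Vale.Agent.P155.Tree

open MeasureTheory Filter Topology Set TopologicalSpace Metric Vale.Agent.P155
  Vale.Agent.P155.Q1 Vale.Agent.P155.Uq

namespace Glue

theorem meas_int {Y : Type} {mY : MeasurableSpace Y} {g : Y × ℂ → ℝ}
    (hg : Measurable[mY.prod inferInstance] g) {U : Set ℂ} {φ : ℂ → ℝ} (hφ : IsTest U φ) :
    Measurable[mY] fun y => ∫ z, g (y, z) * φ z :=
  (hg.mul (hφ.1.continuous.measurable.comp measurable_snd)).stronglyMeasurable.integral_prod_right'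
    (ν := volume) |>.measurable

theorem meas_F {Y : Type} {mY : MeasurableSpace Y} {k n : ℕ}
    {F : (Fin k → NonemptyCompacts ℂ) × (Fin k → Fin n → ℝ) → ℝ} (hF : Continuous F)
    {G : Fin k → Y → NonemptyCompacts ℂ} {H : Fin k → Fin n → Y → ℝ}
    (hG : ∀ j, Measurable (G j)) (hH : ∀ j i, Measurable (H j i)) :
    Measurable fun y => F (fun j => G j y, fun j i => H j i y) :=
  hF.measurable.comp ((measurable_pi_lambda _ hG).prodMk
    (measurable_pi_lambda _ fun j => measurable_pi_lambda _ (hH j)))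

theorem past_le (M : Model) (k : ℕ) : M.past k ≤ (inferInstance : MeasurableSpace M.Cop) :=
  iSup_mono fun _ => MeasurableSpace.comap_mono (M.F.le _)

theorem prod_le {α β : Type} {m m' : MeasurableSpace α} {n n' : MeasurableSpace β} (h : m ≤ m')
    (h' : n ≤ n') : m.prod n ≤ m'.prod n' :=
  sup_le_sup (MeasurableSpace.comap_mono h) (MeasurableSpace.comap_mono h')

theorem integrable_exp {Y : Type} [MeasurableSpace Y] (μ : Measure Y) [IsFiniteMeasure μ]
    {Ψ u E : Y → ℝ} {C : ℝ} (hΨ : Measurable Ψ) (hC : ∀ y, |Ψ y| ≤ C) (hu : Measurable u)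
    (hE : Measurable E) (h0 : ∀ y, 0 ≤ E y) {f : Y → ℂ}
    (hf : ∀ y, f y = Complex.I * u y - E y / 2) :
    Integrable (fun y => (Ψ y : ℂ) * Complex.exp (f y)) μ := by
  simp only [hf]
  refine Integrable.of_bound (C := C) (Measurable.aestronglyMeasurable (by fun_prop))
    (Eventually.of_forall fun y => ?_)
  rw [norm_mul, Complex.norm_real, Real.norm_eq_abs, Complex.norm_exp]
  refine (mul_le_of_le_one_right (abs_nonneg _) (Real.exp_le_one_iff.2 ?_)).trans (hC y)
  have := h0 y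
  simp only [Complex.sub_re, Complex.mul_re, Complex.I_re, Complex.ofReal_re, Complex.I_im,
    Complex.ofReal_im, Complex.div_ofNat_re]
  linarith

theorem integrable_exp1 {Y : Type} [MeasurableSpace Y] (μ : Measure Y) [IsFiniteMeasure μ]
    {Ψ u v E : Y → ℝ} {C : ℝ} (hΨ : Measurable Ψ) (hC : ∀ y, |Ψ y| ≤ C) (hu : Measurable u)
    (hv : Measurable v) (hE : Measurable E) (h0 : ∀ y, 0 ≤ E y) (c : ℝ) :
    Integrable (fun y => (Ψ y : ℂ) * Complex.exp (Complex.I * c * (u y - v y) - E y / 2)) μ :=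
  integrable_exp μ hΨ hC (u := fun y => c * (u y - v y)) ((hu.sub hv).const_mul c) hE h0
    fun y => by
    push_cast
    ring

theorem integrable_exp2 {Y : Type} [MeasurableSpace Y] (μ : Measure Y) [IsFiniteMeasure μ]
    {Ψ E : Y → ℝ} {C : ℝ} (hΨ : Measurable Ψ) (hC : ∀ y, |Ψ y| ≤ C) (hE : Measurable E)
    (h0 : ∀ y, 0 ≤ E y) : Integrable (fun y => (Ψ y : ℂ) * Complex.exp (-E y / 2)) μ :=
  integrable_exp μ hΨ hC (measurable_const (a := (0 : ℝ))) hE h0 fun y => by
    push_cast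
    ring

end Glue

open Glue in
theorem glue_of (hJ : JM) (hF : FIX) (hT : TOPO) : GLUE := by
  intro M Ω a b hΩ hR Θ m P A h hP hA hh hK hL
  obtain ⟨j1, j2⟩ := hJ M Ω a b hΩ hR
  replace j2 := j2 Θ m A h hA hh hK
  have hQ : IsProbabilityMeasure M.QQ := by
    unfold Model.QQ
    infer_instance
  have hfr : IsConnected (frontier Ω) := (hT.1 Ω hΩ).1
  have g0 : ∀ (x : Θ) (s : M.Cop), glG M Ω a (A x) (h x) s 0 = toNC (frontier Ω) :=
    fun _ _ => if_pos rfl
  have e0 : (toNC (frontier Ω) : Set ℂ) = frontier Ω := coe_toNC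
    (isCompact_of_isClosed_isBounded isClosed_frontier
      (hΩ.2.1.closure.subset frontier_subset_closure)) hfr.nonempty
  have e1 : ∀ (x : Θ) (s : M.Cop) (k : ℕ), k ≠ 0 →
      (glG M Ω a (A x) (h x) s k : Set ℂ) = gs M Ω a (A x) (h x) s k :=
    fun x s k hk => j1 _ _ (hK x) s k hk
  have hgood : ∀ᵐ y ∂(P.prod M.QQ), ∀ i, Good M (y.2 i) :=
    Measure.quasiMeasurePreserving_snd.ae (ae_good M)
  have hle : ∀ k, m.prod (M.past k) ≤ (inferInstance : MeasurableSpace (Θ × M.Cop)) :=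
    fun k => prod_le le_rfl (past_le M k)
  have mG : ∀ k, Measurable fun y : Θ × M.Cop => glG M Ω a (A y.1) (h y.1) y.2 k :=
    fun k => (j2 k k le_rfl).1.mono (hle k) le_rfl
  have mz : ∀ (y : Θ × M.Cop) k, Measurable (glg M Ω a (A y.1) (h y.1) y.2 k) := fun y k =>
    ((j2 k k le_rfl).2.mono (prod_le (hle k) le_rfl) le_rfl).comp (measurable_prodMk_left (x := y))
  have mH : ∀ j k, j ≤ k → ∀ φ, IsTest Ω φ → Measurable[m.prod (M.past k)]
      fun y : Θ × M.Cop => ∫ z, glg M Ω a (A y.1) (h y.1) y.2 j z * φ z :=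
    fun j k hjk φ hφ => meas_int (j2 j k hjk).2 hφ
  have mH' : ∀ k φ, IsTest Ω φ →
      Measurable fun y : Θ × M.Cop => ∫ z, glg M Ω a (A y.1) (h y.1) y.2 k z * φ z :=
    fun k φ hφ => (mH k k le_rfl φ hφ).mono (hle k) le_rfl
  have mE : ∀ k φ, Measurable fun y : Θ × M.Cop =>
      greenEnergy (Ω \ (glG M Ω a (A y.1) (h y.1) y.2 k : Set ℂ)) φ :=
    fun k φ => (meas_green Ω φ).comp (mG k)
  refine ⟨Eventually.of_forall fun y => ⟨by rw [g0, e0], fun φ _ => by simp [glg_zero]⟩,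
    Eventually.of_forall fun y k => ⟨_, mz y k, glg_bdd (hK y.1) k, fun _ _ => rfl⟩, ?_, ?_, ?_,
    ?_, fun k => ⟨mG k, fun φ hφ => ⟨mH' k φ hφ, mE k φ⟩⟩, ?_⟩
  · filter_upwards [hgood] with y hy k
    rw [e1 _ _ _ (Nat.add_one_ne_zero k)]
    rcases eq_or_ne k 0 with rfl | hk
    · rw [g0, e0]
      exact ⟨(hK y.1).carp.2.1.trans subset_union_left, frontier_subset_closure⟩
    · rw [e1 _ _ _ hk]
      exact ⟨gs_mono hy hk, gs_sub (hK y.1).carp k⟩
  · filter_upwards [hgood] with y hy k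
    rcases eq_or_ne k 0 with rfl | hk
    · rw [g0, e0]
      exact hfr
    · rw [e1 _ _ _ hk]
      exact gs_conn hT hΩ hR (hK y.1) hy k
  · filter_upwards [hgood] with y hy k
    rcases eq_or_ne k 0 with rfl | hk
    · rw [g0, e0, inter_comm, hΩ.1.inter_frontier_eq, measure_empty]
    · rw [e1 _ _ _ hk]
      exact gs_null hΩ hR (hK y.1) hy k
  · filter_upwards [hgood] with y hy k z r hr hz hd
    rw [e1 _ _ _ (Nat.add_one_ne_zero k)] at hd
    exact sign_of (mz y k) (glg_bdd (hK y.1) k) (mz y (k + 1)) (glg_bdd (hK y.1) (k + 1)) hr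
      fun w hw => glg_sign hΩ hR (hK y.1) hy k (hz (ball_subset_closedBall hw))
        (disjoint_left.1 hd (ball_subset_closedBall hw))
  · rintro k n χ φ hχ hφ F hFc ⟨C, hC⟩
    have mΨ : Measurable[m.prod (M.past k)] fun y : Θ × M.Cop =>
        F (fun j : Fin (k + 1) => glG M Ω a (A y.1) (h y.1) y.2 j,
          fun (j : Fin (k + 1)) i => ∫ z, glg M Ω a (A y.1) (h y.1) y.2 j z * χ i z) :=
      meas_F hFc (fun j : Fin (k + 1) => (j2 j k (Nat.lt_succ_iff.1 j.2)).1)
        fun (j : Fin (k + 1)) i => mH j k (Nat.lt_succ_iff.1 j.2) _ (hχ i)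
    have mΨ' := mΨ.mono (hle k) le_rfl
    rw [integral_prod _ (integrable_exp1 _ mΨ' (fun _ => hC _) (mH' (k + 1) φ hφ) (mH' k φ hφ)
        (mE (k + 1) φ) (fun _ => green_nonneg _ _) (Real.sqrt (Real.pi / 2))),
      integral_prod _ (integrable_exp2 _ mΨ' (fun _ => hC _) (mE k φ) fun _ => green_nonneg _ _)]
    rcases Nat.eq_zero_or_pos k with rfl | hk
    · have c0 : ∀ (x : Θ) (s : M.Cop),
          F (fun j : Fin (0 + 1) => glG M Ω a (A x) (h x) s j,
            fun (j : Fin (0 + 1)) i => ∫ z, glg M Ω a (A x) (h x) s j z * χ i z) =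
          F (fun _ => toNC (frontier Ω), fun _ _ => 0) := fun x s => by
        refine congrArg F (Prod.ext (funext fun j => ?_) (funext fun j => funext fun i => ?_))
        · simp only [Fin.val_eq_zero j, g0]
        · simp [glg_zero]
      have c1 : Ω \ frontier Ω = Ω :=
        (disjoint_iff_inter_eq_empty.2 hΩ.1.inter_frontier_eq).sdiff_eq_left
      have c2 := fun x => (hF M Ω a b hΩ hR (A x) (h x) (hK x) φ hφ).1
      have c3 := hL φ hφ
      unfold cst at c2 c3
      simp only [c0, g0, e0, c1, glg_zero, zero_mul, integral_zero, Complex.ofReal_zero, sub_zero,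
        integral_const_mul, zero_add, c2, c3, integral_const, probReal_univ, one_smul]
    · refine integral_congr_ae (Eventually.of_forall fun x => ?_)
      exact (hF M Ω a b hΩ hR (A x) (h x) (hK x) φ hφ).2 k hk _
        (mΨ.comp (@measurable_prodMk_left _ _ m (M.past k) x)) ⟨C, fun _ => hC _⟩

end Vale.Agent.P155.Tree
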