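import Vale.Agent.P155Z.Sk

/-!
# P155, branching SLE₄(-2): the mixture
-/

namespace Vale.Agent.P155.Tree

open MeasureTheory Filter Topology ProbabilityTheory Set TopologicalSpace Metric Vale.Agent.P155
  Vale.Agent.P155.Q1 Vale.Agent.P164 Vale.Agent.P155.Uq

namespace Glx

theorem isOpen_hole {Ω V : Set ℂ} (hΩ : IsOpen Ω) {K : NonemptyCompacts ℂ}
    (hV : IsHole Ω K V) : IsOpen V := by
  obtain ⟨z, -, rfl⟩ := hV
  exact (hΩ.sdiff K.isCompact.isClosed).connectedComponentIn

theorem idx_mem {Ω V : Set ℂ} (hΩ : IsOpen Ω) {K : NonemptyCompacts ℂ}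
    (hV : IsHole Ω K V) : denseSeq ℂ (idx V) ∈ V := by
  have ho := isOpen_hole hΩ hV
  obtain ⟨z, hz, rfl⟩ := hV
  obtain ⟨i, hi⟩ := (denseRange_denseSeq ℂ).exists_mem_open ho ⟨z, mem_connectedComponentIn hz⟩
  exact Nat.sInf_mem (s := {i | denseSeq ℂ i ∈ connectedComponentIn (Ω \ (K : Set ℂ)) z}) ⟨i, hi⟩

theorem hole_sub {Ω K V : Set ℂ} (hV : IsHole Ω K V) : V ⊆ Ω \ K := by
  obtain ⟨z, -, rfl⟩ := hV
  exact connectedComponentIn_subset _ _

theorem hole_eq {Ω K V : Set ℂ} (hV : IsHole Ω K V) {w : ℂ} (hw : w ∈ V) :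
    NCLE.hole Ω K w = V := by
  obtain ⟨z, -, rfl⟩ := hV
  exact (connectedComponentIn_eq hw).symm

theorem isHole_hole {Ω K : Set ℂ} {z : ℂ} (hz : z ∈ Ω \ K) : IsHole Ω K (NCLE.hole Ω K z) :=
  ⟨z, hz, rfl⟩

theorem h_const {Ω V : Set ℂ} {K : NonemptyCompacts ℂ} {h : ℂ → ℝ} (hT : Typed Ω K h)
    (hV : IsHole Ω K V) {z w : ℂ} (hz : z ∈ V) (hw : w ∈ V) : h z = h w := by
  have hc : IsPreconnected V := by
    obtain ⟨z, -, rfl⟩ := hV
    exact isPreconnected_connectedComponentIn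
  have hl : IsLocallyConstant (fun x : V => h x) := by
    rw [IsLocallyConstant.iff_eventually_eq]
    intro x
    exact continuous_subtype_val.continuousAt.eventually (hT.loc x (hole_sub hV x.2))
  have := isPreconnected_iff_preconnectedSpace.1 hc
  exact hl.apply_eq_of_preconnectedSpace ⟨z, hz⟩ ⟨w, hw⟩

open Classical in
/-- index and kind of a hole -/
noncomputable def iV (h : ℂ → ℝ) (V : Set ℂ) : ℕ × Bool :=
  (idx V, decide (h (denseSeq ℂ (idx V)) ≠ 0))

theorem ix_eq {Ω : Set ℂ} (hΩ : IsOpen Ω) {K : NonemptyCompacts ℂ} {h : ℂ → ℝ}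
    (hT : Typed Ω K h) {z : ℂ} (hz : z ∈ Ω \ (K : Set ℂ)) :
    ix Ω K h z = iV h (NCLE.hole Ω K z) := by
  have hV := isHole_hole hz
  have e := h_const hT hV (mem_connectedComponentIn hz) (idx_mem hΩ hV)
  unfold ix iV
  rw [e]

theorem typed_zero (hT : TOPO) {Ω : Set ℂ} (hΩ : Dom Ω) :
    Typed Ω (toNC (frontier Ω)) (fun _ => 0) := by
  have hc := (hT.1 Ω hΩ).1
  have hk : IsCompact (frontier Ω) :=
    (hΩ.2.1.isCompact_closure).of_isClosed_subset isClosed_frontier frontier_subset_closure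
  have e : (toNC (frontier Ω) : Set ℂ) = frontier Ω := by
    unfold toNC
    rw [dif_pos ⟨hk, hc.nonempty⟩]
    rfl
  refine ⟨⟨by rw [e]; exact hc, by rw [e], by rw [e]; exact frontier_subset_closure⟩, ?_,
    measurable_const, fun _ => Or.inl rfl, fun _ _ => Eventually.of_forall fun _ => rfl⟩
  rw [e, inter_comm, hΩ.1.inter_frontier_eq, measure_empty]

theorem iIndepFun_map {S T U : Type} [MeasurableSpace S] [MeasurableSpace T] [MeasurableSpace U]
    {Q : Measure S} [IsProbabilityMeasure Q] {Φ : S → T} (hΦ : Measurable Φ) {m : ℕ}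
    {f : Fin m → T → U} (hf : ∀ i, Measurable (f i))
    (h : iIndepFun (fun i s => f i (Φ s)) Q) : iIndepFun f (Q.map Φ) := by
  have := Measure.isProbabilityMeasure_map (μ := Q) hΦ.aemeasurable
  rw [iIndepFun_iff_map_fun_eq_pi_map fun i => (hf i).aemeasurable]
  have hf' : ∀ i, AEMeasurable (fun s => f i (Φ s)) Q := fun i => ((hf i).comp hΦ).aemeasurable
  rw [iIndepFun_iff_map_fun_eq_pi_map hf'] at h
  rw [Measure.map_map (measurable_pi_lambda _ hf) hΦ]
  have e : (fun i => (Q.map Φ).map (f i)) = fun i => Q.map (fun s => f i (Φ s)) := by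
    funext i
    rw [Measure.map_map (hf i) hΦ]
    rfl
  rw [e]
  exact h

/-- the statement for a fixed carpet -/
theorem given (hU2 : UL2) (hH : HL) (hL : LM) (hT : TOPO) {μ : Set ℂ → Measure LoopColl}
    (hμ : ∀ V, Dom V → IsNestedCLE4 V (μ V)) (M : Model) {Ω : Set ℂ} (hΩ : Dom Ω)
    {a b : NonemptyCompacts ℂ → ℕ → ℂ → ℂ} (hab : Rie Ω a b) {K : NonemptyCompacts ℂ}
    {h : ℂ → ℝ} (hK : Typed Ω K h) {Φ : M.Cop → LoopColl} (hΦ : Measurable Φ)
    (hae : ∀ᵐ s ∂M.QQ, HoleLoops Ω (glG M Ω a K h s) (Φ s)) :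
    Given μ (M.QQ.map Φ) {V | IsHole Ω K V} {V | IsHole Ω K V ∧ ∀ z ∈ V, h z ≠ 0} := by
  have hQ : IsProbabilityMeasure M.QQ := by
    unfold Model.QQ
    infer_instance
  have := hL.2.1
  have hG : Measurable (fun t k => M.G k t : M.S → ℕ → NonemptyCompacts ℂ) :=
    measurable_pi_lambda _ fun k => (M.carp.meas k).1
  have hex : ∀ V : Set ℂ, ∃ C : M.S → LoopColl, IsHole Ω K V → Measurable C ∧
      (∀ᵐ t ∂M.Q, HoleLoops V (fun k => toNC (CI.img V (a K (idx V)) (M.G k t))) (C t)) ∧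
      M.Q.map C = μ V := by
    intro V
    by_cases hV : IsHole Ω K V
    · have hd : Dom V := hT.2.2 Ω K hΩ.1 hΩ.2.1 hK.carp V hV
      have hm := idx_mem hΩ.1 hV
      have hc := hab.conf K (idx V) hK.carp (hole_sub hV hm)
      rw [hole_eq hV hm] at hc
      obtain ⟨C, hC, hall⟩ := hU2 V _ _ hd hc (μ V) (hμ V hd)
      obtain ⟨h1, h2⟩ := hall M.S M.mS M.Q M.G _ M.prob M.carp
      exact ⟨fun t => C fun k => M.G k t, fun _ => ⟨hC.comp hG, h1, h2⟩⟩
    · obtain ⟨s, -⟩ := hae.exists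
      exact ⟨fun _ => Φ s, fun h => absurd h hV⟩
  choose C hC using hex
  have hev : ∀ i : ℕ × Bool, MeasurePreserving (fun s : M.Cop => s i) M.QQ M.Q := fun i =>
    measurePreserving_eval_infinitePi (fun _ : ℕ × Bool => M.Q) i
  have h2 : ∀ᵐ s ∂M.QQ, ∀ V, IsHole Ω K V →
      HoleLoops V (fun k => toNC (CI.img V (a K (idx V)) (M.G k (s (iV h V)))))
        (C V (s (iV h V))) := by
    have h3 : ∀ᵐ s ∂M.QQ, ∀ j : ℕ, ∀ V, IsHole Ω K V → idx V = j →
        HoleLoops V (fun k => toNC (CI.img V (a K (idx V)) (M.G k (s (iV h V)))))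
          (C V (s (iV h V))) := by
      rw [ae_all_iff]
      intro j
      by_cases hj : denseSeq ℂ j ∈ Ω \ (K : Set ℂ)
      · have hV := isHole_hole hj
        filter_upwards [(hev (iV h (NCLE.hole Ω K (denseSeq ℂ j)))).quasiMeasurePreserving.ae
          (hC _ hV).2.1] with s hs V hV' hj'
        have hm := idx_mem hΩ.1 hV'
        rw [hj'] at hm
        have e := hole_eq hV' hm
        subst e
        exact hs
      · refine Eventually.of_forall fun s V hV' hj' => absurd ?_ hj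
        have hm := idx_mem hΩ.1 hV'
        rw [hj'] at hm
        exact hole_sub hV' hm
    filter_upwards [h3] with s hs V hV
    exact hs _ V hV rfl
  have h4 : ∀ᵐ s ∂M.QQ, (∀ V, IsHole Ω K V → NCLE.inside (Φ s) V = C V (s (iV h V))) ∧
      (∀ V, IsHole Ω K V → (∀ z ∈ V, h z ≠ 0) → ∃ γ : PL, IsJordan γ (frontier V)) ∧
      ∀ l, (∀ V, IsHole Ω K V → ¬ NCLE.LIn l V) → (Φ s).mult l =
        Set.ncard {V | (IsHole Ω K V ∧ ∀ z ∈ V, h z ≠ 0) ∧
          ∃ γ : PL, IsJordan γ (frontier V) ∧ SeparationQuotient.mk γ = l} := by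
    filter_upwards [hae, h2] with s hs1 hs2
    refine hH M Ω a b hΩ hab K h hK s (Φ s) (fun V => C V (s (iV h V))) hs1 ?_
    intro z hz
    rw [ix_eq hΩ.1 hK hz]
    exact hs2 _ (isHole_hole hz)
  obtain ⟨s₁, hs₁⟩ := h4.exists
  have hin : ∀ V, IsHole Ω K V → Measurable (fun Γ => NCLE.inside Γ V) := fun V hV =>
    (hL.2.2.2.2.1 V (isOpen_hole hΩ.1 hV)).2
  have hae' : ∀ V, IsHole Ω K V →
      (fun s => NCLE.inside (Φ s) V) =ᵐ[M.QQ] fun s => C V (s (iV h V)) := by
    intro V hV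
    filter_upwards [h4] with s hs
    exact hs.1 V hV
  refine ⟨fun V hV => hs₁.2.1 V hV.1 hV.2, ?_, ?_, ?_⟩
  · set E : Set Loop := {l | ∀ V, IsHole Ω K V → ¬ NCLE.LIn l V} with hE
    have hEc : IsClosed E := by
      have e : E = ⋂ V, ⋂ (_ : IsHole Ω K V), {l | NCLE.LIn l V}ᶜ := by
        ext l
        simp [hE]
      rw [e]
      exact isClosed_iInter fun V => isClosed_iInter fun hV =>
        (hL.2.2.2.2.1 V (isOpen_hole hΩ.1 hV)).1.isClosed_compl
    have hEm : MeasurableSet[borel Loop] E := by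
      let _ : MeasurableSpace Loop := borel Loop
      have : BorelSpace Loop := ⟨rfl⟩
      exact hEc.measurableSet
    have hr := hL.2.2.2.1 E hEm
    have hs : MeasurableSet {Γ | res E Γ = res E (Φ s₁)} := hr (measurableSet_singleton _)
    have h5 : ∀ᵐ Γ ∂(M.QQ.map Φ), res E Γ = res E (Φ s₁) := by
      rw [ae_map_iff hΦ.aemeasurable hs]
      filter_upwards [h4] with s hs
      ext l
      by_cases hl : l ∈ E
      · simp only [res, if_pos hl]
        rw [hs.2.2 l hl, hs₁.2.2 l hl]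
      · simp only [res, if_neg hl]
    filter_upwards [h5] with Γ hΓ l hl
    have hl' : l ∈ E := hl
    have e := congrArg (fun Γ : LoopColl => Γ.mult l) hΓ
    simp only [res, if_pos hl'] at e
    rw [e]
    exact hs₁.2.2 l hl
  · intro m V hinj hV
    refine iIndepFun_map hΦ (fun i => hin _ (hV i)) ?_
    have hi : Function.Injective fun i => iV h (V i) := by
      intro i j hij
      have e : idx (V i) = idx (V j) := congrArg Prod.fst hij
      have m1 := idx_mem hΩ.1 (hV i)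
      have m2 := idx_mem hΩ.1 (hV j)
      rw [← e] at m2
      exact hinj ((hole_eq (hV i) m1).symm.trans (hole_eq (hV j) m2))
    have i1 : iIndepFun (fun (i : ℕ × Bool) (s : M.Cop) => s i) M.QQ :=
      iIndepFun_infinitePi (P := fun _ : ℕ × Bool => M.Q) (X := fun _ t => t)
        fun _ => measurable_id
    have i2 := (i1.precomp hi).comp (fun i => C (V i)) fun i => (hC _ (hV i)).1
    exact i2.congr fun i => (hae' _ (hV i)).symm
  · intro V hV
    refine ⟨(hin V hV).aemeasurable, ?_⟩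
    rw [Measure.map_map (hin V hV) hΦ]
    have e : M.QQ.map ((fun Γ => NCLE.inside Γ V) ∘ Φ) =
        M.QQ.map (C V ∘ fun s : M.Cop => s (iV h V)) := Measure.map_congr (hae' V hV)
    rw [e, ← Measure.map_map (hC V hV).1 (hev _).measurable, (hev _).map_eq]
    exact (hC V hV).2.2

end Glx

/-- **GLX** -/
theorem glx_of (hU : UL) (hU2 : UL2) (hM : Nonempty Model) (hR : RIEM) (hG : GLUE) (hH : HL)
    (hL : LM) (hT : TOPO) : GLX := by
  classical
  intro μ hμ Ω hΩ Θ mΘ P A h hP mA mh hty hloc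
  obtain ⟨M⟩ := hM
  obtain ⟨a, b, hab⟩ := hR Ω hΩ.1 hΩ.2.1
  have hQ : IsProbabilityMeasure M.QQ := by
    unfold Model.QQ
    infer_instance
  set N : Set Θ := toMeasurable P {x | ¬ Typed Ω (A x) (h x)} with hN
  have hNm : MeasurableSet N := measurableSet_toMeasurable _ _
  have hN0 : ∀ᵐ x ∂P, x ∉ N := by
    refine measure_eq_zero_iff_ae_notMem.1 ?_
    rw [hN, measure_toMeasurable]
    exact hty
  set A' : Θ → NonemptyCompacts ℂ := fun x => if x ∈ N then toNC (frontier Ω) else A x with hA'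
  set h' : Θ → ℂ → ℝ := fun x z => if x ∈ N then 0 else h x z with hh'
  have eA : ∀ x, x ∉ N → A' x = A x := fun x hx => if_neg hx
  have eh : ∀ x, x ∉ N → h' x = h x := fun x hx => funext fun _ => if_neg hx
  have mA' : Measurable A' := Measurable.ite hNm measurable_const mA
  have mh' : Measurable (fun p : Θ × ℂ => h' p.1 p.2) :=
    Measurable.ite (measurable_fst hNm) measurable_const mh
  have hty' : ∀ x, Typed Ω (A' x) (h' x) := by
    intro x
    by_cases hx : x ∈ N
    · have e1 : A' x = toNC (frontier Ω) := if_pos hx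
      have e2 : h' x = fun _ => 0 := funext fun _ => if_pos hx
      rw [e1, e2]
      exact Glx.typed_zero hT hΩ
    · rw [eA x hx, eh x hx]
      by_contra hn
      exact hx (subset_toMeasurable _ _ hn)
  have hloc' : Loc P Ω A' h' := by
    intro φ hφ
    rw [← hloc φ hφ]
    refine integral_congr_ae ?_
    filter_upwards [hN0] with x hx
    rw [eA x hx, eh x hx]
  have hc := hG M Ω a b hΩ hab Θ mΘ P A' h' hP mA' mh' hty' hloc'
  obtain ⟨C, hC, hall⟩ := hU Ω hΩ (μ Ω) (hμ Ω hΩ)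
  obtain ⟨h1, h2⟩ := hall (Θ × M.Cop) inferInstance (P.prod M.QQ) _ _ inferInstance hc
  have mG : Measurable (fun (y : Θ × M.Cop) k => glG M Ω a (A' y.1) (h' y.1) y.2 k) :=
    measurable_pi_lambda _ fun k => (hc.meas k).1
  set Φ : Θ × M.Cop → LoopColl := fun y => C fun k => glG M Ω a (A' y.1) (h' y.1) y.2 k with hΦ
  have mΦ : Measurable Φ := hC.comp mG
  have mΦx : ∀ x, Measurable fun s => Φ (x, s) := fun x => mΦ.comp measurable_prodMk_left
  have eκ : (fun x => M.QQ.map fun s => Φ (x, s)) =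
      fun x => (M.QQ.map (Prod.mk x)).map Φ := by
    funext x
    rw [Measure.map_map mΦ measurable_prodMk_left]
    rfl
  have mκ : Measurable fun x => M.QQ.map fun s => Φ (x, s) := by
    rw [eκ]
    exact (Measure.measurable_map Φ mΦ).comp Measurable.map_prodMk_left
  refine ⟨fun x => M.QQ.map fun s => Φ (x, s), mκ,
    fun x => Measure.isProbabilityMeasure_map (mΦx x).aemeasurable, ?_, ?_⟩
  · rw [← h2, Measure.map_map hC mG]
    ext s hs
    rw [Measure.bind_apply hs mκ.aemeasurable, Measure.map_apply (hC.comp mG) hs,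
      Measure.prod_apply ((hC.comp mG) hs)]
    refine lintegral_congr fun x => ?_
    rw [Measure.map_apply (mΦx x) hs]
    rfl
  · have h3 := Measure.ae_ae_of_ae_prod (ae_of_ae_map mG.aemeasurable h1)
    filter_upwards [h3, hN0] with x hx hxN
    have := Glx.given hU2 hH hL hT hμ M hΩ hab (hty' x) (mΦx x) hx
    rwa [eA x hxN, eh x hxN] at this

end Vale.Agent.P155.Tree
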