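import Vale.Agent.P155Z.GRL.Ker

/-!
# P155, block GRL: the energy identity along the Loewner flow
-/

namespace Vale.Agent.P155.Tree.Grl

open MeasureTheory Filter Topology Set Metric Vale.Agent.P155 Vale.Agent.P155.CI Vale.Agent.P164

variable {W : ℝ → ℝ} {Ω : Set ℂ} {f g G : ℂ → ℂ} {χ : ℂ → ℝ}

theorem th_eq (hW : Continuous W) (hf : CI.Conf HH Ω f g) (hG : ∀ z ∈ Ω, G z = g z) {η s : ℝ}
    (hη : 0 < η) (hs : 0 ≤ s) :
    th W (pullD HH f χ) η s = ∫ z in Ω, χ z * kk W η (s, G z) := by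
  have hZ : ∀ w, Zp W (s, w) = Zf W w s := fun w => by rw [Zp, if_pos hs]
  have hA : {w | w ∈ loewnerDomain W s ∧ η ≤ (Zf W w s).im} = {w | η ≤ (Zp W (s, w)).im} := by
    ext w
    rw [mem_ofPred_eq, mem_ofPred_eq, hZ]
    refine ⟨fun h => h.2, fun h => ⟨?_, h⟩⟩
    by_contra hd
    rw [Zf_of_not_mem hd, Complex.zero_im] at h
    exact absurd hη (not_lt.2 h)
  have mA : MeasurableSet {w | η ≤ (Zp W (s, w)).im} :=
    measurableSet_le measurable_const (Complex.measurable_im.comp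
      ((measurable_Zp hW).comp (measurable_const.prodMk measurable_id)))
  have hsub : {w | η ≤ (Zp W (s, w)).im} ⊆ HH := by
    rw [← hA]
    exact fun w hw => dom_sub hs hw.1
  have e1 : ∫ w in HH, χ (f w) * kk W η (s, G (f w)) * ‖deriv f w‖ ^ 2 =
      ∫ w in HH, pullD HH f χ w * kk W η (s, w) := by
    refine setIntegral_congr_fun isOpen_HH.measurableSet fun w hw => ?_
    simp only [pullD, if_pos hw, hG _ (hf.mf hw), hf.gf w hw]
    ring
  rw [integral_conf hf, e1, th, hA, setIntegral_eq_of_subset_of_forall_sdiff_eq_zero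
    isOpen_HH.measurableSet hsub fun w hw => by
      rw [kk, if_neg (show ¬ η ≤ (Zp W (s, w)).im from hw.2), mul_zero]]
  refine setIntegral_congr_fun mA fun w hw => ?_
  simp only [kk, if_pos (show η ≤ (Zp W (s, w)).im from hw), k0_eq hs]

theorem sq_eq (hW : Continuous W) (hb : Bornology.IsBounded Ω) (hf : CI.Conf HH Ω f g)
    (hG : ∀ z ∈ Ω, G z = g z) (mG : Measurable G) (hχ : BMf χ) {η T : ℝ} (hη : 0 < η)
    (hT : 0 ≤ T) :
    2 / Real.pi * ∫ s in (0 : ℝ)..T, th W (pullD HH f χ) η s ^ 2 =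
      ∫ p in Ω ×ˢ Ω, χ p.1 * χ p.2 * LL W η T (G p.1) (G p.2) ∂(volume.prod volume) := by
  obtain ⟨mχ, M, hM⟩ := hχ
  have hM0 : 0 ≤ M := (abs_nonneg _).trans (hM 0)
  have : IsFiniteMeasure (volume.restrict Ω) := isFiniteMeasure_restrict.2 hb.measure_lt_top.ne
  have e1 : ∫ s in Ioc (0 : ℝ) T, th W (pullD HH f χ) η s ^ 2 =
      ∫ s in Ioc (0 : ℝ) T, ∫ p : ℂ × ℂ, χ p.1 * kk W η (s, G p.1) * (χ p.2 * kk W η (s, G p.2))
        ∂((volume.restrict Ω).prod (volume.restrict Ω)) := by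
    refine setIntegral_congr_fun measurableSet_Ioc fun s hs => ?_
    rw [th_eq hW hf hG hη hs.1.le, sq]
    exact (integral_prod_mul (fun z => χ z * kk W η (s, G z))
      (fun z => χ z * kk W η (s, G z))).symm
  have hi : Integrable (Function.uncurry fun (s : ℝ) (p : ℂ × ℂ) =>
      χ p.1 * kk W η (s, G p.1) * (χ p.2 * kk W η (s, G p.2)))
      ((volume.restrict (Ioc (0 : ℝ) T)).prod
        ((volume.restrict Ω).prod (volume.restrict Ω))) := by
    refine Integrable.of_bound (Measurable.aestronglyMeasurable ?_) (M * η⁻¹ * (M * η⁻¹))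
      (Eventually.of_forall fun x => ?_)
    · exact ((mχ.comp measurable_snd.fst).mul ((measurable_kk hW η).comp
        (measurable_fst.prodMk (mG.comp measurable_snd.fst)))).mul
        ((mχ.comp measurable_snd.snd).mul ((measurable_kk hW η).comp
        (measurable_fst.prodMk (mG.comp measurable_snd.snd))))
    · have hb : ∀ z, |χ z * kk W η (x.1, G z)| ≤ M * η⁻¹ := fun z => by
        rw [abs_mul]
        exact mul_le_mul (hM z) (abs_kk_le hη _) (abs_nonneg _) hM0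
      rw [Function.uncurry, Real.norm_eq_abs, abs_mul]
      exact mul_le_mul (hb _) (hb _) (abs_nonneg _) (by positivity)
  rw [intervalIntegral.integral_of_le hT, e1, integral_integral_swap hi, ← integral_const_mul,
    Measure.prod_restrict]
  refine integral_congr_ae (Eventually.of_forall fun p => ?_)
  simp only [LL]
  rw [mul_left_comm, ← integral_const_mul (χ p.1 * χ p.2)]
  congr 1
  refine integral_congr_ae (Eventually.of_forall fun s => ?_)
  simp only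
  ring

theorem ae_pair (ho : IsOpen Ω) :
    ∀ᵐ p ∂((volume.prod volume).restrict (Ω ×ˢ Ω) : Measure (ℂ × ℂ)),
      p.1 ∈ Ω ∧ p.2 ∈ Ω ∧ p.1 ≠ p.2 := by
  have h1 : ∀ᵐ p ∂(volume.prod volume : Measure (ℂ × ℂ)), p.1 ≠ p.2 := by
    rw [Measure.ae_prod_iff_ae_ae
      (isOpen_ne_fun continuous_fst continuous_snd).measurableSet]
    refine Eventually.of_forall fun x => ?_
    have h2 : ∀ᵐ y ∂(volume : Measure ℂ), y ∉ ({x} : Set ℂ) :=
      measure_eq_zero_iff_ae_notMem.1 (measure_singleton x)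
    filter_upwards [h2] with y hy e
    exact hy e.symm
  filter_upwards [ae_restrict_mem (ho.measurableSet.prod ho.measurableSet),
    ae_restrict_of_ae h1] with p hp hne
  exact ⟨hp.1, hp.2, hne⟩

/-- the Green function of a domain, through a conformal map onto the half-plane -/
theorem green_half (hR : GR1) {U : Set ℂ} (hb : Bornology.IsBounded U) {p q : ℂ → ℂ}
    (hp : CI.Conf U HH p q) :
    IntegrableOn (fun x : ℂ × ℂ => gH (p x.1) (p x.2)) (U ×ˢ U) (volume.prod volume) ∧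
    ∀ φ, IsTest univ φ → greenEnergy U φ =
      ∫ x in U ×ˢ U, φ x.1 * φ x.2 * gH (p x.1) (p x.2) ∂(volume.prod volume) := by
  obtain ⟨h1, h2⟩ := hR U _ _ hb (conf_trans hp (conf_mob I_mem))
  have mU := hp.ho.measurableSet.prod hp.ho.measurableSet
  refine ⟨h1.congr_fun (fun x hx => gD_mob (hp.mf hx.1) (hp.mf hx.2)) mU, fun φ hφ => ?_⟩
  rw [h2 φ hφ]
  refine setIntegral_congr_fun mU fun x hx => ?_
  simp only [gD_mob (hp.mf hx.1) (hp.mf hx.2)]

theorem bmf_of_test {U : Set ℂ} (h : IsTest U χ) : BMf χ := by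
  refine ⟨h.1.continuous.measurable, ?_⟩
  obtain ⟨M, hM⟩ := h.1.continuous.bounded_above_of_compact_support h.2.1
  exact ⟨M, hM⟩

theorem bound_mul {M : ℝ} (hM : ∀ z, |χ z| ≤ M) (p : ℂ × ℂ) {a b : ℝ} (ha : 0 ≤ a) (hab : a ≤ b) :
    ‖χ p.1 * χ p.2 * a‖ ≤ M * M * b := by
  have hM0 : 0 ≤ M := (abs_nonneg _).trans (hM 0)
  rw [Real.norm_eq_abs, abs_mul, abs_mul, abs_of_nonneg ha]
  exact mul_le_mul (mul_le_mul (hM _) (hM _) (abs_nonneg _) hM0) hab ha (by positivity)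

/-- the remaining Green function is the Green function of the calm set -/
theorem rem_energy (h1 : GEO1) (h3 : GEO3) (hT : TOPO) (hC : CARA) (hE : EN) (hR : GR1)
    (hW : Continuous W) (hΩ : Dom Ω) (hf : CI.Conf HH Ω f g) (hχ : IsTest univ χ)
    (h0 : volume (HH \ calm W) = 0) {D : ℂ × ℂ → ℝ}
    (hD : IntegrableOn D (Ω ×ˢ Ω) (volume.prod volume))
    (hD' : ∀ p : ℂ × ℂ, p.1 ∈ Ω → p.2 ∈ Ω →
      D p = χ p.1 * χ p.2 * (gH (g p.1) (g p.2) - Lam W (g p.1) (g p.2))) :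
    ∫ p in Ω ×ˢ Ω, D p ∂(volume.prod volume) = greenEnergy (f '' calm W) χ := by
  have hb := hΩ.2.1
  have hVH : ∀ i : {V // Comp W V}, (i : Set ℂ) ⊆ HH := fun i => (comp_sub i.2).trans calm_sub
  have hUo : ∀ i : {V // Comp W V}, IsOpen (f '' (i : Set ℂ)) := fun i =>
    isOpen_image hf (hVH i) (comp_open h1 hW i.2)
  have hUΩ : ∀ i : {V // Comp W V}, f '' (i : Set ℂ) ⊆ Ω := by
    rintro i _ ⟨x, hx, rfl⟩
    exact hf.mf (hVH i hx)
  have hdis : Pairwise (Function.onFun Disjoint fun i : {V // Comp W V} => f '' (i : Set ℂ)) := by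
    intro i j hij
    refine disjoint_left.2 ?_
    rintro _ ⟨x, hx, rfl⟩ ⟨y, hy, e⟩
    rw [hf.injOn (hVH j hy) (hVH i hx) e] at hy
    exact hij (Subtype.ext ((comp_eq i.2 hx).trans (comp_eq j.2 hy).symm))
  have : Countable {V // Comp W V} := hdis.countable_of_isOpen_disjoint hUo fun i => by
    obtain ⟨w, hw, e⟩ := i.2
    exact ⟨f w, w, e ▸ mem_connectedComponentIn hw, rfl⟩
  have hun : ⋃ i : {V // Comp W V}, f '' (i : Set ℂ) = f '' calm W := by
    refine Subset.antisymm (iUnion_subset fun i => image_mono (comp_sub i.2)) ?_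
    rintro _ ⟨w, hw, rfl⟩
    exact mem_iUnion.2 ⟨⟨_, w, hw, rfl⟩, w, mem_connectedComponentIn hw, rfl⟩
  have hsum := hE.1 {V // Comp W V} (fun i => f '' (i : Set ℂ)) hUo hdis
    (hb.subset (iUnion_subset hUΩ)) χ (bmf_of_test hχ)
  rw [hun] at hsum
  have hsub : ⋃ i : {V // Comp W V}, (f '' (i : Set ℂ)) ×ˢ (f '' (i : Set ℂ)) ⊆ Ω ×ˢ Ω :=
    iUnion_subset fun i => prod_mono (hUΩ i) (hUΩ i)
  have hsum2 := hasSum_integral_iUnion (μ := volume.prod volume) (f := D)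
    (s := fun i : {V // Comp W V} => (f '' (i : Set ℂ)) ×ˢ (f '' (i : Set ℂ)))
    (fun i => (hUo i).measurableSet.prod (hUo i).measurableSet)
    (fun i j hij => disjoint_prod.2 (Or.inl (hdis hij))) (hD.mono_set hsub)
  have hc : ∀ V, Comp W V → ∃ p q : ℂ → ℂ, CI.Conf (f '' V) HH p q := fun V hV =>
    comp_conf h3 hT hW hΩ hf hV
  have hterm : ∀ i : {V // Comp W V}, ∫ p in (f '' (i : Set ℂ)) ×ˢ (f '' (i : Set ℂ)), D p
      ∂(volume.prod volume) = greenEnergy (f '' (i : Set ℂ)) χ := by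
    intro i
    obtain ⟨p, q, hp⟩ := hc _ i.2
    rw [(green_half hR (hb.subset (hUΩ i)) hp).2 χ hχ]
    refine integral_congr_ae ?_
    filter_upwards [ae_pair (hUo i)] with x hx
    obtain ⟨⟨w, hw, e1⟩, ⟨w', hw', e2⟩, hne⟩ := hx
    rw [hD' x (hUΩ i ⟨w, hw, e1⟩) (hUΩ i ⟨w', hw', e2⟩), ← e1, ← e2, hf.gf w (hVH i hw),
      hf.gf w' (hVH i hw'), rem_same h1 hC hW hb hf i.2 hp hw hw' fun e => hne (by
        rw [← e1, ← e2, e])]
  simp only [hterm] at hsum2
  rw [← hsum2.unique hsum]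
  have hnull : ∀ᵐ z ∂(volume : Measure ℂ), z ∉ f '' (HH \ calm W) :=
    measure_eq_zero_iff_ae_notMem.1 (null_image hf sdiff_subset h0)
  have hcalm : ∀ z ∈ Ω, z ∉ f '' (HH \ calm W) → g z ∈ calm W := fun z hz hn => by
    by_contra hcon
    exact hn ⟨g z, ⟨hf.mg hz, hcon⟩, hf.fg z hz⟩
  refine setIntegral_eq_of_subset_of_ae_sdiff_eq_zero
    (hΩ.1.measurableSet.prod hΩ.1.measurableSet).nullMeasurableSet hsub ?_
  filter_upwards [Measure.quasiMeasurePreserving_fst.ae hnull,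
    Measure.quasiMeasurePreserving_snd.ae hnull] with x hx1 hx2 hx
  rw [hD' x hx.1.1 hx.1.2, rem_diff h1 hC hW hb hf hc (hcalm _ hx.1.1 hx1) (hcalm _ hx.1.2 hx2)
    fun V hV m1 m2 => hx.2 (mem_iUnion.2 ⟨⟨V, hV⟩, ⟨_, m1, hf.fg _ hx.1.1⟩,
      ⟨_, m2, hf.fg _ hx.1.2⟩⟩), mul_zero]

end Vale.Agent.P155.Tree.Grl

namespace Vale.Agent.P155.Tree

open MeasureTheory Filter Topology Set Metric Vale.Agent.P155 Vale.Agent.P155.CI Vale.Agent.P164
  Vale.Agent.P155.Tree.Grl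

/-- **GRL** -/
theorem grl_of (h1 : GEO1) (h3 : GEO3) (hT : TOPO) (hC : CARA) (hE : EN) (hR : GR1) : GRL := by
  classical
  intro Ω f g hΩ hf χ hχ
  have hb := hΩ.2.1
  have hχ' : IsTest univ χ := ⟨hχ.1, hχ.2.1, subset_univ _⟩
  have hB := bmf_of_test hχ
  obtain ⟨mχ, M, hM⟩ := bmf_of_test hχ
  set G : ℂ → ℂ := Ω.piecewise g fun _ => 0 with hGdef
  have hG : ∀ z ∈ Ω, G z = g z := fun z hz => Set.piecewise_eq_of_mem _ _ _ hz
  have mG : Measurable G :=
    hf.dg.continuousOn.measurable_piecewise continuousOn_const hΩ.1.measurableSet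
  obtain ⟨hI, hEn⟩ := green_half hR hb hf.symm
  have hgood : ∀ᵐ p ∂((volume.prod volume).restrict (Ω ×ˢ Ω) : Measure (ℂ × ℂ)),
      G p.1 = g p.1 ∧ G p.2 = g p.2 ∧ g p.1 ∈ HH ∧ g p.2 ∈ HH ∧ g p.1 ≠ g p.2 := by
    filter_upwards [ae_pair hΩ.1] with p hp
    exact ⟨hG _ hp.1, hG _ hp.2.1, hf.mg hp.1, hf.mg hp.2.1,
      fun e => hp.2.2 (hf.symm.injOn hp.1 hp.2.1 e)⟩
  have mGG : Measurable fun p : ℂ × ℂ => (G p.1, G p.2) :=
    (mG.comp measurable_fst).prodMk (mG.comp measurable_snd)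
  have mχχ : Measurable fun p : ℂ × ℂ => χ p.1 * χ p.2 :=
    (mχ.comp measurable_fst).mul (mχ.comp measurable_snd)
  refine ⟨(∫ p in Ω ×ˢ Ω, M * M * gH (g p.1) (g p.2) ∂(volume.prod volume)) / (2 / Real.pi),
    fun W hW h0 => ?_⟩
  have hbd : ∀ η T, ∀ᵐ p ∂((volume.prod volume).restrict (Ω ×ˢ Ω) : Measure (ℂ × ℂ)),
      ‖χ p.1 * χ p.2 * LL W η T (G p.1) (G p.2)‖ ≤ M * M * gH (g p.1) (g p.2) := fun η T => by
    filter_upwards [hgood] with p hp
    rw [hp.1, hp.2.1]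
    exact bound_mul hM p (LL_nonneg η T) (LL_le hW hp.2.2.1 hp.2.2.2.1 hp.2.2.2.2 η T)
  constructor
  · intro η T hη hT0
    rw [le_div_iff₀' (by positivity), sq_eq hW hb hf hG mG hB hη hT0]
    exact (le_abs_self _).trans (norm_integral_le_of_norm_le (hI.const_mul _) (hbd η T))
  · have hlim := tendsto_integral_of_dominated_convergence
      (μ := ((volume.prod volume).restrict (Ω ×ˢ Ω) : Measure (ℂ × ℂ)))
      (F := fun (k : ℕ) p => χ p.1 * χ p.2 * LL W (1 / ((k : ℝ) + 1)) k (G p.1) (G p.2))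
      (f := fun p => χ p.1 * χ p.2 * Lam W (G p.1) (G p.2)) _
      (fun k => (mχχ.mul ((measurable_LL hW _ _).comp mGG)).aestronglyMeasurable)
      (hI.const_mul (M * M)) (fun k => hbd _ _) (by
        filter_upwards [hgood] with p hp
        rw [hp.1, hp.2.1]
        exact (LL_tendsto hW hp.2.2.1 hp.2.2.2.1 hp.2.2.2.2).const_mul _)
    have i1 : IntegrableOn (fun p : ℂ × ℂ => χ p.1 * χ p.2 * gH (g p.1) (g p.2)) (Ω ×ˢ Ω)
        (volume.prod volume) := by
      refine (hI.const_mul (M * M)).mono' (mχχ.aestronglyMeasurable.mul hI.1) ?_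
      filter_upwards [hgood] with p hp
      exact bound_mul hM p (gH_nonneg hp.2.2.1 hp.2.2.2.1) le_rfl
    have i2 : IntegrableOn (fun p : ℂ × ℂ => χ p.1 * χ p.2 * Lam W (G p.1) (G p.2)) (Ω ×ˢ Ω)
        (volume.prod volume) := by
      refine (hI.const_mul (M * M)).mono'
        (mχχ.mul ((measurable_Lam hW).comp mGG)).aestronglyMeasurable ?_
      filter_upwards [hgood] with p hp
      rw [hp.1, hp.2.1]
      exact bound_mul hM p Lam_nonneg (pair_bound hW hp.2.2.1 hp.2.2.2.1 hp.2.2.2.2).2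
    have key := rem_energy h1 h3 hT hC hE hR hW hΩ hf hχ' h0 (i1.sub i2) fun p hp1 hp2 => by
      simp only [Pi.sub_apply, hG _ hp1, hG _ hp2]
      ring
    simp only [Pi.sub_apply] at key
    rw [integral_sub i1 i2, ← hEn χ hχ'] at key
    rw [← key, sub_sub_cancel]
    refine hlim.congr fun k => ?_
    exact (sq_eq hW hb hf hG mG hB (by positivity) (Nat.cast_nonneg k)).symm

end Vale.Agent.P155.Tree
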