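import Vale.Agent.P155Z.HL.A
import Vale.Agent.P155.CI.Holes

/-!
# P155, block HL: the loops of the glued carpets
-/

namespace Vale.Agent.P155.Tree

open MeasureTheory Filter Topology Set TopologicalSpace Metric Vale.Agent.P155
  Vale.Agent.P155.Q1 Vale.Agent.P155.Uq

namespace Hl

theorem lin_of {c : PL} {l : Loop} (h : SeparationQuotient.mk c = l) {U : Set ℂ}
    (hU : range c.c ⊆ U) : NCLE.LIn l U :=
  fun _ hγ => (CI.Holes.range_of_mk_eq (hγ.trans h.symm)).trans hU

theorem lev_add (k : ℕ) (β : Bool) : lev (k + (if β then 1 else 0)) β = k := by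
  cases β <;> simp [lev]

theorem add_lev {k : ℕ} (hk : 1 ≤ k) (β : Bool) : lev k β + (if β then 1 else 0) = k := by
  cases β
  · simp [lev]
  · simp only [lev, if_true]
    omega

theorem lev_zero {k : ℕ} (hk : 1 ≤ k) {β : Bool} (h : lev k β = 0) : k = 1 ∧ β = true := by
  cases β
  · simp only [lev, Bool.false_eq_true, if_false] at h
    omega
  · simp only [lev, if_true] at h
    exact ⟨by omega, rfl⟩

end Hl

open Hl in
theorem hl_of (hJ : JM) : HL := by
  classical
  intro M Ω a b hD hR K h hT s Γ Γ' hΓ hΓ'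
  have hK : IsClosed (K : Set ℂ) := K.isCompact.isClosed
  have hH : ∀ z ∈ Ω \ (K : Set ℂ), ∀ k U, IsHole (NCLE.hole Ω K z)
      (toNC (CI.img (NCLE.hole Ω K z) (a K (ix Ω K h z).1) (M.G k (s (ix Ω K h z)))) : Set ℂ) U ↔
      IsHole (NCLE.hole Ω K z) (TV M Ω a K h s z k) U := by
    intro z hz k U
    rw [← coe_TV hD hR hT hz k]
    rfl
  have hsur : ∀ V, IsHole Ω K V → (∀ z ∈ V, h z ≠ 0) → IsHole Ω (glG M Ω a K h s 1) V := by
    rintro V ⟨z, hz, rfl⟩ h0
    refine (isHole_gl hJ hD hR hT one_ne_zero _).2 ⟨z, hz, ?_⟩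
    rw [ix_true.2 (h0 z (mem_hole hz))]
    exact (isHole_zero hD hR hT hz _).2 rfl
  refine ⟨?_, fun V hV h0 => hΓ.jordan 1 V le_rfl (hsur V hV h0), ?_⟩
  · rintro V ⟨z, hz, rfl⟩
    change NCLE.inside Γ (NCLE.hole Ω K z) = Γ' (NCLE.hole Ω K z)
    have hV := isHole_hole hz
    have hVo := hole_isOpen hD.1 hK hV
    apply LoopColl.ext
    funext l
    show (if NCLE.LIn l (NCLE.hole Ω K z) then Γ.mult l else 0) = _
    rw [(hΓ' z hz).mult]
    by_cases hl : NCLE.LIn l (NCLE.hole Ω K z)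
    · rw [if_pos hl, hΓ.mult]
      symm
      refine Set.ncard_congr
        (fun p _ => (p.1 + (if (ix Ω K h z).2 then 1 else 0), p.2)) ?_ ?_ ?_
      · rintro ⟨k, U⟩ ⟨h1, h2, h3⟩
        simp only at h1 h2 h3
        refine ⟨by simp only; omega, ?_, h3⟩
        refine (isHole_gl hJ hD hR hT (by simp only; omega) _).2 ⟨z, hz, ?_⟩
        simp only
        rw [lev_add]
        exact (hH z hz k U).1 h2
      · rintro ⟨k, U⟩ ⟨k', U'⟩ - - e
        simp only [Prod.mk.injEq] at e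
        exact Prod.ext (by simp only; omega) e.2
      · rintro ⟨k, U⟩ ⟨h1, h2, c, hc, hcl⟩
        simp only at h1 h2 hc
        have hf : frontier U ⊆ NCLE.hole Ω K z := by
          rw [← hc.2]
          exact hl c hcl
        obtain ⟨w, hw⟩ := frontier_ne (hole_bdd hD.2.1 h2) (hole_ne h2)
        obtain ⟨x, hx1, hx2⟩ := mem_closure_iff.1 (frontier_subset_closure hw) _ hVo (hf hw)
        obtain ⟨z', hz', h4⟩ := (isHole_gl hJ hD hR hT (by omega) _).1 h2
        have hx3 : x ∈ NCLE.hole Ω K z' := (hole_sub h4 hx2).1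
        have e1 : NCLE.hole Ω K z' = NCLE.hole Ω K z := by
          rw [← hole_eq (isHole_hole hz') hx3, hole_eq hV hx1]
        have hz'' : z' ∈ NCLE.hole Ω K z := e1 ▸ mem_hole hz'
        rw [e1, TV_congr hT hz hz'', ix_const hT hV hz'' (mem_hole hz)] at h4
        have h5 : lev k (ix Ω K h z).2 ≠ 0 := by
          intro h0
          rw [h0, isHole_zero hD hR hT hz] at h4
          have h6 := hf hw
          rw [h4, hVo.frontier_eq] at hw
          exact hw.2 h6
        exact ⟨(lev k (ix Ω K h z).2, U), ⟨by simp only; omega, (hH z hz _ U).2 h4, c, hc, hcl⟩,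
          Prod.ext (add_lev h1 _) rfl⟩
    · rw [if_neg hl]
      symm
      by_contra h0
      obtain ⟨⟨k, U⟩, h1, h2, c, hc, hcl⟩ := Set.nonempty_of_ncard_ne_zero h0
      exact hl (lin_of hcl (hc.2.subset.trans ((hΓ' z hz).inside k U h1 h2)))
  · intro l hl
    rw [hΓ.mult]
    symm
    refine Set.ncard_congr (fun V _ => ((1 : ℕ), V)) ?_ ?_ ?_
    · rintro V ⟨⟨h1, h2⟩, h3⟩
      exact ⟨le_rfl, hsur V h1 h2, h3⟩
    · rintro V V' - - e
      exact (Prod.ext_iff.1 e).2
    · rintro ⟨k, U⟩ ⟨h1, h2, c, hc, hcl⟩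
      simp only at h1 h2 hc
      obtain ⟨z, hz, h4⟩ := (isHole_gl hJ hD hR hT (by omega) _).1 h2
      have h5 : lev k (ix Ω K h z).2 = 0 := by
        by_contra h0
        exact hl _ (isHole_hole hz) (lin_of hcl (hc.2.subset.trans
          ((hΓ' z hz).inside _ U (by omega) ((hH z hz _ U).2 h4))))
      rw [h5, isHole_zero hD hR hT hz] at h4
      obtain ⟨rfl, h6⟩ := lev_zero h1 h5
      refine ⟨U, ⟨⟨h4 ▸ isHole_hole hz, fun w hw => ?_⟩, c, hc, hcl⟩, rfl⟩
      rw [h4] at hw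
      rw [h_const hT (isHole_hole hz) hw (mem_hole hz)]
      exact ix_true.1 h6

end Vale.Agent.P155.Tree
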