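import Vale.Agent.P155Z.ITO.Path

/-!
# P155, block ITO: `d NN = - dX / Z`
-/

namespace Vale.Agent.P155.Tree.Ito

open Set Metric Filter Topology MeasureTheory ProbabilityTheory Vale.Agent.P164

/-- the regularised flows converge -/
theorem approx {x o : ℝ → ℝ} (hx : Continuous x) {e : ℕ → ℝ} (he : ∀ k, 0 < e k) {ρ : ℝ}
    (hρ : 0 ≤ ρ) (hconv : TendstoUniformlyOn (fun k t => -pv x (e k) t) o atTop (Icc 0 ρ))
    {w : ℂ} (hw : w ∈ loewnerDomain (o + x) ρ) :
    ∃ c, 0 < c ∧ ∀ ε, 0 < ε → ∀ᶠ k in atTop, w ∈ loewnerDomain (Wk x (e k)) ρ ∧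
      c ≤ (Zf (Wk x (e k)) w ρ).im ∧
      ∀ s ∈ Icc 0 ρ, ‖Zf (Wk x (e k)) w s - Zf (o + x) w s‖ ≤ ε := by
  have hg := gf_sol hρ hw
  obtain ⟨C, hC, δ₀, hδ₀, hst⟩ := stable_quant hρ hg
  have hpos : 0 < (gf (o + x) w ρ).im := (hg.2 ρ ⟨hρ, le_rfl⟩).1
  refine ⟨(gf (o + x) w ρ).im / 2, by positivity, fun ε hε => ?_⟩
  set δ := min δ₀ (ε / (C + 1)) with hδ
  have hδ0 : 0 < δ := lt_min hδ₀ (by positivity)
  filter_upwards [Metric.tendstoUniformlyOn_iff.1 hconv δ hδ0] with k hk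
  have hd : ∀ s ∈ Icc 0 ρ, |Wk x (e k) s - (o + x) s| ≤ δ := by
    intro s hs
    have h1 := hk s hs
    rw [dist_comm, Real.dist_eq] at h1
    have e1 : Wk x (e k) s - (o + x) s = -pv x (e k) s - o s := by
      simp only [Wk, Pi.add_apply]
      ring
    rw [e1]
    exact h1.le
  obtain ⟨g', hg', him, hdist⟩ := hst δ hδ0 (min_le_left _ _) w (Wk x (e k))
    (by rw [dist_self]; exact hδ0.le) (continuous_Wk hx (he k)).continuousOn hd
  refine ⟨⟨g', hg'⟩, ?_, fun s hs => ?_⟩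
  · rw [Zf_im_eq, gf_eq hg' ⟨hρ, le_rfl⟩]
    exact him
  · rw [Zf_eq, Zf_eq, gf_eq hg' hs]
    have e1 : g' s - (Wk x (e k) s : ℂ) - (gf (o + x) w s - ((o + x) s : ℝ)) =
        (g' s - gf (o + x) w s) - ((Wk x (e k) s - (o + x) s : ℝ) : ℂ) := by
      push_cast
      ring
    rw [e1]
    refine (norm_sub_le _ _).trans ?_
    rw [Complex.norm_real, Real.norm_eq_abs, ← dist_eq_norm]
    have h2 : (C + 1) * δ ≤ ε := by
      calc (C + 1) * δ ≤ (C + 1) * (ε / (C + 1)) :=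
            mul_le_mul_of_nonneg_left (min_le_right _ _) (by positivity)
        _ = ε := by field_simp
    have h3 := hdist s hs
    have h4 := hd s hs
    linarith

/-- the time spent near zero is small -/
theorem small_time {x : ℝ → ℝ} (hx : Continuous x) {e : ℕ → ℝ} (hlim : Tendsto e atTop (𝓝 0))
    (hz : volume {s | 0 ≤ s ∧ x s = 0} = 0) (ρ : ℝ) :
    Tendsto (fun k => volume.real {s | s ∈ Icc 0 ρ ∧ |x s| ≤ e k}) atTop (𝓝 0) := by
  have hm : ∀ k, MeasurableSet {s | s ∈ Icc 0 ρ ∧ |x s| ≤ e k} := fun k =>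
    measurableSet_Icc.inter (measurableSet_le hx.measurable.abs measurable_const)
  have h := tendsto_measure_of_ae_tendsto_indicator (μ := volume) (A := (∅ : Set ℝ)) atTop
    MeasurableSet.empty hm (B := Icc 0 ρ) measurableSet_Icc measure_Icc_lt_top.ne
    (Eventually.of_forall fun k s hs => hs.1) (by
      filter_upwards [measure_eq_zero_iff_ae_notMem.1 hz] with s hs
      by_cases h0 : 0 ≤ s
      · have h1 : 0 < |x s| := abs_pos.2 fun h => hs ⟨h0, h⟩
        filter_upwards [hlim.eventually (gt_mem_nhds h1)] with k hk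
        exact ⟨fun h => absurd h.2 (not_le.2 hk), fun h => h.elim⟩
      · exact Eventually.of_forall fun k => ⟨fun h => absurd h.1.1 h0, fun h => h.elim⟩)
  rw [measure_empty] at h
  exact (ENNReal.tendsto_toReal ENNReal.zero_ne_top).comp h

/-- a three epsilon argument in probability -/
theorem three_eps {Θ : Type} [MeasurableSpace Θ] {P : Measure Θ} [IsFiniteMeasure P]
    {f : ℕ → Θ → ℂ} {g : ℕ → ℕ → Θ → ℂ} {L : Θ → ℂ} (hg : ∀ k n, Measurable (g k n))
    (hL : Measurable L)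
    (h1 : ∀ ε δ : ℝ, 0 < ε → 0 < δ →
      ∀ᶠ k in atTop, ∀ n, P.real {ω | ε ≤ ‖f n ω - g k n ω‖} ≤ δ)
    (h2 : ∀ᵐ ω ∂P, ∀ ε : ℝ, 0 < ε → ∀ᶠ k in atTop, ∀ᶠ n in atTop, ‖g k n ω - L ω‖ < ε) :
    TendstoInMeasure P f atTop L := by
  rw [tendstoInMeasure_iff_measureReal_norm]
  intro ε hε
  have hreal : ∀ A : ℕ → Set Θ, (∀ i, MeasurableSet (A i)) →
      (∀ᵐ ω ∂P, ∀ᶠ i in atTop, ω ∉ A i) → Tendsto (fun i => P.real (A i)) atTop (𝓝 0) := by
    intro A hA h
    have h' := tendsto_measure_of_ae_tendsto_indicator_of_isFiniteMeasure (μ := P)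
      (A := (∅ : Set Θ)) atTop MeasurableSet.empty hA (by
        filter_upwards [h] with ω hω
        filter_upwards [hω] with i hi
        exact ⟨fun h => absurd h hi, fun h => h.elim⟩)
    rw [measure_empty] at h'
    exact (ENNReal.tendsto_toReal ENNReal.zero_ne_top).comp h'
  have hB : ∀ k n, MeasurableSet {ω | ‖g k n ω - L ω‖ < ε / 2} := fun k n =>
    measurableSet_lt ((hg k n).sub hL).norm measurable_const
  set C : ℕ → Set Θ := fun k => {ω | ∀ᶠ n in atTop, ‖g k n ω - L ω‖ < ε / 2}ᶜ with hC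
  have hCm : ∀ k, MeasurableSet (C k) := by
    intro k
    refine MeasurableSet.compl ?_
    have e : {ω | ∀ᶠ n in atTop, ‖g k n ω - L ω‖ < ε / 2} =
        ⋃ N, ⋂ n, ⋂ _ : N ≤ n, {ω | ‖g k n ω - L ω‖ < ε / 2} := by
      ext ω
      simp only [mem_ofPred_eq, eventually_atTop, mem_iUnion, mem_iInter]
    rw [e]
    exact MeasurableSet.iUnion fun N => MeasurableSet.iInter fun n =>
      MeasurableSet.iInter fun _ => hB k n
  have hC0 := hreal C hCm (by
    filter_upwards [h2] with ω hω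
    filter_upwards [hω (ε / 2) (by positivity)] with k hk
    exact fun h => h hk)
  rw [Metric.tendsto_atTop]
  intro δ hδ
  obtain ⟨k, hk1, hk2⟩ := ((h1 (ε / 2) (δ / 4) (by positivity) (by positivity)).and
    (hC0.eventually (gt_mem_nhds (show (0 : ℝ) < δ / 4 by positivity)))).exists
  have hA0 := hreal (fun n => {ω | ‖g k n ω - L ω‖ < ε / 2}ᶜ \ C k)
    (fun n => (hB k n).compl.diff (hCm k)) (Eventually.of_forall fun ω => by
      by_cases h : ω ∈ C k
      · exact Eventually.of_forall fun n hn => hn.2 h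
      · have h' : ∀ᶠ n in atTop, ‖g k n ω - L ω‖ < ε / 2 := not_not.1 h
        filter_upwards [h'] with n hn
        exact fun h'' => h''.1 hn)
  obtain ⟨N, hN⟩ := eventually_atTop.1
    (hA0.eventually (gt_mem_nhds (show (0 : ℝ) < δ / 4 by positivity)))
  refine ⟨N, fun n hn => ?_⟩
  rw [Real.dist_eq, sub_zero, abs_of_nonneg measureReal_nonneg]
  have hsub : {ω | ε ≤ ‖f n ω - L ω‖} ⊆ {ω | ε / 2 ≤ ‖f n ω - g k n ω‖} ∪
      (C k ∪ ({ω | ‖g k n ω - L ω‖ < ε / 2}ᶜ \ C k)) := by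
    intro ω hω
    by_contra hcon
    simp only [mem_union, not_or, Set.mem_sdiff, not_and, not_not] at hcon
    obtain ⟨a1, a2, a3⟩ := hcon
    have b1 : ‖f n ω - g k n ω‖ < ε / 2 := not_le.1 a1
    have b2 : ‖g k n ω - L ω‖ < ε / 2 := by
      by_contra h
      exact a2 (a3 h)
    have b3 : ‖f n ω - L ω‖ ≤ ‖f n ω - g k n ω‖ + ‖g k n ω - L ω‖ :=
      norm_sub_le_norm_sub_add_norm_sub _ _ _
    have b4 : ε ≤ ‖f n ω - L ω‖ := hω
    linarith
  have c1 := measureReal_mono (μ := P) hsub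
  have c2 := measureReal_union_le (μ := P) {ω | ε / 2 ≤ ‖f n ω - g k n ω‖}
    (C k ∪ ({ω | ‖g k n ω - L ω‖ < ε / 2}ᶜ \ C k))
  have c3 := measureReal_union_le (μ := P) (C k) ({ω | ‖g k n ω - L ω‖ < ε / 2}ᶜ \ C k)
  have c4 := hk1 n
  have c5 := hN n hn
  linarith

/-- Riemann sums of uniformly small arrays are small in probability -/
theorem small_RS (hS : SI) {Θ : Type} [mΘ : MeasurableSpace Θ] {P : Measure Θ} (S : BSys P)
    {D : ℕ → ℕ → ℕ → Θ → ℂ} {K : ℝ} (T : ℕ)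
    (had : ∀ k n i, Measurable[S.F (tt n i)] (D k n i)) (hK : ∀ k n i ω, ‖D k n i ω‖ ≤ K)
    (h : ∀ᵐ ω ∂P, ∀ ε : ℝ, 0 < ε → ∀ᶠ k in atTop, ∀ n, ∀ i < T * 2 ^ n, ‖D k n i ω‖ ≤ ε)
    (ε δ : ℝ) (hε : 0 < ε) (hδ : 0 < δ) :
    ∀ᶠ k in atTop, ∀ n, P.real {ω | ε ≤ ‖RS S.X (D k) T n ω‖} ≤ δ := by
  classical
  have := S.prob
  have hDm : ∀ k n i, Measurable (D k n i) := fun k n i => (had k n i).mono (S.F.le _) le_rfl
  set q : ℕ → ℕ → Θ → ℝ := fun k n ω =>
    4 / 2 ^ n * ∑ i ∈ Finset.range (T * 2 ^ n), ‖D k n i ω‖ ^ 2 with hq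
  have hqm : ∀ k n, Measurable (q k n) := fun k n =>
    (Finset.measurable_sum _ fun i _ => (hDm k n i).norm.pow_const 2).const_mul _
  have hq0 : ∀ k n ω, 0 ≤ q k n ω := fun k n ω => by simp only [hq]; positivity
  have hqle : ∀ k n ω (a : ℝ), (∀ i < T * 2 ^ n, ‖D k n i ω‖ ≤ a) → q k n ω ≤ 4 * T * a ^ 2 := by
    intro k n ω a ha
    have h1 : ∑ i ∈ Finset.range (T * 2 ^ n), ‖D k n i ω‖ ^ 2 ≤ (T * 2 ^ n : ℕ) • a ^ 2 := by
      have := Finset.sum_le_card_nsmul (Finset.range (T * 2 ^ n)) (fun i => ‖D k n i ω‖ ^ 2)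
        (a ^ 2) fun i hi => pow_le_pow_left₀ (norm_nonneg _) (ha i (Finset.mem_range.1 hi)) 2
      rwa [Finset.card_range] at this
    calc q k n ω ≤ 4 / 2 ^ n * ((T * 2 ^ n : ℕ) • a ^ 2) :=
          mul_le_mul_of_nonneg_left h1 (by positivity)
      _ = 4 * T * a ^ 2 := by
          rw [nsmul_eq_mul]
          push_cast
          field_simp
  have hbd : ∀ k ω, BddAbove (range fun n => q k n ω) := fun k ω =>
    ⟨4 * T * K ^ 2, by rintro _ ⟨n, rfl⟩; exact hqle k n ω K fun i _ => hK k n i ω⟩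
  set G : ℕ → Θ → ℝ := fun k ω => ⨆ n, q k n ω with hG
  have hGm : ∀ k, Measurable (G k) := fun k => Measurable.iSup (hqm k)
  have hG0 : ∀ k ω, 0 ≤ G k ω := fun k ω => (hq0 k 0 ω).trans (le_ciSup (hbd k ω) 0)
  have hGle : ∀ k ω, ‖G k ω‖ ≤ 4 * T * K ^ 2 := fun k ω => by
    rw [Real.norm_eq_abs, abs_of_nonneg (hG0 k ω)]
    exact ciSup_le fun n => hqle k n ω K fun i _ => hK k n i ω
  have hlim : Tendsto (fun k => ∫ ω, G k ω ∂P) atTop (𝓝 (∫ _ω, (0 : ℝ) ∂P)) := by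
    refine tendsto_integral_of_dominated_convergence (fun _ => 4 * T * K ^ 2)
      (fun k => (hGm k).aestronglyMeasurable) (integrable_const _)
      (fun k => Eventually.of_forall (hGle k)) ?_
    filter_upwards [h] with ω hω
    rw [Metric.tendsto_nhds]
    intro a ha
    have h1 : Tendsto (fun b : ℝ => 4 * T * b ^ 2) (𝓝[>] 0) (𝓝 0) := by
      have h2 : Continuous fun b : ℝ => 4 * T * b ^ 2 := by fun_prop
      have h3 := h2.tendsto 0
      simp only [ne_eq, OfNat.ofNat_ne_zero, not_false_eq_true, zero_pow, mul_zero] at h3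
      exact h3.mono_left nhdsWithin_le_nhds
    obtain ⟨b, hb1, hb2⟩ := ((h1.eventually (gt_mem_nhds ha)).and self_mem_nhdsWithin).exists
    filter_upwards [hω b hb2] with k hk
    rw [Real.dist_eq, sub_zero, abs_of_nonneg (hG0 k ω)]
    exact (ciSup_le fun n => hqle k n ω b (hk n)).trans_lt hb1
  rw [integral_zero] at hlim
  filter_upwards [hlim.eventually (gt_mem_nhds (show 0 < δ * ε ^ 2 by positivity))] with k hk n
  obtain ⟨-, h2, h3⟩ := (hS Θ mΘ P S (D k) ⟨had k, K, hK k⟩ T).1 n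
  have hint : Integrable (fun ω => ‖RS S.X (D k) T n ω‖ ^ 2) P := h2.integrable_norm_pow two_ne_zero
  have h4 := mul_meas_ge_le_integral_of_nonneg
    (Eventually.of_forall fun ω => by positivity) hint (ε ^ 2)
  have h5 : ∫ ω, q k n ω ∂P ≤ ∫ ω, G k ω ∂P :=
    integral_mono_of_nonneg (Eventually.of_forall (hq0 k n))
      (Integrable.of_bound (hGm k).aestronglyMeasurable _ (Eventually.of_forall (hGle k)))
      (Eventually.of_forall fun ω => le_ciSup (hbd k ω) n)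
  have h6 : P.real {ω | ε ≤ ‖RS S.X (D k) T n ω‖} ≤
      P.real {ω | ε ^ 2 ≤ ‖RS S.X (D k) T n ω‖ ^ 2} :=
    measureReal_mono fun ω hω => pow_le_pow_left₀ hε.le hω 2
  have h7 : ε ^ 2 * P.real {ω | ε ≤ ‖RS S.X (D k) T n ω‖} ≤ ε ^ 2 * δ := by
    have h8 := mul_le_mul_of_nonneg_left h6 (sq_nonneg ε)
    rw [h3] at h4
    have h9 : ∫ ω, q k n ω ∂P < δ * ε ^ 2 := h5.trans_lt hk
    simp only [hq] at h9
    linarith
  exact le_of_mul_le_mul_left h7 (by positivity)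

open Classical in
/-- the truncated inverse -/
noncomputable def tr (η : ℝ) (Z : ℂ) : ℂ := if η / 2 ≤ Z.im then Z⁻¹ else 0

theorem measurable_tr (η : ℝ) : Measurable (tr η) :=
  Measurable.ite (measurableSet_le measurable_const Complex.measurable_im) measurable_inv
    measurable_const

theorem norm_tr_le {η : ℝ} (hη : 0 < η) (Z : ℂ) : ‖tr η Z‖ ≤ 2 / η := by
  unfold tr
  split_ifs with h
  · refine (norm_inv_le (by positivity) h).trans_eq ?_
    field_simp
  · rw [norm_zero]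
    positivity

theorem im_close {η : ℝ} {Z Z' : ℂ} (h : η ≤ Z.im) (h' : ‖Z' - Z‖ ≤ η / 2) : η / 2 ≤ Z'.im := by
  have h1 := (Complex.abs_im_le_norm (Z' - Z)).trans h'
  rw [Complex.sub_im, abs_le] at h1
  linarith [h1.1]

theorem norm_inv_sub_tr {η : ℝ} (hη : 0 < η) {Z Z' : ℂ} (h : η ≤ Z.im)
    (h' : ‖Z' - Z‖ ≤ η / 2) : ‖Z⁻¹ - tr η Z'‖ ≤ 2 / η ^ 2 * ‖Z' - Z‖ := by
  have h1 := im_close h h'
  have z1 : Z ≠ 0 := ne_zero_of_im (hη.trans_le h)
  have z2 : Z' ≠ 0 := ne_zero_of_im (lt_of_lt_of_le (by positivity) h1)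
  rw [tr, if_pos h1]
  have e : Z⁻¹ - Z'⁻¹ = Z⁻¹ * Z'⁻¹ * (Z' - Z) := by field_simp
  rw [e, norm_mul, norm_mul]
  refine mul_le_mul_of_nonneg_right ?_ (norm_nonneg _)
  calc ‖Z⁻¹‖ * ‖Z'⁻¹‖ ≤ 1 / η * (1 / (η / 2)) :=
        mul_le_mul (norm_inv_le hη h) (norm_inv_le (by positivity) h1) (norm_nonneg _)
          (by positivity)
    _ = 2 / η ^ 2 := by field_simp

/-- the number of grid points before the stopping time -/
theorem exists_count {Θ : Type} {E : ℝ → Set Θ} (hE : ∀ s t, 0 ≤ s → s ≤ t → E t ⊆ E s) (T : ℕ)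
    (ω : Θ) : ∃ m : ℕ → ℕ, Tendsto (fun n => tt n (m n)) atTop (𝓝 (last E T ω)) ∧
      ∀ n, m n ≤ T * 2 ^ n ∧ (∀ i < m n, ω ∈ E (tt n i)) ∧
        ∀ i, m n ≤ i → i < T * 2 ^ n → ω ∉ E (tt n i) := by
  classical
  have hT : (0 : ℝ) ≤ T := Nat.cast_nonneg T
  have hex : ∀ n, ∃ i, ω ∉ E (tt n i) ∨ T * 2 ^ n ≤ i := fun n => ⟨_, Or.inr le_rfl⟩
  have h1 : ∀ n, Nat.find (hex n) ≤ T * 2 ^ n := fun n => Nat.find_min' _ (Or.inr le_rfl)
  have h2 : ∀ n, ∀ i < Nat.find (hex n), ω ∈ E (tt n i) := fun n i hi => by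
    by_contra h
    exact Nat.find_min (hex n) hi (Or.inl h)
  refine ⟨fun n => Nat.find (hex n), ?_, fun n => ⟨h1 n, h2 n, fun i hi hi' h => ?_⟩⟩
  · have h3 : Tendsto (fun n : ℕ => last E T ω + (1 : ℝ) / 2 ^ n) atTop (𝓝 (last E T ω)) := by
      simpa only [add_zero] using tendsto_mesh.const_add (last E T ω)
    refine tendsto_of_tendsto_of_tendsto_of_le_of_le tendsto_const_nhds h3 (fun n => ?_)
      fun n => ?_
    · show last E T ω ≤ tt n (Nat.find (hex n))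
      rcases Nat.find_spec (hex n) with h | h
      · by_contra hc
        exact h (mem_of_lt_last hE (tt_nonneg _ _) (not_le.1 hc))
      · exact (last_le hT).trans ((tt_top T n).symm.trans_le (tt_mono n h))
    · show tt n (Nat.find (hex n)) ≤ last E T ω + 1 / 2 ^ n
      rcases Nat.eq_zero_or_pos (Nat.find (hex n)) with h | h
      · rw [h]
        have a1 : tt n 0 = 0 := by simp [tt]
        have a2 : 0 ≤ last E T ω := last_nonneg
        have a3 : (0 : ℝ) ≤ 1 / 2 ^ n := by positivity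
        linarith
      · obtain ⟨j, hj⟩ : ∃ j, Nat.find (hex n) = j + 1 := ⟨_, (Nat.succ_pred_eq_of_pos h).symm⟩
        have a1 : j < Nat.find (hex n) := by omega
        have a2 := le_last (T := T) ⟨tt_nonneg n j, tt_le (a1.le.trans (h1 n))⟩ (h2 n j a1)
        rw [hj, tt_succ]
        linarith
  · rcases Nat.find_spec (hex n) with h' | h'
    · exact h' (hE _ _ (tt_nonneg _ _) (tt_mono n hi) h)
    · exact absurd (h'.trans hi) (not_le.2 hi')

end Vale.Agent.P155.Tree.Ito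

namespace Vale.Agent.P155.Tree

open Set Metric Filter Topology MeasureTheory ProbabilityTheory Vale.Agent.P164 Ito

theorem ito_of (hS : SI) (hP : PATH) (hF : FOLL) (hM : MEAS) (hT : STP) (hV : PVM)
    (h0 : GEO0) : ITO := by
  intro Θ mΘ P S w η E hw hη hE T
  have := S.prob
  have hT0 : (0 : ℝ) ≤ T := Nat.cast_nonneg T
  have hZm : ∀ (V : Θ → ℝ → ℝ) (t : ℝ), 0 ≤ t → (∀ ω, Continuous (V ω)) →
      (∀ u ∈ Icc 0 t, Measurable[S.F t] (fun ω => V ω u)) →
      Measurable[S.F t] (fun ω => Zf (V ω) w t) := by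
    intro V t ht hc hm
    have h1 := (hM Θ (S.F t) V t ht hc hm).2.1
    generalize S.F t = m at h1 ⊢
    exact h1.comp (Measurable.prodMk (m := m) measurable_id measurable_const)
  have had : ∀ n i, Measurable[S.F (tt n i)] (arr S w E n i) := fun n i =>
    Measurable.indicator (m := S.F (tt n i)) (measurable_inv.comp
      (hZm S.W _ (tt_nonneg n i) (contW S) fun u hu => adW S hu.2)) (hE.ad _ (tt_nonneg n i))
  have hbd : ∀ n i ω, ‖arr S w E n i ω‖ ≤ 1 / η := by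
    intro n i ω
    by_cases h : ω ∈ E (tt n i)
    · rw [arr, indicator_of_mem h]
      exact norm_inv_le hη (hE.good _ (tt_nonneg n i) ω h).2
    · rw [arr, indicator_of_notMem h, norm_zero]
      positivity
  refine ⟨⟨had, _, hbd⟩, ?_⟩
  set θ : ℕ → ℕ → ℕ → Θ → ℂ := fun k n i =>
    (E (tt n i)).indicator fun ω => tr η (Zf (Wk (S.X ω) (S.e k)) w (tt n i)) with hθ
  have hWk : ∀ k t, ∀ u ∈ Icc 0 t, Measurable[S.F t] (fun ω => Wk (S.X ω) (S.e k) u) := by
    intro k t u hu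
    have h1 := (hV Θ mΘ P S.toBSys (bb (S.e k)) (measurable_bb _)
      ⟨_, abs_bb_le (S.epos k)⟩).2 u hu.1
    exact Measurable.add (m := S.F t) (Measurable.neg (m := S.F t)
      (h1.mono (S.F.mono hu.2) le_rfl)) (adX S hu.2)
  have hθad : ∀ k n i, Measurable[S.F (tt n i)] (θ k n i) := fun k n i =>
    Measurable.indicator (m := S.F (tt n i)) ((measurable_tr η).comp
      (hZm (fun ω => Wk (S.X ω) (S.e k)) _ (tt_nonneg n i)
        (fun ω => continuous_Wk (S.cont ω) (S.epos k)) (hWk k _))) (hE.ad _ (tt_nonneg n i))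
  have hθbd : ∀ k n i ω, ‖θ k n i ω‖ ≤ 2 / η := by
    intro k n i ω
    by_cases h : ω ∈ E (tt n i)
    · simp only [hθ, indicator_of_mem h]
      exact norm_tr_le hη _
    · simp only [hθ, indicator_of_notMem h, norm_zero]
      positivity
  obtain ⟨hlast, -, hNN, -⟩ := (hT Θ mΘ P S w η E hw hη hE).1 T hT0
  have hext : ∀ ω, ∃ ρ', last E T ω < ρ' ∧ w ∈ loewnerDomain (S.O ω + S.X ω) ρ' := by
    intro ω
    obtain ⟨s, hs, hlt⟩ := ((h0 (S.W ω) (contW S ω) w hw).1.2 _ (hlast ω).1).1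
    exact ⟨s, hlt, hs.2⟩
  have hgrid : ∀ ω n i, i < T * 2 ^ n → ω ∈ E (tt n i) → tt n i ∈ Icc 0 (last E T ω) :=
    fun ω n i hi h => ⟨tt_nonneg n i, le_last ⟨tt_nonneg n i, tt_le hi.le⟩ h⟩
  refine three_eps (g := fun k => RS S.X (θ k) T)
    (fun k n => ((hS Θ mΘ P S.toBSys (θ k) ⟨hθad k, _, hθbd k⟩ T).1 n).1)
    (hNN.mono (S.F.le _) le_rfl).neg (fun ε δ hε hδ => ?_) ?_
  · have h := small_RS hS S.toBSys (D := fun k n i ω => arr S w E n i ω - θ k n i ω)
      (K := 1 / η + 2 / η) T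
      (fun k n i => Measurable.sub (m := S.F (tt n i)) (had n i) (hθad k n i))
      (fun k n i ω => (norm_sub_le _ _).trans (add_le_add (hbd n i ω) (hθbd k n i ω))) ?_
      ε δ hε hδ
    · filter_upwards [h] with k hk n
      refine le_of_eq_of_le ?_ (hk n)
      congr 1
      ext ω
      simp only [mem_ofPred_eq, RS, ← Finset.sum_sub_distrib, sub_mul]
    · filter_upwards [S.conv] with ω hω a ha
      obtain ⟨c, -, hc⟩ := approx (S.cont ω) S.epos last_nonneg (hω (last E T ω))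
        (hlast ω).1.2
      filter_upwards [hc (min (η / 2) (a * η ^ 2 / 2)) (lt_min (by positivity) (by positivity))]
        with k hk n i hi
      by_cases h : ω ∈ E (tt n i)
      · simp only [hθ, arr, indicator_of_mem h]
        have h1 := hk.2.2 _ (hgrid ω n i hi h)
        refine (norm_inv_sub_tr hη (hE.good _ (tt_nonneg n i) ω h).2
          (h1.trans (min_le_left _ _))).trans ?_
        calc 2 / η ^ 2 * ‖Zf (Wk (S.X ω) (S.e k)) w (tt n i) - Zf (S.W ω) w (tt n i)‖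
            ≤ 2 / η ^ 2 * (a * η ^ 2 / 2) :=
              mul_le_mul_of_nonneg_left (h1.trans (min_le_right _ _)) (by positivity)
          _ = a := by field_simp
      · simp only [hθ, arr, indicator_of_notMem h, sub_zero, norm_zero]
        exact ha.le
  · filter_upwards [S.conv, hP Θ mΘ P S.toBSys] with ω hω hpath ε hε
    obtain ⟨ρ', hρρ, hρw⟩ := hext ω
    set ρ := last E T ω with hρ
    have hρ0 : 0 ≤ ρ := last_nonneg
    obtain ⟨c, hc0, hc⟩ := approx (S.cont ω) S.epos (hρ0.trans hρρ.le) (hω ρ') hρw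
    obtain ⟨m, hm, hm'⟩ := exists_count hE.anti T ω
    have hZρ : 0 < (Zf (S.O ω + S.X ω) w ρ).im := Zf_im_pos hρ0 (dom_mono hρρ.le hρw)
    have hZt : Tendsto (fun k => Zf (Wk (S.X ω) (S.e k)) w ρ) atTop
        (𝓝 (Zf (S.O ω + S.X ω) w ρ)) := by
      rw [Metric.tendsto_nhds]
      intro a ha
      filter_upwards [hc (a / 2) (by positivity)] with k hk
      rw [dist_eq_norm]
      exact (hk.2.2 ρ ⟨hρ0, hρρ.le⟩).trans_lt (by linarith)
    have hNt : Tendsto (fun k => Complex.log (Zf (Wk (S.X ω) (S.e k)) w ρ) -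
        Complex.log (Zf (Wk (S.X ω) (S.e k)) w ρ + (S.X ω ρ : ℂ))) atTop
        (𝓝 (NN (S.X ω) (S.O ω) w ρ)) := by
      refine Tendsto.sub (hZt.clog (Or.inr hZρ.ne')) ((hZt.add_const _).clog (Or.inr ?_))
      simpa only [Complex.add_im, Complex.ofReal_im, add_zero] using hZρ.ne'
    have hvol : Tendsto (fun k => 2 / c ^ 2 *
        volume.real {s | s ∈ Icc 0 ρ ∧ |S.X ω s| ≤ S.e k}) atTop (𝓝 0) := by
      simpa only [mul_zero] using
        (small_time (S.cont ω) S.elim hpath.2.1 ρ).const_mul (2 / c ^ 2)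
    filter_upwards [hc (η / 2) (by positivity),
      Metric.tendsto_nhds.1 hNt (ε / 3) (by positivity),
      hvol.eventually (gt_mem_nhds (show 0 < ε / 3 by positivity))] with k hk1 hk2 hk3
    obtain ⟨L, hL, hL'⟩ := reg_limit hF (S.cont ω) (S.zero ω 0 le_rfl) hpath.1 hρ0 hρρ hm
      (S.epos k) hc0 hk1.1 hk1.2.1
    filter_upwards [Metric.tendsto_nhds.1 hL (ε / 3) (by positivity)] with n hn
    have e : RS S.X (θ k) T n ω = ∑ i ∈ Finset.range (m n),
        (Zf (Wk (S.X ω) (S.e k)) w (tt n i))⁻¹ * (dx (S.X ω) n i : ℂ) := by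
      rw [RS, ← Finset.sum_subset (Finset.range_mono (hm' n).1)]
      · refine Finset.sum_congr rfl fun i hi => ?_
        have hi' := Finset.mem_range.1 hi
        have h := (hm' n).2.1 i hi'
        have h1 := hgrid ω n i (hi'.trans_le (hm' n).1) h
        have h2 := im_close (hE.good _ (tt_nonneg n i) ω h).2
          (hk1.2.2 _ ⟨h1.1, h1.2.trans hρρ.le⟩)
        simp only [hθ, indicator_of_mem h, tr, if_pos h2]
      · intro i hi hi'
        have h := (hm' n).2.2 i (not_lt.1 fun h => hi' (Finset.mem_range.2 h))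
          (Finset.mem_range.1 hi)
        simp only [hθ, indicator_of_notMem h, zero_mul]
    rw [e]
    rw [dist_eq_norm] at hn hk2
    set A := ∑ i ∈ Finset.range (m n),
      (Zf (Wk (S.X ω) (S.e k)) w (tt n i))⁻¹ * (dx (S.X ω) n i : ℂ)
    set B := Complex.log (Zf (Wk (S.X ω) (S.e k)) w ρ) -
      Complex.log (Zf (Wk (S.X ω) (S.e k)) w ρ + (S.X ω ρ : ℂ))
    have e2 : A - -NN (S.X ω) (S.O ω) w ρ =
        (A - L) + (L + B) - (B - NN (S.X ω) (S.O ω) w ρ) := by ring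
    show ‖A - -NN (S.X ω) (S.O ω) w ρ‖ < ε
    rw [e2]
    have t1 := norm_sub_le ((A - L) + (L + B)) (B - NN (S.X ω) (S.O ω) w ρ)
    have t2 := norm_add_le (A - L) (L + B)
    linarith

end Vale.Agent.P155.Tree
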