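import Vale.Agent.P155Z.Sk

/-!
# P155, branching SLE₄(-2): joint measurability of the glued objects
-/

namespace Vale.Agent.P155.Tree

open MeasureTheory Filter Topology ProbabilityTheory Set TopologicalSpace Metric Vale.Agent.P155
  Vale.Agent.P155.Q1 Vale.Agent.P164 Vale.Agent.P155.Uq

namespace Jm

theorem coe_toNC {S : Set ℂ} (h : IsCompact S) (hn : S.Nonempty) : (toNC S : Set ℂ) = S := by
  unfold toNC
  rw [dif_pos ⟨h, hn⟩]
  rfl

theorem ext_infDist {K L : NonemptyCompacts ℂ}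
    (h : ∀ n, infDist (denseSeq ℂ n) (K : Set ℂ) = infDist (denseSeq ℂ n) (L : Set ℂ)) :
    K = L := by
  have hall : (fun x : ℂ => infDist x (K : Set ℂ)) = fun x => infDist x (L : Set ℂ) :=
    (denseRange_denseSeq ℂ).equalizer (continuous_infDist_pt _) (continuous_infDist_pt _)
      (funext h)
  apply SetLike.coe_injective
  ext x
  show x ∈ (K : Set ℂ) ↔ x ∈ (L : Set ℂ)
  rw [K.isCompact.isClosed.mem_iff_infDist_zero K.nonempty,
    L.isCompact.isClosed.mem_iff_infDist_zero L.nonempty, congrFun hall x]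

/-- measurability of maps with values in the compact sets -/
theorem measurable_nc {X : Type*} [MeasurableSpace X] {f : X → NonemptyCompacts ℂ}
    (h : ∀ (q : ℂ) (r : ℝ), MeasurableSet {x | infDist q (f x : Set ℂ) ≤ r}) :
    Measurable f := by
  set T : NonemptyCompacts ℂ → (ℕ → ℝ) := fun K n => infDist (denseSeq ℂ n) (K : Set ℂ)
    with hT
  have hTc : Continuous T := continuous_pi fun n => (lipschitz_infDist_set _).continuous
  have hTi : Function.Injective T := fun K L h => ext_infDist fun n => congrFun h n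
  have hemb : MeasurableEmbedding T := hTc.measurableEmbedding hTi
  refine hemb.measurable_comp_iff.1 (measurable_pi_lambda _ fun n => ?_)
  exact measurable_of_Iic fun r => h _ r

/-- zero sets of functions which are continuous in the point and measurable in the parameter -/
theorem measurable_zero {X : Type*} [MeasurableSpace X] {f : X → NonemptyCompacts ℂ}
    (ρ : X → ℂ → ℝ) (hc : ∀ x, Continuous (ρ x)) (hm : ∀ z, Measurable fun x => ρ x z)
    (h0 : ∀ x z, z ∈ (f x : Set ℂ) ↔ ρ x z = 0) : Measurable f := by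
  apply measurable_nc
  intro q r
  have e : {x | infDist q (f x : Set ℂ) ≤ r} = ⋂ n : ℕ, ⋃ i : ℕ,
      {x | max (dist q (denseSeq ℂ i) - r) |ρ x (denseSeq ℂ i)| < 1 / ((n : ℝ) + 1)} := by
    ext x
    have hφ : Continuous fun z => max (dist q z - r) |ρ x z| :=
      ((continuous_const.dist continuous_id).sub continuous_const).max (hc x).abs
    simp only [mem_iInter, mem_iUnion, mem_setOf_eq]
    constructor
    · intro h n
      obtain ⟨z, hz, hzd⟩ := (f x).isCompact.exists_infDist_eq_dist (f x).nonempty q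
      have hpos : (0 : ℝ) < 1 / ((n : ℝ) + 1) := Nat.one_div_pos_of_nat
      have hO : IsOpen {z | max (dist q z - r) |ρ x z| < 1 / ((n : ℝ) + 1)} :=
        isOpen_lt hφ continuous_const
      refine (denseRange_denseSeq ℂ).exists_mem_open hO ⟨z, ?_⟩
      show max (dist q z - r) |ρ x z| < _
      rw [(h0 x z).1 hz, abs_zero, ← hzd]
      exact max_lt (by linarith) hpos
    · intro h
      obtain ⟨i₀, hi₀⟩ := h 0
      have hmem : ∀ (n i : ℕ), max (dist q (denseSeq ℂ i) - r) |ρ x (denseSeq ℂ i)| <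
          1 / ((n : ℝ) + 1) → denseSeq ℂ i ∈ closedBall q (r + 1) := by
        intro n i hi
        have h1 : 1 / ((n : ℝ) + 1) ≤ 1 := by
          rw [div_le_one (by positivity)]
          linarith [Nat.cast_nonneg (α := ℝ) n]
        have h2 := (le_max_left _ _).trans_lt hi
        rw [mem_closedBall, dist_comm]
        linarith
      obtain ⟨z, -, hz⟩ := (isCompact_closedBall q (r + 1)).exists_isMinOn
        ⟨_, hmem 0 i₀ hi₀⟩ hφ.continuousOn
      have hle : max (dist q z - r) |ρ x z| ≤ 0 := by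
        by_contra hpos
        obtain ⟨n, hn⟩ := exists_nat_one_div_lt (not_le.1 hpos)
        obtain ⟨i, hi⟩ := h n
        have h3 : max (dist q z - r) |ρ x z| ≤
            max (dist q (denseSeq ℂ i) - r) |ρ x (denseSeq ℂ i)| := hz (hmem n i hi)
        linarith
      have h1 : dist q z - r ≤ 0 := (le_max_left _ _).trans hle
      have h2 : |ρ x z| ≤ 0 := (le_max_right _ _).trans hle
      have hzf : z ∈ (f x : Set ℂ) := (h0 x z).2 (abs_nonpos_iff.1 h2)
      exact (infDist_le_dist_of_mem hzf).trans (by linarith)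
  rw [e]
  refine MeasurableSet.iInter fun n => MeasurableSet.iUnion fun i => ?_
  exact measurableSet_lt (measurable_const.max (hm _).abs) measurable_const

/-- evaluation at a random index -/
theorem measurable_pick {X Y ι : Type*} [MeasurableSpace X] [MeasurableSpace Y] [Countable ι]
    {I : X → ι} (hI : ∀ i, MeasurableSet {x | I x = i}) {F : ι → X → Y}
    (hF : ∀ i, Measurable (F i)) : Measurable fun x => F (I x) x := by
  intro t ht
  have e : (fun x => F (I x) x) ⁻¹' t = ⋃ i, {x | I x = i} ∩ F i ⁻¹' t := by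
    ext x
    simp only [mem_preimage, mem_iUnion, mem_inter_iff, mem_setOf_eq]
    constructor
    · exact fun h => ⟨I x, rfl, h⟩
    · rintro ⟨i, rfl, h⟩
      exact h
  rw [e]
  exact MeasurableSet.iUnion fun i => (hI i).inter (hF i ht)

theorem measurableSet_sInf {X : Type*} [MeasurableSpace X] {p : ℕ → X → Prop}
    (hp : ∀ i, MeasurableSet {x | p i x}) (n : ℕ) : MeasurableSet {x | sInf {i | p i x} = n} := by
  have e : {x | sInf {i | p i x} = n} = ({x | p n x} ∩ ⋂ i, ⋂ _ : i < n, {x | p i x}ᶜ) ∪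
      ({_x | n = 0} ∩ ⋂ i, {x | p i x}ᶜ) := by
    ext x
    simp only [mem_union, mem_inter_iff, mem_iInter, mem_compl_iff, mem_setOf_eq]
    constructor
    · rintro rfl
      by_cases hne : {i | p i x}.Nonempty
      · exact Or.inl ⟨Nat.sInf_mem hne, fun i hi => Nat.notMem_of_lt_sInf hi⟩
      · refine Or.inr ⟨?_, fun i hi => hne ⟨i, hi⟩⟩
        rw [not_nonempty_iff_eq_empty.1 hne, Nat.sInf_empty]
    · rintro (⟨h1, h2⟩ | ⟨h1, h2⟩)
      · refine le_antisymm (Nat.sInf_le h1) ?_
        by_contra hlt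
        exact h2 _ (not_le.1 hlt) (Nat.sInf_mem (s := {i | p i x}) ⟨n, h1⟩)
      · have : {i | p i x} = ∅ := eq_empty_of_forall_notMem h2
        rw [this, Nat.sInf_empty, h1]
  rw [e]
  exact ((hp n).inter (MeasurableSet.iInter fun i => MeasurableSet.iInter fun _ =>
    (hp i).compl)).union ((MeasurableSet.const _).inter (MeasurableSet.iInter fun i =>
      (hp i).compl))

variable {Ω : Set ℂ} {K : NonemptyCompacts ℂ} {h : ℂ → ℝ}

theorem open_diff (hΩ : IsOpen Ω) (K : NonemptyCompacts ℂ) : IsOpen (Ω \ (K : Set ℂ)) :=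
  hΩ.sdiff K.isCompact.isClosed

theorem hole_sub (z : ℂ) : NCLE.hole Ω K z ⊆ Ω \ (K : Set ℂ) := connectedComponentIn_subset _ _

theorem hole_open (hΩ : IsOpen Ω) (z : ℂ) : IsOpen (NCLE.hole Ω K z) :=
  (open_diff hΩ K).connectedComponentIn

theorem mem_hole {z : ℂ} (hz : z ∈ Ω \ (K : Set ℂ)) : z ∈ NCLE.hole Ω K z :=
  mem_connectedComponentIn hz

theorem hole_eq {z w : ℂ} (hw : w ∈ NCLE.hole Ω K z) : NCLE.hole Ω K w = NCLE.hole Ω K z :=
  (connectedComponentIn_eq hw).symm

theorem inH_iff (hK : Carp Ω K) (i : ℕ) (z : ℂ) :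
    InH Ω i (K, z) ↔ denseSeq ℂ i ∈ NCLE.hole Ω K z := by
  constructor
  · rintro ⟨-, h1, h2⟩
    rw [hole_eq h2]
    exact mem_hole h1
  · intro h1
    refine ⟨hK, hole_sub z h1, ?_⟩
    show z ∈ NCLE.hole Ω K (denseSeq ℂ i)
    rw [hole_eq h1]
    by_contra hz
    have hz' : z ∉ Ω \ (K : Set ℂ) := fun h2 => hz (mem_hole h2)
    have : NCLE.hole Ω K z = ∅ := connectedComponentIn_eq_empty hz'
    rw [this] at h1
    exact h1

/-- the point with the index of the hole lies in the hole -/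
theorem idx_mem (hΩ : IsOpen Ω) {z : ℂ} (hz : z ∈ Ω \ (K : Set ℂ)) :
    denseSeq ℂ (ix Ω K h z).1 ∈ NCLE.hole Ω K z :=
  Nat.sInf_mem (s := {i | denseSeq ℂ i ∈ NCLE.hole Ω K z})
    ((denseRange_denseSeq ℂ).exists_mem_open (hole_open hΩ z) ⟨z, mem_hole hz⟩)

theorem inH_ix (hΩ : IsOpen Ω) (hK : Carp Ω K) {z : ℂ} (hz : z ∈ Ω \ (K : Set ℂ)) :
    InH Ω (ix Ω K h z).1 (K, z) := (inH_iff hK _ z).2 (idx_mem hΩ hz)

/-- the Riemann map of the hole at `z` -/
theorem conf_ix {a b : NonemptyCompacts ℂ → ℕ → ℂ → ℂ} (hΩ : IsOpen Ω) (hR : Rie Ω a b)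
    (hK : Carp Ω K) {z : ℂ} (hz : z ∈ Ω \ (K : Set ℂ)) :
    CI.Conf (NCLE.hole Ω K z) DD (a K (ix Ω K h z).1) (b K (ix Ω K h z).1) := by
  have h1 := idx_mem (h := h) hΩ hz
  have h2 := hR.conf K _ hK (hole_sub z h1)
  rwa [hole_eq h1] at h2

/-- index and kind are locally constant -/
theorem ix_loc (hΩ : IsOpen Ω) (hT : Typed Ω K h) {z : ℂ} (hz : z ∈ Ω \ (K : Set ℂ)) :
    ∀ᶠ w in 𝓝 z, ix Ω K h w = ix Ω K h z := by
  filter_upwards [(hole_open hΩ z).mem_nhds (mem_hole hz), hT.loc z hz] with w h1 h2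
  unfold ix
  rw [hole_eq h1, h2]

theorem not_closure (hΩ : IsOpen Ω) (hK : Carp Ω K) {z : ℂ} (h1 : z ∉ (K : Set ℂ))
    (h2 : z ∈ closure Ω) : z ∈ Ω := by
  by_contra h3
  refine h1 (hK.2.1 ?_)
  rw [hΩ.frontier_eq]
  exact ⟨h2, h3⟩

open Classical in
/-- a continuous function whose zero set is the glued carpet -/
noncomputable def rho (Ω : Set ℂ) (a : NonemptyCompacts ℂ → ℕ → ℂ → ℂ)
    (K : NonemptyCompacts ℂ) (h : ℂ → ℝ) (G : ℕ × Bool → NonemptyCompacts ℂ) (z : ℂ) : ℝ :=
  if z ∈ Ω \ (K : Set ℂ) then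
    min (infDist z K) (infDist (a K (ix Ω K h z).1 z) (G (ix Ω K h z))) else infDist z K

theorem rho_nonneg (a : NonemptyCompacts ℂ → ℕ → ℂ → ℂ) (G : ℕ × Bool → NonemptyCompacts ℂ)
    (z : ℂ) : 0 ≤ rho Ω a K h G z := by
  unfold rho
  split_ifs
  · exact le_min infDist_nonneg infDist_nonneg
  · exact infDist_nonneg

theorem rho_le (a : NonemptyCompacts ℂ → ℕ → ℂ → ℂ) (G : ℕ × Bool → NonemptyCompacts ℂ)
    (z : ℂ) : rho Ω a K h G z ≤ infDist z K := by
  unfold rho
  split_ifs
  · exact min_le_left _ _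
  · exact le_rfl

theorem rho_zero (a : NonemptyCompacts ℂ → ℕ → ℂ → ℂ) (G : ℕ × Bool → NonemptyCompacts ℂ)
    (z : ℂ) : z ∈ (K : Set ℂ) ∪ {z | z ∈ Ω \ (K : Set ℂ) ∧
      a K (ix Ω K h z).1 z ∈ (G (ix Ω K h z) : Set ℂ)} ↔ rho Ω a K h G z = 0 := by
  have hK := K.isCompact.isClosed.mem_iff_infDist_zero (x := z) K.nonempty
  have hG := (G (ix Ω K h z)).isCompact.isClosed.mem_iff_infDist_zero
    (x := a K (ix Ω K h z).1 z) (G (ix Ω K h z)).nonempty
  unfold rho
  split_ifs with hz
  · constructor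
    · rintro (h1 | h1)
      · exact absurd h1 hz.2
      · rw [hG.1 h1.2]
        exact min_eq_right infDist_nonneg
    · intro h1
      rcases min_eq_iff.1 h1 with h2 | h2
      · exact Or.inl (hK.2 h2.1)
      · exact Or.inr ⟨hz, hG.2 h2.1⟩
  · constructor
    · rintro (h1 | h1)
      · exact hK.1 h1
      · exact absurd h1.1 hz
    · exact fun h1 => Or.inl (hK.2 h1)

theorem rho_cont {a b : NonemptyCompacts ℂ → ℕ → ℂ → ℂ} (hΩ : IsOpen Ω) (hR : Rie Ω a b)
    (hT : Typed Ω K h) (G : ℕ × Bool → NonemptyCompacts ℂ) : Continuous (rho Ω a K h G) := by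
  refine continuous_iff_continuousAt.2 fun z => ?_
  by_cases hz : z ∈ Ω \ (K : Set ℂ)
  · have hc := conf_ix (h := h) hΩ hR hT.carp hz
    have h1 : ContinuousAt (a K (ix Ω K h z).1) z :=
      hc.df.continuousOn.continuousAt (hc.ho.mem_nhds (mem_hole hz))
    have h2 : ContinuousAt (fun w => min (infDist w K)
        (infDist (a K (ix Ω K h z).1 w) (G (ix Ω K h z)))) z :=
      (continuous_infDist_pt _).continuousAt.min
        ((continuous_infDist_pt _).continuousAt.comp h1)
    refine h2.congr ?_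
    filter_upwards [(open_diff hΩ K).mem_nhds hz, ix_loc hΩ hT hz] with w h3 h4
    unfold rho
    rw [if_pos h3, h4]
  by_cases hzK : z ∈ (K : Set ℂ)
  · have h0 : rho Ω a K h G z = 0 := (rho_zero a G z).1 (Or.inl hzK)
    have h1 : Tendsto (fun w => infDist w (K : Set ℂ)) (𝓝 z) (𝓝 0) := by
      have := (continuous_infDist_pt (K : Set ℂ)).tendsto z
      rwa [infDist_zero_of_mem hzK] at this
    rw [ContinuousAt, h0]
    exact squeeze_zero (rho_nonneg a G) (rho_le a G) h1
  · have h1 : z ∉ closure Ω := fun h2 => hz ⟨not_closure hΩ hT.carp hzK h2, hzK⟩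
    refine (continuous_infDist_pt (K : Set ℂ)).continuousAt.congr ?_
    filter_upwards [isClosed_closure.isOpen_compl.mem_nhds h1] with w hw
    unfold rho
    rw [if_neg fun h3 => hw (subset_closure h3.1)]

theorem glue_compact {a b : NonemptyCompacts ℂ → ℕ → ℂ → ℂ} (hΩ : Dom Ω) (hR : Rie Ω a b)
    (hT : Typed Ω K h) (G : ℕ × Bool → NonemptyCompacts ℂ) :
    IsCompact ((K : Set ℂ) ∪ {z | z ∈ Ω \ (K : Set ℂ) ∧
      a K (ix Ω K h z).1 z ∈ (G (ix Ω K h z) : Set ℂ)}) := by
  refine isCompact_of_isClosed_isBounded ?_ (hΩ.2.1.closure.subset ?_)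
  · have e : (K : Set ℂ) ∪ {z | z ∈ Ω \ (K : Set ℂ) ∧
        a K (ix Ω K h z).1 z ∈ (G (ix Ω K h z) : Set ℂ)} = {z | rho Ω a K h G z = 0} :=
      Set.ext fun z => rho_zero a G z
    rw [e]
    exact isClosed_eq (rho_cont hΩ.1 hR hT G) continuous_const
  · rintro z (hz | hz)
    · exact hT.carp.2.2 hz
    · exact subset_closure hz.1.1

theorem coe_glG (M : Model) {a b : NonemptyCompacts ℂ → ℕ → ℂ → ℂ} (hΩ : Dom Ω) (hR : Rie Ω a b)
    (hT : Typed Ω K h) (s : M.Cop) {k : ℕ} (hk : k ≠ 0) : (glG M Ω a K h s k : Set ℂ) =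
    (K : Set ℂ) ∪ {z | z ∈ Ω \ (K : Set ℂ) ∧ a K (ix Ω K h z).1 z ∈
      (M.G (lev k (ix Ω K h z).2) (s (ix Ω K h z)) : Set ℂ)} := by
  unfold glG
  rw [if_neg hk]
  exact coe_toNC (glue_compact hΩ hR hT fun i => M.G (lev k i.2) (s i))
    (K.nonempty.mono subset_union_left)

theorem lev_mono {j k : ℕ} (hjk : j ≤ k) (c : Bool) : lev j c ≤ lev k c := by
  unfold lev
  split_ifs
  · omega
  · exact hjk

theorem cont_infDist : Continuous fun p : ℂ × NonemptyCompacts ℂ => infDist p.1 (p.2 : Set ℂ) :=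
  uniformContinuous_infDist_Hausdorff_dist.continuous

theorem meas_infDist₀ :
    Measurable fun p : ℂ × NonemptyCompacts ℂ => infDist p.1 (p.2 : Set ℂ) :=
  cont_infDist.measurable

section Meas

variable {X : Type*} [MeasurableSpace X] {A : X → NonemptyCompacts ℂ} {Z : X → ℂ}
  {H : X → ℂ → ℝ}

theorem meas_infDist (hA : Measurable A) (hZ : Measurable Z) :
    Measurable fun x => infDist (Z x) (A x : Set ℂ) := by
  have h2 : Measurable fun x => (Z x, A x) := hZ.prodMk hA
  have h3 := meas_infDist₀.comp h2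
  simpa only [Function.comp_def] using h3

theorem meas_diff (hΩ : IsOpen Ω) (hA : Measurable A) (hZ : Measurable Z) :
    MeasurableSet {x | Z x ∈ Ω \ (A x : Set ℂ)} := by
  have e : {x | Z x ∈ Ω \ (A x : Set ℂ)} =
      Z ⁻¹' Ω ∩ {x | infDist (Z x) (A x : Set ℂ) = 0}ᶜ := by
    ext x
    simp only [mem_setOf_eq, mem_inter_iff, mem_preimage, mem_compl_iff, mem_diff]
    rw [(A x).isCompact.isClosed.mem_iff_infDist_zero (A x).nonempty]
  rw [e]
  exact (hZ hΩ.measurableSet).inter
    (measurableSet_eq_fun (meas_infDist hA hZ) measurable_const).compl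

theorem meas_ix {a b : NonemptyCompacts ℂ → ℕ → ℂ → ℂ} (hR : Rie Ω a b) (hA : Measurable A)
    (hZ : Measurable Z) (hH : Measurable fun x => H x (Z x)) (hK : ∀ x, Carp Ω (A x))
    (i : ℕ × Bool) : MeasurableSet {x | ix Ω (A x) (H x) (Z x) = i} := by
  have h1 : MeasurableSet {x | sInf {n | InH Ω n (A x, Z x)} = i.1} :=
    measurableSet_sInf (p := fun n x => InH Ω n (A x, Z x))
      (fun n => (hA.prodMk hZ) (hR.mset n)) i.1
  have h2 : MeasurableSet {x | H x (Z x) = 0} := measurableSet_eq_fun hH measurable_const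
  have e1 : ∀ x, (ix Ω (A x) (H x) (Z x)).1 = sInf {n | InH Ω n (A x, Z x)} := by
    intro x
    show sInf _ = _
    congr 1
    ext n
    exact (inH_iff (hK x) n (Z x)).symm
  obtain ⟨n, c⟩ := i
  cases c
  · convert h1.inter h2 using 1
    ext x
    simp only [mem_setOf_eq, mem_inter_iff, Prod.ext_iff, e1]
    simp [ix]
  · convert h1.inter h2.compl using 1
    ext x
    simp only [mem_setOf_eq, mem_inter_iff, mem_compl_iff, Prod.ext_iff, e1]
    simp [ix]

open Classical in
/-- the general form of the functions which are glued -/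
theorem meas_glue {a b : NonemptyCompacts ℂ → ℕ → ℂ → ℂ} (hΩ : IsOpen Ω) (hR : Rie Ω a b)
    (hA : Measurable A) (hZ : Measurable Z) (hH : Measurable fun x => H x (Z x))
    (hK : ∀ x, Carp Ω (A x)) {F : ℕ × Bool → X → ℂ → ℝ}
    (hF : ∀ i, Measurable fun p : X × ℂ => F i p.1 p.2) {F' : X → ℝ} (hF' : Measurable F') :
    Measurable fun x => if Z x ∈ Ω \ (A x : Set ℂ) then F (ix Ω (A x) (H x) (Z x)) x
      (a (A x) (ix Ω (A x) (H x) (Z x)).1 (Z x)) else F' x := by
  have h1 : Measurable fun x => F (ix Ω (A x) (H x) (Z x)) x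
      ({p | InH Ω (ix Ω (A x) (H x) (Z x)).1 p}.indicator
        (fun p => a p.1 (ix Ω (A x) (H x) (Z x)).1 p.2) (A x, Z x)) :=
    measurable_pick (meas_ix hR hA hZ hH hK)
      (F := fun i x => F i x ({p | InH Ω i.1 p}.indicator (fun p => a p.1 i.1 p.2) (A x, Z x)))
      fun i => (hF i).comp (measurable_id.prodMk ((hR.meas i.1).comp (hA.prodMk hZ)))
  have e : (fun x => if Z x ∈ Ω \ (A x : Set ℂ) then F (ix Ω (A x) (H x) (Z x)) x
      (a (A x) (ix Ω (A x) (H x) (Z x)).1 (Z x)) else F' x) =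
      fun x => if Z x ∈ Ω \ (A x : Set ℂ) then F (ix Ω (A x) (H x) (Z x)) x
      ({p | InH Ω (ix Ω (A x) (H x) (Z x)).1 p}.indicator
        (fun p => a p.1 (ix Ω (A x) (H x) (Z x)).1 p.2) (A x, Z x)) else F' x := by
    funext x
    split_ifs with hx
    · rw [indicator_of_mem (show (A x, Z x) ∈ {p | InH Ω (ix Ω (A x) (H x) (Z x)).1 p} from
        inH_ix hΩ (hK x) hx)]
    · rfl
  rw [e]
  exact Measurable.ite (meas_diff hΩ hA hZ) h1 hF'

end Meas

end Jm

open Jm in
theorem jm : JM := by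
  intro M Ω a b hΩ hR
  refine ⟨fun K h hT s k hk => coe_glG M hΩ hR hT s hk, ?_⟩
  intro Θ m A h hA hh hT j k hjk
  -- the copies, with the past as measurable structure
  have hG : ∀ i : ℕ × Bool, Measurable[M.past k] fun s : M.Cop => M.G (lev j i.2) (s i) := by
    intro i
    have h1 : @Measurable _ _ (M.past k) (M.F (lev k i.2)) fun s : M.Cop => s i :=
      @measurable_pi_apply (ℕ × Bool) (fun _ => M.S) (fun i => M.F (lev k i.2)) i
    exact ((M.mG _).mono (M.F.mono (lev_mono hjk i.2)) le_rfl).comp h1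
  have hg : ∀ i : ℕ × Bool, Measurable[(M.past k).prod inferInstance]
      fun p : M.Cop × ℂ => M.g (lev j i.2) (p.1 i) p.2 := by
    intro i
    have h1 : @Measurable _ _ (M.past k) (M.F (lev k i.2)) fun s : M.Cop => s i :=
      @measurable_pi_apply (ℕ × Bool) (fun _ => M.S) (fun i => M.F (lev k i.2)) i
    have h2 : @Measurable _ _ (M.F (lev k i.2)) (M.F (lev j i.2)) fun s : M.S => s :=
      measurable_id'' (M.F.mono (lev_mono hjk i.2))
    have h3 : @Measurable _ _ (M.past k) (M.F (lev j i.2)) fun s : M.Cop => s i := h2.comp h1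
    have h4 : @Measurable _ _ ((M.past k).prod inferInstance)
        ((M.F (lev j i.2)).prod inferInstance) fun p : M.Cop × ℂ => (p.1 i, p.2) :=
      @Measurable.prodMap _ _ _ _ (M.past k) (M.F (lev j i.2)) _ _ _ _ h3 measurable_id
    exact (M.mg _).comp h4
  letI : MeasurableSpace M.Cop := M.past k
  constructor
  · show Measurable fun y : Θ × M.Cop => glG M Ω a (A y.1) (h y.1) y.2 j
    by_cases hj : j = 0
    · simp only [glG, hj, if_true]
      exact measurable_const
    refine measurable_zero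
      (fun y => rho Ω a (A y.1) (h y.1) fun i => M.G (lev j i.2) (y.2 i))
      (fun y => rho_cont hΩ.1 hR (hT y.1) _) (fun z => ?_) fun y z => ?_
    · have hA' : Measurable fun y : Θ × M.Cop => A y.1 := hA.comp measurable_fst
      exact meas_glue (X := Θ × M.Cop) (Z := fun _ => z) (H := fun y => h y.1) hΩ.1 hR hA'
        measurable_const (hh.comp (measurable_fst.prodMk measurable_const))
        (fun y => (hT y.1).carp)
        (F := fun i y w => min (infDist z (A y.1)) (infDist w (M.G (lev j i.2) (y.2 i))))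
        (fun i => (meas_infDist (hA'.comp measurable_fst) measurable_const).min
          (meas_infDist ((hG i).comp (measurable_snd.comp measurable_fst)) measurable_snd))
        (meas_infDist hA' measurable_const)
    · rw [coe_glG M hΩ hR (hT y.1) y.2 hj]
      exact rho_zero a (fun i => M.G (lev j i.2) (y.2 i)) z
  · show Measurable fun p : (Θ × M.Cop) × ℂ => glg M Ω a (A p.1.1) (h p.1.1) p.1.2 j p.2
    by_cases hj : j = 0
    · simp only [glg, hj, ne_eq, not_true_eq_false, false_and, if_false]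
      exact measurable_const
    have hh' : Measurable fun p : (Θ × M.Cop) × ℂ => h p.1.1 p.2 :=
      hh.comp ((measurable_fst.comp measurable_fst).prodMk measurable_snd)
    have h1 := meas_glue (X := (Θ × M.Cop) × ℂ) (A := fun p => A p.1.1) (Z := fun p => p.2)
      (H := fun p => h p.1.1) hΩ.1 hR (hA.comp (measurable_fst.comp measurable_fst))
      measurable_snd hh' (fun p => (hT p.1.1).carp)
      (F := fun i p w => h p.1.1 p.2 + M.g (lev j i.2) (p.1.2 i) w)
      (fun i => (hh'.comp measurable_fst).add ((hg i).comp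
        ((measurable_snd.comp (measurable_fst.comp measurable_fst)).prodMk measurable_snd)))
      (F' := fun _ => 0) measurable_const
    convert h1 using 2 with p
    unfold glg
    by_cases hp : p.2 ∈ Ω \ (A p.1.1 : Set ℂ)
    · rw [if_pos ⟨hj, hp⟩, if_pos hp]
    · rw [if_neg fun h2 => hp h2.2, if_neg hp]

theorem jm_of (_ : TOPO) : JM := jm

end Vale.Agent.P155.Tree
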