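import Vale.Agent.P155Z.LM.B
import Vale.Agent.P155.EX211.Metr

/-!
# P155, block LM: measure theory on the space of loop collections
-/

namespace Vale.Agent.P155.Tree

open MeasureTheory Filter Topology Set Vale.Agent.P155 Vale.Agent.P155.Q1 Vale.Agent.P155.V743

namespace LMA

theorem sm_ofFamily {k : ℕ} (c : Fin k → Loop) {g : Loop → ℝ}
    (h0 : ∀ γ : Loop, γ.diam ≤ 0 → g γ = 0) :
    sm g (ofFamily univ finite_univ c) = ∑ i, g (c i) := by
  classical
  have h1 : sm g (ofFamily univ finite_univ c) =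
      ∑ γ ∈ Finset.univ.image c, ((ofFamily univ finite_univ c).mult γ : ℝ) * g γ := by
    unfold sm
    refine finsum_eq_sum_of_support_subset _ fun γ hγ => ?_
    rw [Function.mem_support] at hγ
    have h2 : (ofFamily univ finite_univ c).mult γ ≠ 0 := by
      intro h
      rw [h] at hγ
      simp at hγ
    have h3 : Set.ncard {i | i ∈ (univ : Set (Fin k)) ∧ c i = γ} ≠ 0 := by
      intro h
      apply h2
      show (if 0 < γ.diam then _ else 0) = 0
      split_ifs
      · exact h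
      · rfl
    obtain ⟨i, hi⟩ := Set.nonempty_of_ncard_ne_zero h3
    exact Finset.mem_coe.2 (Finset.mem_image.2 ⟨i, Finset.mem_univ _, hi.2⟩)
  rw [h1, Finset.sum_comp g c]
  refine Finset.sum_congr rfl fun γ _ => ?_
  by_cases h : 0 < γ.diam
  · have h2 : (ofFamily univ finite_univ c).mult γ =
        (Finset.univ.filter fun i => c i = γ).card := by
      show (if 0 < γ.diam then _ else 0) = _
      rw [if_pos h, ← Set.ncard_coe_finset]
      congr 1
      ext i
      simp
    rw [h2, nsmul_eq_mul]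
  · rw [h0 γ (not_lt.1 h), mul_zero, smul_zero]

theorem separable : TopologicalSpace.SeparableSpace LoopColl := by
  obtain ⟨D, hDc, hD⟩ := TopologicalSpace.exists_countable_dense Loop
  have : Countable D := hDc.to_subtype
  refine ⟨range fun p : (Σ k : ℕ, Fin k → D) => ofFamily univ finite_univ fun i => (p.2 i).1,
    countable_range _, fun Γ => ?_⟩
  have hb : (𝓝 Γ).HasBasis (fun ε : ℝ => 0 < ε) (fun ε => {Γ' | close ε Γ Γ'}) :=
    nhds_basis_uniformity' hasBasis
  rw [mem_closure_iff_nhds_basis hb]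
  intro ε hε
  obtain ⟨s, hs, hg, hW⟩ := exists_W Γ hε
  have hη : 0 < ε / 4 := by positivity
  obtain ⟨k, ⟨e⟩⟩ : ∃ k : ℕ, Nonempty (Fin k ≃ big Γ (ε / 4)) :=
    ⟨_, ⟨(Finset.equivFin _).symm⟩⟩
  obtain ⟨c0, hc0⟩ : ∃ c0 : Fin k → Loop, c0 = fun i => (e i).1.1 := ⟨_, rfl⟩
  have h1 : ∀ g ∈ s, sm g Γ = ∑ i, g (c0 i) := by
    intro g hgs
    rw [sm_big hη (hg g hgs).2, hc0, ← Finset.sum_coe_sort (big Γ (ε / 4)) (fun x => g x.1)]
    exact (Equiv.sum_comp e fun x => g x.1.1).symm
  have h2 : ∀ g ∈ s, ∀ᶠ c : Fin k → Loop in 𝓝 c0, |∑ i, g (c i) - sm g Γ| < 1 := by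
    intro g hgs
    have hc : Continuous fun c : Fin k → Loop => |∑ i, g (c i) - sm g Γ| :=
      ((continuous_finsetSum _ fun i _ =>
        (hg g hgs).1.comp (continuous_apply i)).sub continuous_const).abs
    refine hc.continuousAt.eventually_lt continuousAt_const ?_
    show |∑ i, g (c0 i) - sm g Γ| < 1
    rw [h1 g hgs, sub_self, abs_zero]
    exact one_pos
  have h3 := (eventually_all_finite hs).2 h2
  have h4 : Dense (Set.pi univ fun _ : Fin k => D) := dense_pi univ fun _ _ => hD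
  obtain ⟨c, hc1, hc2⟩ := h4.inter_nhds_nonempty h3
  refine ⟨_, ⟨⟨k, fun i => ⟨c i, hc1 i trivial⟩⟩, rfl⟩, hW _ fun g hgs => ?_⟩
  rw [sm_ofFamily _ fun γ h => (hg g hgs).2 γ (h.trans hη.le)]
  exact hc2 g hgs

theorem secondCountable : SecondCountableTopology LoopColl := by
  have := separable
  have : (uniformity LoopColl).IsCountablyGenerated := EX211.basis_nat'.isCountablyGenerated
  infer_instance

theorem obs_of {g : Loop → ℝ} (hg : Continuous g) {η : ℝ} (hη : 0 < η)
    (h0 : ∀ l : Loop, l.diam ≤ η → g l = 0) : Obs g :=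
  ⟨hg.borel_measurable.mono le_rfl (BorelSpace.measurable_eq (α := ℝ)).le, η, hη, h0⟩

/-- **a map to loop collections is measurable if all the sums are** -/
theorem meas_of_sm {X : Type} [MeasurableSpace X] {f : X → LoopColl}
    (h : ∀ g, Obs g → Measurable fun x => sm g (f x)) : Measurable f := by
  have := secondCountable
  refine measurable_of_isOpen fun U hU => ?_
  have h1 : ∀ Γ ∈ U, ∃ W : Set LoopColl, W ∈ 𝓝 Γ ∧ W ⊆ U ∧ MeasurableSet (f ⁻¹' W) := by
    intro Γ hΓ
    have hb : (𝓝 Γ).HasBasis (fun ε : ℝ => 0 < ε) (fun ε => {Γ' | close ε Γ Γ'}) :=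
      nhds_basis_uniformity' hasBasis
    obtain ⟨ε, hε, hsub⟩ := hb.mem_iff.1 (hU.mem_nhds hΓ)
    obtain ⟨s, hs, hg, hW⟩ := exists_W Γ hε
    have hη : 0 < ε / 4 := by positivity
    refine ⟨⋂ g ∈ s, {Γ' | |sm g Γ' - sm g Γ| < 1}, ?_, ?_, ?_⟩
    · refine (biInter_mem hs).2 fun g hgs => ?_
      have hc : Continuous fun Γ' => |sm g Γ' - sm g Γ| :=
        ((sm_continuous (hg g hgs).1 hη (hg g hgs).2).sub continuous_const).abs
      refine hc.continuousAt.eventually_lt continuousAt_const ?_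
      show |sm g Γ - sm g Γ| < 1
      rw [sub_self, abs_zero]
      exact one_pos
    · intro Γ' hΓ'
      exact hsub (hW Γ' fun g hgs => mem_iInter₂.1 hΓ' g hgs)
    · rw [preimage_iInter₂]
      refine MeasurableSet.biInter hs.countable fun g hgs => ?_
      have hm := h g (obs_of (hg g hgs).1 hη (hg g hgs).2)
      exact measurableSet_lt (continuous_abs.measurable.comp (hm.sub_const _)) measurable_const
  choose! W hW1 hW2 hW3 using h1
  obtain ⟨t, htU, htc, hcov⟩ := TopologicalSpace.countable_cover_nhdsWithin (f := W) (s := U)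
    fun Γ hΓ => mem_nhdsWithin_of_mem_nhds (hW1 Γ hΓ)
  have e : U = ⋃ Γ ∈ t, W Γ :=
    Subset.antisymm hcov (iUnion₂_subset fun Γ hΓ => hW2 Γ (htU hΓ))
  rw [e, preimage_iUnion₂]
  exact MeasurableSet.biUnion htc fun Γ hΓ => hW3 Γ (htU hΓ)

theorem sm_res (g : Loop → ℝ) (E : Set Loop) (Γ : LoopColl) :
    sm g (res E Γ) = sm (E.indicator g) Γ := by
  classical
  unfold sm
  refine finsum_congr fun l => ?_
  show (((if l ∈ E then Γ.mult l else 0 : ℕ) : ℝ)) * g l = _
  by_cases h : l ∈ E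
  · rw [if_pos h, indicator_of_mem h]
  · rw [if_neg h, indicator_of_notMem h, Nat.cast_zero, zero_mul, mul_zero]

theorem res_measurable {E : Set Loop} (hE : MeasurableSet[borel Loop] E) :
    Measurable (res E) := by
  refine meas_of_sm fun g hg => ?_
  simp only [sm_res]
  obtain ⟨hm, η, hη, h0⟩ := hg
  refine sm_measurable ⟨hm.indicator hE, η, hη, fun l hl => ?_⟩
  by_cases h : l ∈ E
  · rw [indicator_of_mem h, h0 l hl]
  · rw [indicator_of_notMem h]

theorem inside_eq (V : Set ℂ) (Γ : LoopColl) : NCLE.inside Γ V = res {l | NCLE.LIn l V} Γ := rfl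

/-- finite linear combinations -/
theorem obs_sum {ι : Type} [Fintype ι] (g : ι → Loop → ℝ) (hg : ∀ i, Obs (g i)) (c : ι → ℝ) :
    Obs (fun l => ∑ i, c i * g i l) ∧
      ∀ Γ, sm (fun l => ∑ i, c i * g i l) Γ = ∑ i, c i * sm (g i) Γ := by
  choose η hη h0 using fun i => (hg i).2
  obtain ⟨e, he, hle⟩ : ∃ e : ℝ, 0 < e ∧ ∀ i, e ≤ η i := by
    have h1 : ∀ i, ∀ᶠ e in 𝓝[>] (0 : ℝ), e ≤ η i := fun i => by
      filter_upwards [Ioo_mem_nhdsGT (hη i)] with e he using he.2.le
    obtain ⟨e, h2, h3⟩ := ((eventually_all.2 h1).and self_mem_nhdsWithin).exists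
    exact ⟨e, h3, h2⟩
  have hz : ∀ i (l : Loop), l.diam ≤ e → g i l = 0 := fun i l hl => h0 i l (hl.trans (hle i))
  have hz' : ∀ l : Loop, l.diam ≤ e → ∑ i, c i * g i l = 0 := fun l hl =>
    Finset.sum_eq_zero fun i _ => by rw [hz i l hl, mul_zero]
  refine ⟨⟨?_, e, he, hz'⟩, fun Γ => ?_⟩
  · let : MeasurableSpace Loop := borel Loop
    exact Finset.measurable_sum _ fun i _ => (hg i).1.const_mul _
  · rw [sm_big he hz', Finset.sum_comm]
    refine Finset.sum_congr rfl fun i _ => ?_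
    rw [sm_big he (hz i), Finset.mul_sum]

theorem meas_ext (μ ν : Measure LoopColl) [IsProbabilityMeasure μ] [IsProbabilityMeasure ν]
    (h : ∀ g, Obs g → ∫ Γ, Complex.exp (Complex.I * sm g Γ) ∂μ =
      ∫ Γ, Complex.exp (Complex.I * sm g Γ) ∂ν) : μ = ν := by
  classical
  obtain ⟨Φ, hΦ⟩ : ∃ Φ : LoopColl → {g // Obs g} → ℝ, Φ = fun Γ g => sm g.1 Γ := ⟨_, rfl⟩
  have hm : Measurable Φ := by
    rw [hΦ]
    exact measurable_pi_lambda _ fun g => sm_measurable g.2
  have h1 : ∀ I : Finset {g // Obs g},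
      μ.map (fun Γ => I.restrict (Φ Γ)) = ν.map (fun Γ => I.restrict (Φ Γ)) := by
    intro I
    have hI : Measurable fun Γ => I.restrict (Φ Γ) := (Finset.measurable_restrict I).comp hm
    refine Measure.ext_of_charFunDual (funext fun L => ?_)
    obtain ⟨ho, hs⟩ := obs_sum (fun i : I => i.1.1) (fun i => i.1.2)
      (fun i => L (Pi.single i 1))
    have hL : ∀ Γ, L (I.restrict (Φ Γ)) = sm (fun l => ∑ i : I, L (Pi.single i 1) * i.1.1 l) Γ := by
      intro Γ
      rw [hs, ← L.sum_comp_single]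
      refine Finset.sum_congr rfl fun i _ => ?_
      have e : (L.comp (ContinuousLinearMap.single ℝ (fun _ : I => ℝ) i)) (I.restrict (Φ Γ) i) =
          L (Pi.single i (sm i.1.1 Γ)) := by
        rw [hΦ]
        rfl
      rw [e, mul_comm, ← smul_eq_mul, ← map_smul, ← Pi.single_smul, smul_eq_mul, mul_one]
    have hc : Continuous fun v : I → ℝ => Complex.exp ((L v : ℝ) * Complex.I) := by fun_prop
    rw [charFunDual_apply, charFunDual_apply, integral_map hI.aemeasurable hc.aestronglyMeasurable,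
      integral_map hI.aemeasurable hc.aestronglyMeasurable]
    simp only [hL, mul_comm _ Complex.I]
    exact h _ ho
  have h2 : μ.map Φ = ν.map Φ := by
    have a1 := ProbabilityTheory.isProjectiveLimit_map (P := μ) (X := fun g Γ => Φ Γ g)
      hm.aemeasurable
    have a2 := ProbabilityTheory.isProjectiveLimit_map (P := ν) (X := fun g Γ => Φ Γ g)
      hm.aemeasurable
    have a3 : (fun I : Finset {g // Obs g} => μ.map (fun Γ => I.restrict (Φ Γ))) =
        fun I => ν.map (fun Γ => I.restrict (Φ Γ)) := funext h1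
    have a4 : IsProjectiveLimit (μ.map Φ) fun I => ν.map (fun Γ => I.restrict (Φ Γ)) := by
      rw [← a3]
      exact a1
    exact a4.unique a2
  have h3 : @Measurable LoopColl LoopColl (MeasurableSpace.comap Φ inferInstance) _ id := by
    refine @meas_of_sm LoopColl (MeasurableSpace.comap Φ inferInstance) id fun g hg => ?_
    have e : (fun x => sm g (id x)) = (fun v : {g // Obs g} → ℝ => v ⟨g, hg⟩) ∘ Φ := by
      rw [hΦ]
      rfl
    rw [e]
    exact Measurable.comp (measurable_pi_apply _) (comap_measurable Φ)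
  ext U hU
  obtain ⟨B, hB, e⟩ := h3 hU
  have e' : U = Φ ⁻¹' B := e.symm
  rw [e', ← Measure.map_apply hm hB, ← Measure.map_apply hm hB, h2]

end LMA

/-- **LM** -/
theorem lm : LM :=
  ⟨LMA.secondCountable, LMA.t2, fun _ hg => LMA.sm_measurable hg,
    fun _ hE => LMA.res_measurable hE,
    fun V hV => ⟨LMA.lin_open hV, by
      simp only [LMA.inside_eq]
      exact LMA.res_measurable (MeasurableSpace.measurableSet_generateFrom (LMA.lin_open hV))⟩,
    fun μ ν _ _ h => LMA.meas_ext μ ν h⟩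

end Vale.Agent.P155.Tree
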