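import Vale.Agent.P155Z.Sk

/-!
# P155: the real part of `NN` does not diverge, and `hh` does not almost surely tend to `0`
-/

namespace Vale.Agent.P155.Tree

open MeasureTheory Filter Topology ProbabilityTheory Set Vale.Agent.P164
open scoped ENNReal

namespace One2

variable {Θ : Type} [m : MeasurableSpace Θ] {P : Measure Θ}

theorem fatou {f : ℕ → Θ → ℝ} {C : ℝ} (hm : ∀ k, Measurable (f k)) (hf : ∀ k, Integrable (f k) P)
    (h0 : ∀ k ω, 0 ≤ f k ω) (hC : ∀ k, ∫ ω, f k ω ∂P = C) :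
    Measurable (fun ω => liminf (fun k => ENNReal.ofReal (f k ω)) atTop) ∧
      ∫⁻ ω, liminf (fun k => ENNReal.ofReal (f k ω)) atTop ∂P ≤ ENNReal.ofReal C := by
  refine ⟨Measurable.liminf fun k => (hm k).ennreal_ofReal,
    (lintegral_liminf_le fun k => (hm k).ennreal_ofReal).trans_eq ?_⟩
  simp only [← ofReal_integral_eq_lintegral_ofReal (hf _) (Eventually.of_forall (h0 _)), hC,
    liminf_const]

theorem NN_cont {x o : ℝ → ℝ} (hx : Continuous x) (ho : Continuous o) {w : ℂ} {s : ℝ} (hs : 0 ≤ s)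
    (h : w ∈ loewnerDomain (o + x) s) : ContinuousOn (NN x o w) (Icc 0 s) := by
  have h1 := Zf_cont (ho.add hx) hs h
  have h2 : ∀ u ∈ Icc 0 s, (Zf (o + x) w u).im ≠ 0 := fun u hu =>
    (Zf_im_pos hu.1 (dom_mono hu.2 h)).ne'
  exact (h1.clog fun u hu => Or.inr (h2 u hu)).sub
    ((h1.add (Complex.continuous_ofReal.comp hx).continuousOn).clog fun u hu =>
      Or.inr (by simpa using h2 u hu))

variable (S : Sys P) (w : ℂ) (σ M : ℝ)

theorem contW (ω : Θ) : Continuous (S.W ω) := (S.contO ω).add (S.cont ω)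

/-- alive, not too low, and `σ Re NN ≤ M` so far -/
def EE (k : ℕ) (s : ℝ) : Set Θ := {ω | w ∈ loewnerDomain (S.W ω) s ∧
  1 / ((k : ℝ) + 1) ≤ (Zf (S.W ω) w s).im ∧ ∀ u ∈ Icc 0 s, σ * (NN (S.X ω) (S.O ω) w u).re ≤ M}

/-- the stopping times -/
noncomputable def rho (k : ℕ) (ω : Θ) : ℝ := last (EE S w σ M k) k ω

theorem gate {ω : Θ} {s : ℝ} (hs : 0 ≤ s) (h : w ∈ loewnerDomain (S.W ω) s) {D : Set ℝ}
    (h1 : D ⊆ Icc 0 s) (h2 : ∀ u ∈ D, σ * (NN (S.X ω) (S.O ω) w u).re ≤ M) :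
    ∀ u ∈ closure D, σ * (NN (S.X ω) (S.O ω) w u).re ≤ M :=
  le_on_closure h2 ((continuousOn_const.mul (Complex.continuous_re.comp_continuousOn
    (NN_cont (S.cont ω) (S.contO ω) hs h))).mono (closure_minimal h1 isClosed_Icc))
    continuousOn_const

theorem stp (hM : MEAS) (k : ℕ) : Stp S w (1 / ((k : ℝ) + 1)) (EE S w σ M k) := by
  refine ⟨fun s hs => ?_, fun s t hs hst ω h => ⟨dom_mono hst h.1, h.2.1.trans
    (im_le_of_le hs hst h.1), fun u hu => h.2.2 u ⟨hu.1, hu.2.trans hst⟩⟩,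
    fun s _ ω h => ⟨h.1, h.2.1⟩⟩
  have hX : ∀ u ≤ s, Measurable[S.F s] fun ω => S.X ω u := fun u hu =>
    (S.ad u).mono (S.F.mono hu) le_rfl
  have hW : ∀ u ≤ s, Measurable[S.F s] fun ω => S.W ω u := fun u hu =>
    Measurable.add (m := S.F s) ((S.adO u).mono (S.F.mono hu) le_rfl) (hX u hu)
  have h1 := fun u (hu : u ∈ Icc 0 s) => hM Θ (S.F s) S.W u hu.1 (contW S) fun v hv =>
    hW v (hv.2.trans hu.2)
  obtain ⟨D, hD, hDc, hDd⟩ :=
    (TopologicalSpace.IsSeparable.of_separableSpace (Icc 0 s)).exists_countable_dense_subset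
  have e : EE S w σ M k s = ({ω | w ∈ loewnerDomain (S.W ω) s} ∩
      {ω | 1 / ((k : ℝ) + 1) ≤ (Zf (S.W ω) w s).im}) ∩ ⋂ u ∈ D, {ω | σ * (Complex.log
        (Zf (S.W ω) w u) - Complex.log (Zf (S.W ω) w u + (S.X ω u : ℂ))).re ≤ M} := by
    ext ω
    rw [mem_inter_iff, mem_iInter₂]
    exact ⟨fun h => ⟨⟨h.1, h.2.1⟩, fun u hu => h.2.2 u (hD hu)⟩, fun h =>
      ⟨h.1.1, h.1.2, fun u hu => gate S w σ M hs h.1.1 hD h.2 u (hDd hu)⟩⟩
  rw [e]
  clear e hW
  generalize S.W = W at h1 ⊢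
  generalize S.X = X at hX ⊢
  generalize S.F s = m' at hX h1 ⊢
  have hp : Measurable fun ω : Θ => (ω, w) := measurable_id.prodMk measurable_const
  have hZ : ∀ u ∈ Icc 0 s, Measurable fun ω => Zf (W ω) w u := fun u hu => (h1 u hu).2.1.comp hp
  exact ((hp (h1 s ⟨hs, le_rfl⟩).1).inter (measurableSet_le measurable_const
    (Complex.measurable_im.comp (hZ s ⟨hs, le_rfl⟩)))).inter (MeasurableSet.biInter hDc fun u hu =>
      measurableSet_le ((Complex.measurable_re.comp ((hZ u (hD hu)).clog.sub ((hZ u (hD hu)).add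
        (Complex.measurable_ofReal.comp (hX u (hD hu).2))).clog)).const_mul σ) measurable_const)

variable {w}

theorem rho_life (hP : STP) (hM : MEAS) (hw : w ∈ HH) (k : ℕ) (ω : Θ) :
    rho S w σ M k ω ∈ life (S.W ω) w :=
  (((hP Θ m P S w _ _ hw Nat.one_div_pos_of_nat (stp S w σ M hM k)).1 k k.cast_nonneg).1 ω).1

theorem rho_top (hP : STP) (hM : MEAS) (hw : w ∈ HH) {ω : Θ}
    (h : ∀ t ∈ life (S.W ω) w, σ * (NN (S.X ω) (S.O ω) w t).re ≤ M) :
    Tendsto (fun k => (⟨_, rho_life S σ M hP hM hw k ω⟩ : life (S.W ω) w)) atTop atTop := by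
  refine tendsto_atTop.2 fun t => ?_
  filter_upwards [(tendsto_one_div_add_atTop_nhds_zero_nat (𝕜 := ℝ)).eventually
    (ge_mem_nhds (Zf_im_pos t.2.1 t.2.2)), tendsto_natCast_atTop_atTop.eventually_ge_atTop t.1]
    with k h1 h2
  exact (((hP Θ m P S w _ _ hw Nat.one_div_pos_of_nat (stp S w σ M hM k)).1 k
    k.cast_nonneg).1 ω).2.2.2 t ⟨t.2.1, h2⟩ ⟨t.2.2, h1, fun u hu =>
      h u ⟨hu.1, dom_mono hu.2 t.2.2⟩⟩

theorem rho_gate (hP : STP) (hM : MEAS) (hw : w ∈ HH) (h0 : 0 ≤ M) (k : ℕ) (ω : Θ) :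
    σ * (NN (S.X ω) (S.O ω) w (rho S w σ M k ω)).re ≤ M := by
  have h1 := rho_life S σ M hP hM hw k ω
  rcases h1.1.eq_or_lt with h | h
  · rw [← h, NN, S.zero ω 0 le_rfl]
    simpa using h0
  · refine gate S w σ M h1.1 h1.2 Ico_subset_Icc_self (fun u hu => ?_) _
      (by rw [closure_Ico h.ne]; exact ⟨h.le, le_rfl⟩)
    exact ((((hP Θ m P S w _ _ hw Nat.one_div_pos_of_nat (stp S w σ M hM k)).1 k
      k.cast_nonneg).1 ω).2.2.1 u hu.1 hu.2).2.2 u ⟨hu.1, le_rfl⟩

theorem not_bot (hS : SI) (hP : STP) (hI : ITO) (hM : MEAS) (hw : w ∈ HH) : ∀ᵐ ω ∂P,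
    ¬ Tendsto (fun t : life (S.W ω) w => σ * (NN (S.X ω) (S.O ω) w t).re) atTop atBot := by
  have := S.prob
  have h1 : ∀ M : ℕ, ∀ᵐ ω ∂P, liminf (fun k => ENNReal.ofReal
      (M - σ * (NN (S.X ω) (S.O ω) w (rho S w σ M k ω)).re)) atTop < ∞ := fun M => by
    have h2 := fun k : ℕ => hI Θ m P S w _ _ hw Nat.one_div_pos_of_nat (stp S w σ M hM k) k
    have h3 := fun k : ℕ => ((hS Θ m P S.toBSys _ (h2 k).1 k).2 _ (h2 k).2).1
    have h4 : ∀ k, Integrable (fun ω => NN (S.X ω) (S.O ω) w (rho S w σ M k ω)) P := fun k =>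
      integrable_neg_iff.1 ((h3 k).1.integrable one_le_two)
    have h5 := fatou (C := M) (P := P)
      (f := fun k ω => M - σ * (NN (S.X ω) (S.O ω) w (rho S w σ M k ω)).re)
      (fun k => measurable_const.sub ((Complex.measurable_re.comp (((hP Θ m P S w _ _ hw
        Nat.one_div_pos_of_nat (stp S w σ M hM k)).1 k k.cast_nonneg).2.2.1.mono
        (S.F.le _) le_rfl)).const_mul σ))
      (fun k => (integrable_const _).sub ((h4 k).re.const_mul σ))
      (fun k ω => sub_nonneg.2 (rho_gate S σ M hP hM hw M.cast_nonneg k ω)) fun k => by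
        have h6 := (h3 k).2
        rw [integral_neg, neg_eq_zero] at h6
        have h7 := integral_re (h4 k)
        rw [show ∫ ω, NN (S.X ω) (S.O ω) w (rho S w σ M k ω) ∂P = 0 from h6] at h7
        refine (integral_sub (integrable_const _) ((h4 k).re.const_mul σ)).trans ?_
        rw [integral_const_mul, h7]
        simp
    exact ae_lt_top h5.1 (h5.2.trans_lt ENNReal.ofReal_lt_top).ne
  filter_upwards [ae_all_iff.2 h1] with ω h2 h3
  have : Nonempty (life (S.W ω) w) := ⟨⟨0, le_rfl, dom_zero.2 hw⟩⟩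
  obtain ⟨t, ht⟩ := eventually_atTop.1 (h3.eventually_le_atBot 0)
  obtain ⟨c, hc⟩ := isCompact_Icc.bddAbove_image ((continuousOn_const (c := σ)).mul
    (Complex.continuous_re.comp_continuousOn (NN_cont (S.cont ω) (S.contO ω) t.2.1 t.2.2)))
  obtain ⟨M, hM'⟩ := exists_nat_ge c
  have h4 := h3.comp (rho_top S σ M hP hM hw fun u hu => (le_total u t).elim
    (fun h => (hc ⟨u, ⟨hu.1, h⟩, rfl⟩).trans hM') fun h => (ht ⟨u, hu⟩ h).trans M.cast_nonneg)
  exact (h2 M).ne (ENNReal.tendsto_ofReal_atTop.comp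
    (tendsto_atTop_add_const_left _ (M : ℝ) (tendsto_neg_atBot_atTop.comp h4))).liminf_eq

theorem im_NN {x o : ℝ → ℝ} {t : ℝ} (h : t ∈ life (o + x) w) :
    (NN x o w t).im = Real.pi * hh x o w t ∧ |(NN x o w t).im| ≤ Real.pi := by
  have h1 : gt (o + x) t w = gf (o + x) w t := by
    have h2 : ∃ g, IsLoewnerSol (o + x) w t g := h.2
    rw [gt, dif_pos h2]
    exact (gf_eq h2.choose_spec ⟨h.1, le_rfl⟩).symm
  have h2 := (Zf_im_pos h.1 h.2).le
  rw [NN, Complex.sub_im, Complex.log_im, Complex.log_im]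
  refine ⟨?_, abs_sub_le_iff.2 ⟨?_, ?_⟩⟩
  · rw [hh, mul_div_cancel₀ _ Real.pi_ne_zero, h1, gf]
    congr 2 <;> simp only [Pi.add_apply] <;> push_cast <;> ring
  · linarith [Complex.arg_le_pi (Zf (o + x) w t), Complex.arg_nonneg_iff.2
      (show 0 ≤ (Zf (o + x) w t + x t).im by simpa using h2)]
  · linarith [Complex.arg_le_pi (Zf (o + x) w t + x t), Complex.arg_nonneg_iff.2 h2]

theorem exp_one (hS : SI) (hP : STP) (hI : ITO) {η : ℝ} {E : ℝ → Set Θ} (hw : w ∈ HH) (hη : 0 < η)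
    (hE : Stp S w η E) (T : ℕ) :
    Integrable (fun ω => Real.exp ((Uf (S.W ω) w 0 - Uf (S.W ω) w (last E T ω)) / 8) *
      Real.cos ((NN (S.X ω) (S.O ω) w (last E T ω)).im / 2)) P ∧
    ∫ ω, Real.exp ((Uf (S.W ω) w 0 - Uf (S.W ω) w (last E T ω)) / 8) *
      Real.cos ((NN (S.X ω) (S.O ω) w (last E T ω)).im / 2) ∂P = 1 := by
  obtain ⟨⟨h1, K, hK⟩, h2⟩ := hI Θ m P S w η E hw hη hE T
  obtain ⟨L, hL, hL2⟩ : ∃ L : ℂ →L[ℝ] ℂ, (∀ z, L z = Complex.I * (z.im / 2 : ℝ)) ∧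
      ∀ z, ‖L z‖ ≤ ‖z‖ := by
    refine ⟨(Complex.I / 2) • (Complex.ofRealCLM.comp Complex.imCLM), fun z => ?_, fun z => ?_⟩
    · simp
      ring
    · have := Complex.abs_im_le_norm z
      simp
      linarith [abs_nonneg z.im]
  have h3 : TendstoInMeasure P (RS S.X (fun n i ω => L (arr S w E n i ω)) T) atTop
      fun ω => L (-NN (S.X ω) (S.O ω) w (last E T ω)) := by
    rw [tendstoInMeasure_iff_norm] at h2 ⊢
    refine fun ε hε => tendsto_of_tendsto_of_tendsto_of_le_of_le tendsto_const_nhds (h2 ε hε)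
      (fun _ => zero_le) fun n => measure_mono fun ω h => le_trans h (Eq.trans_le ?_ (hL2 _))
    rw [map_sub, RS, RS, map_sum]
    congr 2
    refine Finset.sum_congr rfl fun i _ => ?_
    rw [mul_comm, mul_comm (arr S w E n i ω), ← Complex.real_smul, ← Complex.real_smul, map_smul]
  have h4 := ((hS Θ m P S.toBSys (fun n i ω => L (arr S w E n i ω)) ⟨fun n i =>
    L.continuous.measurable.comp (h1 n i), K, fun n i ω => (hL2 _).trans (hK n i ω)⟩ T).2 _ h3).2.2
    (fun ω => (-(Uf (S.W ω) w 0 - Uf (S.W ω) w (last E T ω)) / 4 : ℝ))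
    (Eventually.of_forall fun ω => by
      have h5 := ((hP Θ m P S w η E hw hη hE).2 T (fun Z => (rate Z : ℝ)) (by
        simp only [rate_eq]
        exact Complex.continuous_ofReal.comp_continuousOn (ContinuousOn.div (by fun_prop)
          (by fun_prop) fun Z hZ => pow_ne_zero 4 (norm_ne_zero_iff.2 fun h => by
            simp [h, HH] at hZ))) ω).neg.div_const 4
      have h6 := (((hP Θ m P S w η E hw hη hE).1 T T.cast_nonneg).1 ω).1
      rw [intervalIntegral.integral_ofReal, ← Uf_sub (contW S ω) le_rfl h6.1 h6.2] at h5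
      push_cast at h5 ⊢
      refine h5.congr fun n => ?_
      rw [Finset.mul_sum, Finset.mul_sum, ← Finset.sum_neg_distrib, Finset.sum_div]
      refine Finset.sum_congr rfl fun i _ => ?_
      by_cases h : ω ∈ E (tt n i)
      · rw [arr, indicator_of_mem h, indicator_of_mem h, hL, rate_eq_sq, div_eq_mul_inv 2, mul_pow,
          Complex.I_sq, Complex.mul_im]
        generalize (Zf (S.W ω) w (tt n i))⁻¹.im = a
        simp
        ring
      · rw [arr, indicator_of_notMem h, indicator_of_notMem h]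
        simp)
  have e : ∀ ω, Real.exp ((Uf (S.W ω) w 0 - Uf (S.W ω) w (last E T ω)) / 8) *
      Real.cos ((NN (S.X ω) (S.O ω) w (last E T ω)).im / 2) = RCLike.re (Complex.exp
      (L (-NN (S.X ω) (S.O ω) w (last E T ω)) -
        (-(Uf (S.W ω) w 0 - Uf (S.W ω) w (last E T ω)) / 4 : ℝ) / 2)) := fun ω => by
    rw [RCLike.re_to_complex, Complex.exp_re, hL, ← Real.cos_neg]
    congr 2
    · simp
      ring
    · simp
      ring
  simp only [e]
  exact ⟨h4.1.re, by rw [integral_re h4.1, h4.2]; rfl⟩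

end One2

open One2 in
theorem one2_of (hS : SI) (hP : STP) (hI : ITO) (hM : MEAS) : ONE2 := by
  intro Θ _ P S w hw
  filter_upwards [not_bot S (-1) hS hP hI hM hw, not_bot S 1 hS hP hI hM hw] with ω h1 h2
  exact ⟨fun h => h1 ((tendsto_neg_atTop_atBot.comp h).congr fun t => (neg_one_mul _).symm),
    fun h => h2 (h.congr fun t => (one_mul _).symm)⟩

open One2 in
theorem one3_of (hS : SI) (hP : STP) (hI : ITO) (hM : MEAS) : ONE3 := by
  intro Θ m P S w hw h
  have := S.prob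
  have h1 := fun k : ℕ => exp_one S hS hP hI hw Nat.one_div_pos_of_nat (stp S w 0 0 hM k) k
  have h2 := fun k : ℕ =>
    ((hP Θ m P S w _ _ hw Nat.one_div_pos_of_nat (stp S w 0 0 hM k)).1 k k.cast_nonneg).2.2
  have h3 := fatou (fun k => by
    simp only [Uf_zero]
    exact ((measurable_const.sub ((h2 k).2.mono (S.F.le _) le_rfl)).div_const 8).exp.mul
      ((Complex.measurable_im.comp ((h2 k).1.mono (S.F.le _) le_rfl)).div_const 2).cos)
    (fun k => (h1 k).1) (fun k ω => by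
      have h4 := abs_le.1 (im_NN (rho_life S 0 0 hP hM hw k ω)).2
      exact mul_nonneg (Real.exp_pos _).le (Real.cos_nonneg_of_neg_pi_div_two_le_of_le
        (by rw [← neg_div]; exact div_le_div_of_nonneg_right h4.1 zero_le_two)
        (div_le_div_of_nonneg_right h4.2 zero_le_two))) fun k => (h1 k).2
  refine absurd (lintegral_strict_mono (f := fun _ => 1) (NeZero.ne P) h3.1.aemeasurable
    (by simp) ?_) (not_lt.2 (h3.2.trans_eq (by simp)))
  filter_upwards [h] with ω h4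
  obtain ⟨δ, hδ, h5⟩ := dom_extend (contW S ω) le_rfl (dom_zero.2 hw)
  rw [zero_add] at h5
  have h6 := rho_top S 0 0 hP hM hw (ω := ω) fun t _ => by simp
  have h7 : 1 < Real.exp ((Uf (S.W ω) w 0 - Uf (S.W ω) w δ) / 8) := by
    refine Real.one_lt_exp_iff.2 (div_pos ?_ (by norm_num))
    rw [Uf_sub (contW S ω) le_rfl hδ.le h5]
    refine intervalIntegral.intervalIntegral_pos_of_pos_on
      ((rate_cont (contW S ω) hδ.le h5).intervalIntegrable_of_Icc hδ.le) (fun s hs => ?_) hδ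
    have h8 := Zf_im_pos hs.1.le (dom_mono hs.2.le h5)
    have h9 := Zf_norm_pos hs.1.le (dom_mono hs.2.le h5)
    rw [rate_eq]
    positivity
  have h8 : Tendsto (fun k => Real.exp ((Uf (S.W ω) w 0 - Uf (S.W ω) w δ) / 8) *
      Real.cos ((NN (S.X ω) (S.O ω) w (rho S w 0 0 k ω)).im / 2)) atTop
      (𝓝 (Real.exp ((Uf (S.W ω) w 0 - Uf (S.W ω) w δ) / 8))) := by
    have h9 := ((Real.continuous_cos.tendsto _).comp
      (((h4.comp h6).const_mul Real.pi).div_const 2)).const_mul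
      (Real.exp ((Uf (S.W ω) w 0 - Uf (S.W ω) w δ) / 8))
    simp only [mul_zero, zero_div, Real.cos_zero, mul_one] at h9
    refine h9.congr fun k => ?_
    rw [(im_NN (rho_life S 0 0 hP hM hw k ω)).1]
    rfl
  obtain ⟨c, hc1, hc2⟩ := exists_between h7
  refine (ENNReal.one_lt_ofReal.2 hc1).trans_le (le_liminf_of_le (by isBoundedDefault) ?_)
  filter_upwards [h8.eventually (lt_mem_nhds hc2), h6.eventually_ge_atTop ⟨δ, hδ.le, h5⟩]
    with k h9 h10
  refine ENNReal.ofReal_le_ofReal (h9.le.trans (mul_le_mul_of_nonneg_right (Real.exp_le_exp.2 ?_)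
    (pos_of_mul_pos_right ((one_pos.trans hc1).trans h9) (Real.exp_pos _).le).le))
  have h11 := Uf_le (contW S ω) hδ.le h10 (rho_life S 0 0 hP hM hw k ω).2
  exact div_le_div_of_nonneg_right (sub_le_sub_left h11 _) (by norm_num)

end Vale.Agent.P155.Tree
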