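import Vale.Agent.P155Z.LSI.Fub27
import Vale.Agent.P155Z.ONE2
import Vale.Agent.P155.CI.Green

/-!
# P155, block LSI: the carpet of the exploration is a local set
-/

namespace Vale.Agent.P155.Tree

open MeasureTheory Filter Topology Set Vale.Agent.P155 Vale.Agent.P155.Q1 Vale.Agent.P164
  Vale.Agent.P155.Uq

namespace Lsi

open Fub

variable {Θ : Type} [m : MeasurableSpace Θ] {P : Measure Θ} (S : Sys P) {φ : ℂ → ℝ}

/-- the stopped pairing -/
noncomputable def JJ (φ : ℂ → ℝ) (k : ℕ) (ω : Θ) : ℝ :=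
  ∫ w, φ w * (NN (S.X ω) (S.O ω) w (last (EH S w (1 / ((k : ℝ) + 1))) k ω)).im

/-- the stopped energy -/
noncomputable def QQ (φ : ℂ → ℝ) (k : ℕ) (ω : Θ) : ℝ :=
  2 / Real.pi * ∫ s in (0 : ℝ)..k, th (S.W ω) φ (1 / ((k : ℝ) + 1)) s ^ 2

theorem exp_k (hS : SI) (hR : RIE) (hI : ITO) (hG : GEO0) (hm : Measurable φ)
    (hi : Integrable φ) (h0 : ∀ w, w ∉ HH → φ w = 0) (k : ℕ) :
    Integrable (fun ω => Complex.exp (Complex.I * cst * (JJ S φ k ω / Real.pi : ℝ) +
      QQ S φ k ω / 2)) P ∧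
    ∫ ω, Complex.exp (Complex.I * cst * (JJ S φ k ω / Real.pi : ℝ) + QQ S φ k ω / 2) ∂P = 1 := by
  have hη : (0 : ℝ) < 1 / ((k : ℝ) + 1) := Nat.one_div_pos_of_nat
  have h1 := ((hS Θ m P S.toBSys _ (arr_th S hη hm hi (-(Complex.I * cst / Real.pi))) k).2 _
    (fub S hS hI hη hm hi h0 k _)).2.2 _
    (Eventually.of_forall fun ω => th_rie hR hG (One2.contW S ω) hη hi k _)
  have hc : (cst : ℂ) ^ 2 = Real.pi / 2 := by
    rw [← Complex.ofReal_pow, cst, Real.sq_sqrt (by positivity)]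
    push_cast
    rfl
  have hp : (Real.pi : ℂ) ≠ 0 := Complex.ofReal_ne_zero.2 Real.pi_ne_zero
  have e : ∀ a b : ℝ, -(-(Complex.I * cst / Real.pi)) * (a : ℂ) -
      4 * (-(Complex.I * cst / Real.pi)) ^ 2 * (b : ℂ) / 2 =
      Complex.I * cst * (a / Real.pi : ℝ) + (2 / Real.pi * b : ℝ) / 2 := fun a b => by
    rw [neg_sq, div_pow, mul_pow, hc, Complex.I_sq]
    push_cast
    field_simp
    ring
  simp only [e] at h1
  exact h1

theorem life_k (hP : STP) {w : ℂ} (hw : w ∈ HH) (k : ℕ) (ω : Θ) :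
    last (EH S w (1 / ((k : ℝ) + 1))) k ω ∈ life (S.W ω) w :=
  (((hP Θ m P S w _ _ hw Nat.one_div_pos_of_nat (stp_EH S w _)).1 k k.cast_nonneg).1 ω).1

theorem top_k (hP : STP) {w : ℂ} (hw : w ∈ HH) (ω : Θ) :
    Tendsto (fun k => (⟨_, life_k S hP hw k ω⟩ : life (S.W ω) w)) atTop atTop := by
  refine tendsto_atTop.2 fun t => ?_
  filter_upwards [(tendsto_one_div_add_atTop_nhds_zero_nat (𝕜 := ℝ)).eventually
    (ge_mem_nhds (Zf_im_pos t.2.1 t.2.2)), tendsto_natCast_atTop_atTop.eventually_ge_atTop t.1]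
    with k h1 h2
  exact (((hP Θ m P S w _ _ hw Nat.one_div_pos_of_nat (stp_EH S w _)).1 k
    k.cast_nonneg).1 ω).2.2.2 t ⟨t.2.1, h2⟩ ⟨t.2.2, h1⟩

theorem lim_J (hP : STP) (hm : Measurable φ) (hi : Integrable φ) (h0 : ∀ w, w ∉ HH → φ w = 0)
    {ω : Θ} (hω : GoodP (S.X ω) (S.O ω)) :
    Tendsto (fun k => JJ S φ k ω / Real.pi) atTop
      (𝓝 (∫ w, φ w * typ (S.X ω) (S.O ω) w)) := by
  simp only [JJ, ← integral_div]
  refine tendsto_integral_of_dominated_convergence (fun w => |φ w|) (fun k => ?_) hi.abs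
    (fun k => Eventually.of_forall fun w => ?_) ?_
  · exact ((hm.mul (Complex.measurable_im.comp ((meas_N S _ k.cast_nonneg).comp
      measurable_prodMk_left))).div_const _).aestronglyMeasurable
  · by_cases hw : w ∈ HH
    · rw [Real.norm_eq_abs, abs_div, abs_mul, abs_of_pos Real.pi_pos, div_le_iff₀ Real.pi_pos]
      exact mul_le_mul_of_nonneg_left (One2.im_NN (life_k S hP hw k ω)).2 (abs_nonneg _)
    · simp [h0 w hw]
  · filter_upwards [measure_eq_zero_iff_ae_notMem.1 hω.null] with w hw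
    by_cases h : w ∈ HH
    · have h1 : w ∈ calm (S.O ω + S.X ω) := by
        by_contra h2
        exact hw ⟨h, h2⟩
      refine (((hω.lim w h1).comp (top_k S hP h ω)).const_mul (φ w)).congr fun k => ?_
      rw [(One2.im_NN (life_k S hP h k ω)).1, mul_left_comm, mul_div_cancel_left₀ _ Real.pi_ne_zero]
      rfl
    · simp [h0 w h]

end Lsi

open Lsi in
/-- **LSI** -/
theorem lsi_of (hS : SI) (hR : RIE) (hP : STP) (hI : ITO) (hG : GEO0) (h3 : GEO3) (hL : GRL)
    (hA' : ASG) : LSI := by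
  intro Θ m P S Ω f g hΩ hf χ hχ
  have := S.prob
  have ht := CI.isTest_pullD' hf hχ
  have hm : Measurable (CI.pullD HH f χ) := ht.1.continuous.measurable
  have hi : Integrable (CI.pullD HH f χ) :=
    ht.1.continuous.integrable_of_hasCompactSupport ht.2.1
  have h0 : ∀ w, w ∉ HH → CI.pullD HH f χ w = 0 := fun w hw => CI.test_off ht hw
  obtain ⟨C, hC⟩ := hL Ω f g hΩ hf χ hχ
  have h1 := exp_k S hS hR hI hG hm hi h0
  have h2 := tendsto_integral_of_dominated_convergence (μ := P)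
    (f := fun ω => Complex.exp (Complex.I * cst *
      (∫ z, hA Ω g (S.X ω) (S.O ω) z * χ z : ℝ) + ((greenEnergy Ω χ : ℂ) -
        greenEnergy (Ω \ (AA Ω f (S.W ω) : Set ℂ)) χ) / 2))
    (fun _ => Real.exp (2 / Real.pi * C / 2)) (fun k => (h1 k).1.aestronglyMeasurable)
    (integrable_const _) (fun k => ?_) ?_
  · simp only [fun k => (h1 k).2] at h2
    rw [← mul_one (Complex.exp (-(greenEnergy Ω χ : ℂ) / 2)),
      tendsto_nhds_unique tendsto_const_nhds h2, ← integral_const_mul]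
    refine integral_congr_ae (Eventually.of_forall fun ω => ?_)
    simp only [← Complex.exp_add]
    congr 1
    ring
  · filter_upwards [(hA' Θ m P S).1] with ω hω
    rw [Complex.norm_exp]
    refine Real.exp_le_exp.2 ?_
    have h4 := (hC _ (One2.contW S ω) hω.null).1 (1 / ((k : ℝ) + 1)) k Nat.one_div_pos_of_nat
      k.cast_nonneg
    have h5 : (Complex.I * cst * (JJ S (CI.pullD HH f χ) k ω / Real.pi : ℝ) +
        QQ S (CI.pullD HH f χ) k ω / 2 : ℂ).re = QQ S (CI.pullD HH f χ) k ω / 2 := by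
      generalize JJ S (CI.pullD HH f χ) k ω / Real.pi = a
      simp
    rw [h5]
    exact div_le_div_of_nonneg_right (mul_le_mul_of_nonneg_left h4 (by positivity)) zero_le_two
  · filter_upwards [(hA' Θ m P S).1] with ω hω
    have h4 := (hC _ (One2.contW S ω) hω.null).2
    have h5 := lim_J S hP hm hi h0 hω
    have e1 : ∫ w, CI.pullD HH f χ w * typ (S.X ω) (S.O ω) w =
        ∫ z, hA Ω g (S.X ω) (S.O ω) z * χ z := by
      simp only [mul_comm _ (χ _)]
      rw [← CI.pair_conf hf χ (v := hA Ω g (S.X ω) (S.O ω)) fun w hw => if_neg hw]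
      refine integral_congr_ae (Eventually.of_forall fun w => ?_)
      by_cases hw : w ∈ HH
      · simp only [CI.pull, hA, if_pos hw, if_pos (hf.mf hw), hf.gf w hw]
      · simp only [h0 w hw, zero_mul]
    rw [e1] at h5
    rw [(h3 Ω f g _ hΩ hf (One2.contW S ω)).2.1, ← Complex.ofReal_sub]
    exact (Complex.continuous_exp.tendsto _).comp
      ((((Complex.continuous_ofReal.tendsto _).comp h5).const_mul _).add
        (((Complex.continuous_ofReal.tendsto _).comp h4).div_const 2))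

end Vale.Agent.P155.Tree
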