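import Vale.Agent.P155Z.Sk

/-!
# P155, block MEASA: measurability of the carpet of the exploration and of the type
-/

namespace Vale.Agent.P155.Tree

open MeasureTheory Filter Topology Set TopologicalSpace Metric Vale.Agent.P155
  Vale.Agent.P155.Q1 Vale.Agent.P164 Vale.Agent.P155.Uq

namespace MSA

theorem ext_infDist {K L : NonemptyCompacts ℂ}
    (h : ∀ n, Metric.infDist (denseSeq ℂ n) (K : Set ℂ) =
      Metric.infDist (denseSeq ℂ n) (L : Set ℂ)) : K = L := by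
  have hall : (fun x : ℂ => Metric.infDist x (K : Set ℂ)) = fun x => Metric.infDist x (L : Set ℂ) :=
    (denseRange_denseSeq ℂ).equalizer (Metric.continuous_infDist_pt _)
      (Metric.continuous_infDist_pt _) (funext h)
  apply SetLike.coe_injective
  ext x
  rw [K.isCompact.isClosed.mem_iff_infDist_zero K.nonempty,
    L.isCompact.isClosed.mem_iff_infDist_zero L.nonempty, congrFun hall x]

/-- measurability of maps with values in the compact sets -/
theorem measurable_nc {X : Type*} [MeasurableSpace X] {f : X → NonemptyCompacts ℂ}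
    (h : ∀ (q : ℂ) (r : ℝ), MeasurableSet {x | Metric.infDist q (f x : Set ℂ) ≤ r}) :
    Measurable f := by
  obtain ⟨T, hT⟩ : ∃ T : NonemptyCompacts ℂ → (ℕ → ℝ),
      T = fun (K : NonemptyCompacts ℂ) n => Metric.infDist (denseSeq ℂ n) (K : Set ℂ) := ⟨_, rfl⟩
  have hTc : Continuous T := by
    rw [hT]
    exact continuous_pi fun n => (Metric.lipschitz_infDist_set _).continuous
  have hTi : Function.Injective T := by
    rw [hT]
    exact fun K L h => ext_infDist fun n => congrFun h n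
  have hemb : MeasurableEmbedding T := hTc.measurableEmbedding hTi
  refine hemb.measurable_comp_iff.1 (measurable_pi_lambda _ fun n => ?_)
  rw [hT]
  exact measurable_of_Iic fun r => h _ r

/-- the conformal radius is bounded below at rational times -/
def Lb (W : ℝ → ℝ) (n : ℕ) (w : ℂ) : Prop :=
  ∀ q : ℚ, (0 : ℝ) ≤ q → w ∈ loewnerDomain W q → -(n : ℝ) ≤ Uf W w q

section det

variable {W : ℝ → ℝ}

theorem rat_life (h0 : GEO0) (hW : Continuous W) {w : ℂ} (hw : w ∈ HH) {t : ℝ}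
    (ht : t ∈ life W w) : ∃ q : ℚ, t < q ∧ (q : ℝ) ∈ life W w := by
  obtain ⟨s, hs, hts⟩ := ((h0 W hW w hw).1.2 t ht).1
  obtain ⟨q, h1, h2⟩ := exists_rat_btwn hts
  exact ⟨q, h1, ((h0 W hW w hw).1.2 s hs).2 q (ht.1.trans h1.le) h2.le⟩

theorem lb_all (h0 : GEO0) (hW : Continuous W) {w : ℂ} (hw : w ∈ HH) {n : ℕ} (h : Lb W n w) :
    ∀ t ∈ life W w, -(n : ℝ) ≤ Uf W w t := by
  intro t ht
  obtain ⟨q, h1, h2⟩ := rat_life h0 hW hw ht
  exact (h q h2.1 h2.2).trans (Uf_le hW ht.1 h1.le h2.2)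

/-- compact sets of calm points -/
theorem sub_calm_iff (h0 : GEO0) (h1 : GEO1) (hW : Continuous W) {C : Set ℂ} (hC : IsCompact C)
    (hH : C ⊆ HH) : C ⊆ calm W ↔ ∃ n : ℕ, ∀ j, denseSeq ℂ j ∈ HH →
      (∃ w ∈ C, dist w (denseSeq ℂ j) < Real.exp (-(n : ℝ)) / 10) → Lb W n (denseSeq ℂ j) := by
  constructor
  · intro h
    obtain ⟨δ, hδ, hs⟩ := hC.exists_thickening_subset_open (h1 W hW).1 h
    obtain ⟨n, hn⟩ := exists_nat_ge (-Real.log (δ / 2 / 2))
    have hn' : Real.exp (-(n : ℝ)) ≤ δ / 2 / 2 := by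
      rw [← Real.le_log_iff_exp_le (by positivity)]
      linarith
    refine ⟨n, fun j _ ⟨w, hw, hd⟩ q hq hdom => ?_⟩
    have hb : ball (denseSeq ℂ j) (δ / 2) ⊆ calm W := by
      intro z hz
      apply hs
      rw [mem_thickening_iff]
      refine ⟨w, hw, ?_⟩
      have a1 := dist_triangle_right z w (denseSeq ℂ j)
      have a2 : dist z (denseSeq ℂ j) < δ / 2 := hz
      linarith
    have := (h1 W hW).2.2.1 _ _ (half_pos hδ) hb q ⟨hq, hdom⟩
    linarith
  · rintro ⟨n, hn⟩ w hw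
    have ho : IsOpen (HH ∩ ball w (Real.exp (-(n : ℝ)) / 10)) :=
      (isOpen_lt continuous_const Complex.continuous_im).inter isOpen_ball
    obtain ⟨j, hj1, hj2⟩ := (denseRange_denseSeq ℂ).exists_mem_open ho
      ⟨w, hH hw, mem_ball_self (by positivity)⟩
    have hd : dist w (denseSeq ℂ j) < Real.exp (-(n : ℝ)) / 10 := by
      rw [dist_comm]
      exact hj2
    exact ((h1 W hW).2.1 _ hj1 _ (lb_all h0 hW hj1 (hn j hj1 ⟨w, hw, hd⟩)) w hd).1

theorem calm_iff (h0 : GEO0) (h1 : GEO1) (hW : Continuous W) (w : ℂ) :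
    w ∈ calm W ↔ w ∈ HH ∧ ∃ n : ℕ, Lb W n w := by
  constructor
  · intro h
    obtain ⟨r, hr, hb⟩ := Metric.isOpen_iff.1 (h1 W hW).1 w h
    obtain ⟨n, hn⟩ := exists_nat_ge (-Real.log (r / 2))
    refine ⟨h.1, n, fun q hq hdom => ?_⟩
    have := (h1 W hW).2.2.1 _ _ hr hb q ⟨hq, hdom⟩
    linarith
  · rintro ⟨hw, n, hn⟩
    exact ((h1 W hW).2.1 _ hw _ (lb_all h0 hW hw hn) w (mem_ball_self (by positivity))).1

end det

/-- `hh` in terms of the centred flow -/
noncomputable def hz (x o : ℝ → ℝ) (w : ℂ) (t : ℝ) : ℝ :=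
  (Complex.arg (Zf (o + x) w t) - Complex.arg (Zf (o + x) w t + (x t : ℂ))) / Real.pi

section det2

variable {x o : ℝ → ℝ}

theorem hh_eq (h0 : GEO0) (hx : Continuous x) (ho : Continuous o) {w : ℂ} (hw : w ∈ HH) {t : ℝ}
    (ht : t ∈ life (o + x) w) : hh x o w t = hz x o w t := by
  unfold hh hz
  rw [(h0 (o + x) (ho.add hx) w hw).2.2.2.2 t ht]
  have e1 : gf (o + x) w t - ((o t + x t : ℝ) : ℂ) = Zf (o + x) w t := by
    rw [gf, Pi.add_apply]
    ring
  have e2 : gf (o + x) w t - ((o t : ℝ) : ℂ) = Zf (o + x) w t + (x t : ℂ) := by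
    rw [gf, Pi.add_apply]
    push_cast
    ring
  rw [e1, e2]

theorem hz_cont (hx : Continuous x) (ho : Continuous o) {w : ℂ} {s : ℝ}
    (hs : s ∈ life (o + x) w) : ContinuousOn (hz x o w) (Icc 0 s) := by
  have hZ : ContinuousOn (Zf (o + x) w) (Icc 0 s) := Zf_cont (ho.add hx) hs.1 hs.2
  have hp : ∀ t ∈ Icc 0 s, 0 < (Zf (o + x) w t).im := fun t ht =>
    Zf_im_pos ht.1 (dom_mono ht.2 hs.2)
  have hZ2 : ContinuousOn (fun t => Zf (o + x) w t + (x t : ℂ)) (Icc 0 s) :=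
    hZ.add (Complex.continuous_ofReal.comp hx).continuousOn
  refine ContinuousOn.div_const (ContinuousOn.sub (fun t ht => ?_) fun t ht => ?_) _
  · exact (Complex.continuousAt_arg (Or.inr (hp t ht).ne')).comp_continuousWithinAt (hZ t ht)
  · refine ContinuousAt.comp_continuousWithinAt (f := fun t => Zf (o + x) w t + (x t : ℂ))
      (Complex.continuousAt_arg (Or.inr ?_)) (hZ2 t ht)
    simpa using (hp t ht).ne'

/-- convergence along the life interval is read at rational times -/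
theorem tendsto_iff_rat (h0 : GEO0) (hx : Continuous x) (ho : Continuous o) (w : ℂ) (a : ℝ) :
    Tendsto (fun t : life (o + x) w => hh x o w t) atTop (𝓝 a) ↔ w ∉ HH ∨
      ∀ k : ℕ, ∃ q : ℚ, ((0 : ℝ) ≤ q ∧ w ∈ loewnerDomain (o + x) q) ∧ ∀ q' : ℚ, q ≤ q' →
        w ∈ loewnerDomain (o + x) q' → |hz x o w q' - a| ≤ 1 / ((k : ℝ) + 1) := by
  by_cases hw : w ∈ HH
  swap
  · have : IsEmpty (life (o + x) w) := ⟨fun t => hw (im_pos_of_dom t.2.1 t.2.2)⟩
    exact ⟨fun _ => Or.inl hw, fun _ => tendsto_of_isEmpty⟩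
  have hW : Continuous (o + x) := ho.add hx
  have : Nonempty (life (o + x) w) := ⟨⟨0, (h0 _ hW w hw).1.1⟩⟩
  rw [Metric.tendsto_atTop]
  constructor
  · intro h
    refine Or.inr fun k => ?_
    obtain ⟨t, ht⟩ := h (1 / ((k : ℝ) + 1)) (by positivity)
    obtain ⟨q, h1, h2⟩ := rat_life h0 hW hw t.2
    refine ⟨q, h2, fun q' hq hdom => ?_⟩
    have hq' : (q : ℝ) ≤ q' := by exact_mod_cast hq
    have hl : (q' : ℝ) ∈ life (o + x) w := ⟨h2.1.trans hq', hdom⟩
    have := ht ⟨q', hl⟩ (h1.le.trans hq')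
    rw [Real.dist_eq, hh_eq h0 hx ho hw hl] at this
    exact this.le
  · rintro (h | h)
    · exact absurd hw h
    intro ε hε
    obtain ⟨k, hk⟩ := exists_nat_one_div_lt hε
    obtain ⟨q, hq, h1⟩ := h k
    refine ⟨⟨q, hq⟩, fun t ht => ?_⟩
    have ht' : (q : ℝ) ≤ t.1 := ht
    rw [Real.dist_eq, hh_eq h0 hx ho hw t.2]
    refine lt_of_le_of_lt ?_ hk
    obtain ⟨s, hs, hts⟩ := ((h0 _ hW w hw).1.2 t t.2).1
    have hcl : t.1 ∈ closure (Ioo t.1 s ∩ range ((↑) : ℚ → ℝ)) := by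
      rw [Metric.mem_closure_iff]
      intro δ hδ
      obtain ⟨r, hr1, hr2⟩ := exists_rat_btwn (lt_min hts (show t.1 < t.1 + δ by linarith))
      refine ⟨r, ⟨⟨hr1, hr2.trans_le (min_le_left _ _)⟩, r, rfl⟩, ?_⟩
      have := hr2.trans_le (min_le_right _ _)
      rw [Real.dist_eq, abs_lt]
      constructor <;> linarith
    have hc : ContinuousWithinAt (fun u => |hz x o w u - a|)
        (Ioo t.1 s ∩ range ((↑) : ℚ → ℝ)) t.1 :=
      (((hz_cont hx ho hs t.1 ⟨t.2.1, hts.le⟩).sub continuousWithinAt_const).abs).mono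
        fun u hu => ⟨t.2.1.trans hu.1.1.le, hu.1.2.le⟩
    refine ContinuousWithinAt.closure_le hcl hc continuousWithinAt_const ?_
    rintro _ ⟨hu, r, rfl⟩
    refine h1 r ?_ (dom_mono hu.2.le hs.2)
    exact_mod_cast ht'.trans hu.1.le

end det2

section rnd

variable {Θ : Type} [MeasurableSpace Θ] {P : Measure Θ} (S : Sys P)

theorem contW (ω : Θ) : Continuous (S.W ω) := (S.contO ω).add (S.cont ω)

theorem mX (t : ℝ) : Measurable fun ω => S.X ω t := (S.ad t).mono (S.F.le t) le_rfl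

theorem mW (t : ℝ) : Measurable fun ω => S.W ω t :=
  ((S.adO t).mono (S.F.le t) le_rfl).add (mX S t)

theorem meas_lb (hM : MEAS) (n : ℕ) : MeasurableSet {p : Θ × ℂ | Lb (S.W p.1) n p.2} := by
  have e : {p : Θ × ℂ | Lb (S.W p.1) n p.2} = ⋂ (q : ℚ) (_ : (0 : ℝ) ≤ q),
      ({p : Θ × ℂ | p.2 ∈ loewnerDomain (S.W p.1) q}ᶜ ∪
        {p | -(n : ℝ) ≤ {p : Θ × ℂ | p.2 ∈ loewnerDomain (S.W p.1) q}.indicator
          (fun p => Uf (S.W p.1) p.2 q) p}) := by
    ext p
    simp only [mem_iInter, mem_union, mem_compl_iff]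
    refine forall₂_congr fun q _ => ?_
    by_cases h : p ∈ {p : Θ × ℂ | p.2 ∈ loewnerDomain (S.W p.1) q}
    · constructor
      · intro h'
        refine Or.inr ?_
        show -(n : ℝ) ≤ _
        rw [indicator_of_mem h]
        exact h' h
      · rintro (h' | h') _
        · exact absurd h h'
        · have h'' : -(n : ℝ) ≤ _ := h'
          rwa [indicator_of_mem h] at h''
    · exact ⟨fun _ => Or.inl h, fun _ h' => absurd h' h⟩
  rw [e]
  refine MeasurableSet.iInter fun q => MeasurableSet.iInter fun hq => ?_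
  obtain ⟨a1, -, a3⟩ := hM Θ _ S.W q hq (contW S) fun u _ => mW S u
  exact a1.compl.union (measurableSet_le measurable_const a3)

theorem meas_HH : MeasurableSet HH :=
  (isOpen_lt continuous_const Complex.continuous_im).measurableSet

theorem meas_calm (hM : MEAS) (h0 : GEO0) (h1 : GEO1) :
    MeasurableSet {p : Θ × ℂ | p.2 ∈ calm (S.W p.1)} := by
  have e : {p : Θ × ℂ | p.2 ∈ calm (S.W p.1)} =
      Prod.snd ⁻¹' HH ∩ ⋃ n : ℕ, {p : Θ × ℂ | Lb (S.W p.1) n p.2} := by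
    ext p
    simp only [mem_inter_iff, mem_iUnion]
    exact calm_iff h0 h1 (contW S p.1) p.2
  rw [e]
  exact (measurable_snd meas_HH).inter (MeasurableSet.iUnion fun n => meas_lb S hM n)

theorem meas_tendsto (hM : MEAS) (h0 : GEO0) (a : ℝ) :
    MeasurableSet {p : Θ × ℂ | Tendsto (fun t : life (S.O p.1 + S.X p.1) p.2 =>
      hh (S.X p.1) (S.O p.1) p.2 t) atTop (𝓝 a)} := by
  have e : {p : Θ × ℂ | Tendsto (fun t : life (S.O p.1 + S.X p.1) p.2 =>
      hh (S.X p.1) (S.O p.1) p.2 t) atTop (𝓝 a)} = (Prod.snd ⁻¹' HH)ᶜ ∪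
      ⋂ k : ℕ, ⋃ (q : ℚ) (_ : (0 : ℝ) ≤ q), {p : Θ × ℂ | p.2 ∈ loewnerDomain (S.W p.1) q} ∩
        ⋂ (q' : ℚ) (_ : q ≤ q'), ({p : Θ × ℂ | p.2 ∈ loewnerDomain (S.W p.1) q'}ᶜ ∪
          {p | |hz (S.X p.1) (S.O p.1) p.2 q' - a| ≤ 1 / ((k : ℝ) + 1)}) := by
    ext p
    refine (tendsto_iff_rat h0 (S.cont p.1) (S.contO p.1) p.2 a).trans ?_
    simp only [mem_union, mem_compl_iff, mem_iInter, mem_iUnion, mem_inter_iff]
    refine or_congr Iff.rfl (forall_congr' fun k => exists_congr fun q => ?_)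
    constructor
    · rintro ⟨⟨a1, a2⟩, a3⟩
      refine ⟨a1, a2, fun q' hq => ?_⟩
      by_cases h : p.2 ∈ loewnerDomain (S.W p.1) q'
      · exact Or.inr (a3 q' hq h)
      · exact Or.inl h
    · rintro ⟨a1, a2, a3⟩
      exact ⟨⟨a1, a2⟩, fun q' hq h => (a3 q' hq).resolve_left fun h' => h' h⟩
  rw [e]
  refine (measurable_snd meas_HH).compl.union (MeasurableSet.iInter fun k =>
    MeasurableSet.iUnion fun q => MeasurableSet.iUnion fun hq => ?_)
  refine (hM Θ _ S.W q hq (contW S) fun u _ => mW S u).1.inter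
    (MeasurableSet.iInter fun q' => MeasurableSet.iInter fun hq' => ?_)
  have hq'' : (0 : ℝ) ≤ q' := hq.trans (by exact_mod_cast hq')
  obtain ⟨a1, a2, -⟩ := hM Θ _ S.W q' hq'' (contW S) fun u _ => mW S u
  refine a1.compl.union (measurableSet_le ?_ measurable_const)
  have a3 : Measurable fun p : Θ × ℂ => hz (S.X p.1) (S.O p.1) p.2 q' :=
    ((Complex.measurable_arg.comp a2).sub (Complex.measurable_arg.comp (a2.add
      (Complex.measurable_ofReal.comp ((mX S q').comp measurable_fst))))).div_const _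
  exact continuous_abs.measurable.comp (a3.sub_const a)

theorem meas_typ (hM : MEAS) (h0 : GEO0) :
    Measurable fun p : Θ × ℂ => typ (S.X p.1) (S.O p.1) p.2 := by
  unfold typ
  exact Measurable.ite (meas_tendsto S hM h0 1) measurable_const
    (Measurable.ite (meas_tendsto S hM h0 (-1)) measurable_const measurable_const)

theorem meas_sub (hM : MEAS) (h0 : GEO0) (h1 : GEO1) {C : Set ℂ} (hC : IsCompact C)
    (hH : C ⊆ HH) : MeasurableSet {ω | C ⊆ calm (S.W ω)} := by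
  have e : {ω | C ⊆ calm (S.W ω)} = ⋃ n : ℕ, ⋂ (j : ℕ) (_ : denseSeq ℂ j ∈ HH)
      (_ : ∃ w ∈ C, dist w (denseSeq ℂ j) < Real.exp (-(n : ℝ)) / 10),
      (fun ω => (ω, denseSeq ℂ j)) ⁻¹' {p : Θ × ℂ | Lb (S.W p.1) n p.2} := by
    ext ω
    simp only [mem_iUnion, mem_iInter]
    exact sub_calm_iff h0 h1 (contW S ω) hC hH
  rw [e]
  exact MeasurableSet.iUnion fun n => MeasurableSet.iInter fun j => MeasurableSet.iInter fun _ =>
    MeasurableSet.iInter fun _ => measurable_prodMk_right (meas_lb S hM n)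

theorem meas_AA (hM : MEAS) (h0 : GEO0) (h1 : GEO1) (h3 : GEO3) {Ω : Set ℂ} {f g : ℂ → ℂ}
    (hΩ : Dom Ω) (hc : CI.Conf HH Ω f g) : Measurable fun ω => AA Ω f (S.W ω) := by
  refine measurable_nc fun q r => ?_
  have e : {ω | Metric.infDist q (AA Ω f (S.W ω) : Set ℂ) ≤ r}ᶜ =
      {ω | closedBall q r ∩ closure Ω ⊆ f '' calm (S.W ω)} := by
    ext ω
    have e1 := (h3 Ω f g (S.W ω) hΩ hc (contW S ω)).1
    constructor
    · intro h z hz
      by_contra hn
      apply h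
      have hzA : z ∈ (AA Ω f (S.W ω) : Set ℂ) := by
        rw [e1]
        exact ⟨hz.2, hn⟩
      refine (Metric.infDist_le_dist_of_mem hzA).trans ?_
      rw [dist_comm]
      exact hz.1
    · intro h h'
      obtain ⟨y, hy, hy2⟩ :=
        (AA Ω f (S.W ω)).isCompact.exists_infDist_eq_dist (AA Ω f (S.W ω)).nonempty q
      have h'' : Metric.infDist q (AA Ω f (S.W ω) : Set ℂ) ≤ r := h'
      rw [hy2, dist_comm] at h''
      rw [e1] at hy
      exact hy.2 (h ⟨h'', hy.1⟩)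
  rw [← MeasurableSet.compl_iff, e]
  by_cases hin : closedBall q r ∩ closure Ω ⊆ Ω
  · have hC : IsCompact (g '' (closedBall q r ∩ closure Ω)) :=
      ((isCompact_closedBall q r).inter_right isClosed_closure).image_of_continuousOn
        (hc.dg.continuousOn.mono hin)
    have hH : g '' (closedBall q r ∩ closure Ω) ⊆ HH := by
      rintro _ ⟨z, hz, rfl⟩
      exact hc.mg (hin hz)
    have e2 : {ω | closedBall q r ∩ closure Ω ⊆ f '' calm (S.W ω)} =
        {ω | g '' (closedBall q r ∩ closure Ω) ⊆ calm (S.W ω)} := by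
      ext ω
      constructor
      · rintro h _ ⟨z, hz, rfl⟩
        obtain ⟨w, hw, rfl⟩ := h hz
        rwa [hc.gf w hw.1]
      · intro h z hz
        exact ⟨g z, h ⟨z, hz, rfl⟩, hc.fg z (hin hz)⟩
    rw [e2]
    exact meas_sub S hM h0 h1 hC hH
  · have e2 : {ω | closedBall q r ∩ closure Ω ⊆ f '' calm (S.W ω)} = ∅ := by
      refine eq_empty_of_forall_notMem fun ω h => hin fun z hz => ?_
      obtain ⟨w, hw, rfl⟩ := h hz
      exact hc.mf hw.1
    rw [e2]
    exact MeasurableSet.empty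

theorem meas_hA (hM : MEAS) (h0 : GEO0) {Ω : Set ℂ} {f g : ℂ → ℂ} (hc : CI.Conf HH Ω f g) :
    Measurable fun p : Θ × ℂ => hA Ω g (S.X p.1) (S.O p.1) p.2 := by
  classical
  have hΩ : MeasurableSet Ω := hc.ho'.measurableSet
  have hg : Measurable (Ω.piecewise g fun _ => 0) :=
    hc.dg.continuousOn.measurable_piecewise continuousOn_const hΩ
  obtain ⟨T, hT⟩ : ∃ T : Θ × ℂ → ℝ, T = fun p => typ (S.X p.1) (S.O p.1) p.2 := ⟨_, rfl⟩
  have hTm : Measurable T := by
    rw [hT]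
    exact meas_typ S hM h0
  have h2 : Measurable (T ∘ fun p : Θ × ℂ => (p.1, Ω.piecewise g (fun _ => 0) p.2)) :=
    hTm.comp (measurable_fst.prodMk (hg.comp measurable_snd))
  have e : (fun p : Θ × ℂ => hA Ω g (S.X p.1) (S.O p.1) p.2) = (Prod.snd ⁻¹' Ω).indicator
      (T ∘ fun p : Θ × ℂ => (p.1, Ω.piecewise g (fun _ => 0) p.2)) := by
    funext p
    unfold hA
    by_cases h : p.2 ∈ Ω
    · rw [if_pos h, indicator_of_mem (show p ∈ Prod.snd ⁻¹' Ω from h), Function.comp_apply,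
        piecewise_eq_of_mem _ _ _ h, hT]
    · rw [if_neg h, indicator_of_notMem (show p ∉ Prod.snd ⁻¹' Ω from h)]
  rw [e]
  exact h2.indicator (measurable_snd hΩ)

end rnd

end MSA

/-- **MEASA** -/
theorem measa_of (hM : MEAS) (h0 : GEO0) (h1 : GEO1) (h3 : GEO3) : MEASA :=
  fun _ _ _ S => ⟨MSA.meas_calm S hM h0 h1, MSA.meas_typ S hM h0, fun _ _ _ hΩ hc =>
    ⟨MSA.meas_AA S hM h0 h1 h3 hΩ hc, MSA.meas_hA S hM h0 hc⟩⟩

end Vale.Agent.P155.Tree
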