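import Vale.Agent.P155Z.GLUE

/-!
# P155: a model of the signed carpets of the disc with jointly measurable heights
-/

namespace Vale.Agent.P155.Tree

open MeasureTheory Filter Topology Set TopologicalSpace Metric Vale.Agent.P155
  Vale.Agent.P155.Q1 Vale.Agent.P155.Uq

namespace Mdl

/-- the radii -/
noncomputable def rr (n : ℕ) : ℝ := 1 / ((n : ℝ) + 1)

theorem rr_pos (n : ℕ) : 0 < rr n := Nat.one_div_pos_of_nat

theorem rr_lim : Tendsto rr atTop (𝓝 0) := tendsto_one_div_add_atTop_nhds_zero_nat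

theorem mDD : MeasurableSet DD := measurableSet_ball

theorem fin : IsFiniteMeasure (volume.restrict DD : Measure ℂ) :=
  isFiniteMeasure_restrict.2 measure_ball_lt_top.ne

/-- the extension by zero -/
noncomputable def ex0 (f : Fld DD) : ℂ → ℝ := DD.indicator f

theorem ex0_int (f : Fld DD) : Integrable (ex0 f) := by
  have := fin
  exact (integrable_indicator_iff mDD).2 ((Lp.memLp f).integrable one_le_two)

/-- the averages over small discs -/
noncomputable def av (n : ℕ) (f : Fld DD) (z : ℂ) : ℝ := ⨍ w in closedBall z (rr n), ex0 f w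

theorem av_eq (n : ℕ) (f : Fld DD) (z : ℂ) : av n f z =
    (volume.real (closedBall (0 : ℂ) (rr n)))⁻¹ *
      ∫ w in closedBall z (rr n), f w ∂(volume.restrict DD) := by
  unfold av ex0
  rw [setAverage_eq, Measure.addHaar_real_closedBall_center, smul_eq_mul,
    setIntegral_indicator mDD, Measure.restrict_restrict measurableSet_closedBall]

theorem av_meas (n : ℕ) : Measurable fun p : Fld DD × ℂ => av n p.1 p.2 := by
  have := fin
  simp only [av_eq]
  refine Measurable.const_mul (measurable_uncurry_of_continuous_of_measurable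
    (u := fun (f : Fld DD) (z : ℂ) => ∫ w in closedBall z (rr n), f w ∂(volume.restrict DD))
    (fun z => ?_) fun f => ?_) _
  · simp only [← L2.inner_indicatorConstLp_one (𝕜 := ℝ) measurableSet_closedBall
      (measure_ne_top _ _)]
    fun_prop
  · simp only [← integral_indicator measurableSet_closedBall]
    have h1 : MeasurableSet {p : ℂ × ℂ | dist p.2 p.1 ≤ rr n} :=
      measurableSet_le (by fun_prop) measurable_const
    exact ((((Lp.stronglyMeasurable f).measurable.comp measurable_snd).indicator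
      h1).stronglyMeasurable.integral_prod_right' (ν := volume.restrict DD)).measurable

theorem vol_pos (n : ℕ) (z : ℂ) : 0 < volume.real (closedBall z (rr n)) :=
  ENNReal.toReal_pos (measure_closedBall_pos _ _ (rr_pos n)).ne' measure_closedBall_lt_top.ne

theorem av_bdd {f : Fld DD} {c : ℝ} (hc : 0 ≤ c)
    (hf : ∀ᵐ z ∂(volume.restrict DD : Measure ℂ), |f z| ≤ c) (n : ℕ) (z : ℂ) :
    |av n f z| ≤ c := by
  have h1 : ∀ᵐ w ∂(volume : Measure ℂ), w ∈ closedBall z (rr n) → ‖ex0 f w‖ ≤ c := by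
    filter_upwards [(ae_restrict_iff' mDD).1 hf] with w hw _
    by_cases h : w ∈ DD
    · rw [ex0, indicator_of_mem h]
      exact hw h
    · rw [ex0, indicator_of_notMem h, norm_zero]
      exact hc
  have h2 := norm_setIntegral_le_of_norm_le_const_ae' measure_closedBall_lt_top h1
  unfold av
  rw [setAverage_eq, smul_eq_mul, abs_mul, abs_of_pos (inv_pos.2 (vol_pos n z)),
    inv_mul_le_iff₀ (vol_pos n z), mul_comm]
  exact h2

theorem av_add {f f' : Fld DD} {t r : ℝ} {z w : ℂ} {n : ℕ} (hz : ball z r ⊆ DD)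
    (h : ∀ᵐ u ∂(volume.restrict DD : Measure ℂ), u ∈ ball z r → f' u - f u = t)
    (hw : closedBall w (rr n) ⊆ ball z r) : av n f' w = av n f w + t := by
  have h1 : av n f' w = ⨍ u in closedBall w (rr n), (ex0 f u + t) := by
    refine setAverage_congr_fun measurableSet_closedBall ?_
    filter_upwards [(ae_restrict_iff' mDD).1 h] with u hu hu'
    rw [ex0, ex0, indicator_of_mem (hz (hw hu')), indicator_of_mem (hz (hw hu')),
      ← hu (hz (hw hu')) (hw hu')]
    ring
  rw [h1, av, setAverage_eq, setAverage_eq, integral_add (ex0_int f).integrableOn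
    (integrableOn_const measure_closedBall_lt_top.ne), setIntegral_const, smul_add, smul_smul,
    inv_mul_cancel₀ (vol_pos n w).ne', one_smul]

/-- the pointwise representative -/
noncomputable def rp (c : ℝ) (f : Fld DD) (z : ℂ) : ℝ :=
  max (-c) (min c (limsup (fun n => av n f z) atTop))

theorem rp_meas (c : ℝ) : Measurable fun p : Fld DD × ℂ => rp c p.1 p.2 :=
  measurable_const.max (measurable_const.min (Measurable.limsup av_meas))

theorem clamp_bdd {c : ℝ} (hc : 0 ≤ c) (x : ℝ) : |max (-c) (min c x)| ≤ c :=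
  abs_le.2 ⟨le_max_left _ _, max_le (by linarith) (min_le_left _ _)⟩

theorem clamp_eq {c x : ℝ} (h : |x| ≤ c) : max (-c) (min c x) = x := by
  rw [min_eq_right (abs_le.1 h).2, max_eq_right (abs_le.1 h).1]

theorem bd_le {u : ℕ → ℝ} {c : ℝ} (h : ∀ n, |u n| ≤ c) : atTop.IsBoundedUnder (· ≤ ·) u :=
  isBoundedUnder_of ⟨c, fun n => (abs_le.1 (h n)).2⟩

theorem cobd_le {u : ℕ → ℝ} {c : ℝ} (h : ∀ n, |u n| ≤ c) : atTop.IsCoboundedUnder (· ≤ ·) u :=
  isCoboundedUnder_le_of_le atTop fun n => (abs_le.1 (h n)).1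

theorem rp_eq {f : Fld DD} {c : ℝ} (hc : 0 ≤ c)
    (hf : ∀ᵐ z ∂(volume.restrict DD : Measure ℂ), |f z| ≤ c) (z : ℂ) :
    rp c f z = limsup (fun n => av n f z) atTop := by
  have h := fun n => av_bdd hc hf n z
  exact clamp_eq (abs_le.2
    ⟨le_limsup_of_frequently_le (Frequently.of_forall fun n => (abs_le.1 (h n)).1) (bd_le h),
      limsup_le_of_le (cobd_le h) (Eventually.of_forall fun n => (abs_le.1 (h n)).2)⟩)

theorem rp_ae {f : Fld DD} {c : ℝ} (hc : 0 ≤ c)
    (hf : ∀ᵐ z ∂(volume.restrict DD : Measure ℂ), |f z| ≤ c) :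
    ∀ᵐ z ∂(volume.restrict DD : Measure ℂ), rp c f z = f z := by
  filter_upwards [ae_restrict_of_ae (IsUnifLocDoublingMeasure.ae_tendsto_average volume
    (ex0_int f).locallyIntegrable 1), ae_restrict_mem mDD] with z h hz
  have h1 : Tendsto (fun n => av n f z) atTop (𝓝 (ex0 f z)) :=
    h (fun _ => z) rr (tendsto_nhdsWithin_iff.2 ⟨rr_lim, Eventually.of_forall rr_pos⟩)
    (Eventually.of_forall fun n => mem_closedBall_self (by linarith [rr_pos n]))
  rw [rp_eq hc hf, h1.limsup_eq, ex0, indicator_of_mem hz]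

theorem rp_int {f : Fld DD} {c : ℝ} (hc : 0 ≤ c)
    (hf : ∀ᵐ z ∂(volume.restrict DD : Measure ℂ), |f z| ≤ c) {φ : ℂ → ℝ} (hφ : IsTest DD φ) :
    ∫ z, rp c f z * φ z = pr f φ := by
  rw [← setIntegral_eq_integral_of_forall_compl_eq_zero (s := DD) fun z hz => by
    rw [image_eq_zero_of_notMem_tsupport fun h => hz (hφ.2.2 h), mul_zero]]
  refine integral_congr_ae ?_
  filter_upwards [rp_ae hc hf] with z hz
  rw [hz]

theorem rp_add {f f' : Fld DD} {c c' t r : ℝ} {z : ℂ} (hc : 0 ≤ c) (hc' : 0 ≤ c')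
    (hf : ∀ᵐ z ∂(volume.restrict DD : Measure ℂ), |f z| ≤ c)
    (hf' : ∀ᵐ z ∂(volume.restrict DD : Measure ℂ), |f' z| ≤ c') (hz : ball z r ⊆ DD)
    (h : ∀ᵐ u ∂(volume.restrict DD : Measure ℂ), u ∈ ball z r → f' u - f u = t) {w : ℂ}
    (hw : w ∈ ball z r) : rp c' f' w - rp c f w = t := by
  have h1 := fun n => av_bdd hc hf n w
  have h2 : ∀ᶠ n in atTop, av n f' w = av n f w + t := by
    filter_upwards [rr_lim.eventually (gt_mem_nhds (sub_pos.2 (mem_ball.1 hw)))] with n hn
    exact av_add hz h (closedBall_subset_ball' (by linarith))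
  rw [rp_eq hc hf, rp_eq hc' hf', limsup_congr h2, limsup_add_const _ _ _ (bd_le h1) (cobd_le h1)]
  ring

/-- the unit circle -/
def circ : NonemptyCompacts ℂ := ⟨⟨sphere 0 1, isCompact_sphere 0 1⟩, ⟨1, by simp⟩⟩

/-- the carpets -/
noncomputable def GG (k : ℕ) (s : Sp DD) : NonemptyCompacts ℂ := if k = 0 then circ else (s k).1

/-- the heights -/
noncomputable def gg (k : ℕ) (s : Sp DD) (z : ℂ) : ℝ := rp k (s k).2 z

/-- the filtration -/
noncomputable def FF : Filtration ℕ (inferInstance : MeasurableSpace (Sp DD)) where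
  seq k := MeasurableSpace.comap (past k) inferInstance
  mono' j k h := Measurable.comap_le (f := past j)
    (@measurable_pi_lambda _ _ _ (MeasurableSpace.comap (past k) inferInstance) _ _ fun i =>
      (measurable_pi_apply (⟨i, by omega⟩ : Fin (k + 1))).comp (comap_measurable (past k)))
  le' k := Measurable.comap_le (measurable_pi_lambda _ fun i => measurable_pi_apply _)

theorem ev_meas (k : ℕ) : Measurable[FF k] fun s : Sp DD => s k :=
  (measurable_pi_apply (Fin.last k)).comp (comap_measurable (past k))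

theorem GG_meas (k : ℕ) : Measurable[FF k] (GG k) := by
  unfold GG
  split_ifs
  · exact measurable_const
  · exact measurable_fst.comp (ev_meas k)

theorem comp_meas {S : Type} {m : MeasurableSpace S} {e : S → NonemptyCompacts ℂ × Fld DD}
    (he : Measurable e) (c : ℝ) : Measurable fun p : S × ℂ => rp c (e p.1).2 p.2 :=
  Measurable.comp (g := fun p : Fld DD × ℂ => rp c p.1 p.2) (f := fun p : S × ℂ => ((e p.1).2, p.2))
    (rp_meas c) (((measurable_snd.comp he).comp measurable_fst).prodMk measurable_snd)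

theorem gg_meas (k : ℕ) :
    Measurable[(FF k).prod inferInstance] fun p : Sp DD × ℂ => gg k p.1 p.2 :=
  comp_meas (ev_meas k) k

theorem gg_bdd (k : ℕ) (s : Sp DD) (z : ℂ) : |gg k s z| ≤ k := clamp_bdd (Nat.cast_nonneg k) _

theorem gg_z (k : ℕ) (s : Sp DD) : Measurable (gg k s) :=
  Measurable.comp (g := fun p : Fld DD × ℂ => rp k p.1 p.2) (f := fun z => ((s k).2, z))
    (rp_meas k) measurable_prodMk_left

variable {Q : Measure (Sp DD)}

theorem GG_ae (hQ : Canon DD Q) : ∀ᵐ s ∂Q, ∀ k, GG k s = (s k).1 := by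
  filter_upwards [hQ.zero] with s hs k
  unfold GG
  split_ifs with h
  · subst h
    refine SetLike.coe_injective (Eq.trans ?_ hs.1.symm)
    exact (frontier_ball (0 : ℂ) one_ne_zero).symm
  · rfl

theorem sign_ae (hQ : Canon DD Q) : ∀ᵐ s ∂Q, ∀ k, ∀ z ∈ DD \ (GG (k + 1) s : Set ℂ),
    ∃ t : ℝ, (t = 1 ∨ t = -1) ∧ ∀ᶠ w in 𝓝 z, gg (k + 1) s w - gg k s w = t := by
  filter_upwards [GG_ae hQ, hQ.bdd, hQ.sign] with s h1 h2 h3 k z hz
  rw [h1] at hz
  obtain ⟨r, hr, hr'⟩ := nhds_basis_closedBall.mem_iff.1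
    ((Glue.open_diff isOpen_ball (s (k + 1)).1).mem_nhds hz)
  obtain ⟨t, ht, ht'⟩ := h3 k z r hr (hr'.trans sdiff_subset)
    (disjoint_left.2 fun w hw => (hr' hw).2)
  refine ⟨t, ht, ?_⟩
  filter_upwards [ball_mem_nhds z hr] with w hw
  exact rp_add (Nat.cast_nonneg k) (Nat.cast_nonneg (k + 1)) (h2 k) (h2 (k + 1))
    (ball_subset_closedBall.trans (hr'.trans sdiff_subset)) ht' hw

theorem gff (hQ : Canon DD Q) (k : ℕ) (φ : ℂ → ℝ) (hφ : IsTest DD φ) (Ψ : Sp DD → ℝ)
    (hΨ : Measurable[FF k] Ψ) (hC : ∃ C, ∀ s, |Ψ s| ≤ C) :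
    ∫ s, (Ψ s : ℂ) * Complex.exp (Complex.I * cst *
        ((∫ z, gg (k + 1) s z * φ z : ℝ) - (∫ z, gg k s z * φ z : ℝ)) -
        greenEnergy (DD \ (GG (k + 1) s : Set ℂ)) φ / 2) ∂Q =
      ∫ s, (Ψ s : ℂ) * Complex.exp (-greenEnergy (DD \ (GG k s : Set ℂ)) φ / 2) ∂Q := by
  obtain ⟨C, hC⟩ := hC
  obtain ⟨Φ, hΦ, rfl⟩ := Measurable.exists_eq_measurable_comp hΨ
  have h0 : ∀ s, max (-|C|) (min |C| (Φ (past k s))) = (Φ ∘ past k) s :=
    fun s => clamp_eq ((hC s).trans (le_abs_self C))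
  have h1 := hQ.gff k φ hφ (fun y => max (-|C|) (min |C| (Φ y)))
    ⟨measurable_const.max (measurable_const.min hΦ), |C|, fun _ => clamp_bdd (abs_nonneg C) _⟩
  simp only [h0] at h1
  refine (integral_congr_ae ?_).trans (h1.trans (integral_congr_ae ?_))
  · filter_upwards [GG_ae hQ, hQ.bdd] with s a b
    rw [a, ← rp_int (Nat.cast_nonneg k) (b k) hφ, ← rp_int (Nat.cast_nonneg (k + 1)) (b (k + 1)) hφ]
    rfl
  · filter_upwards [GG_ae hQ] with s a
    rw [a]

theorem gg_zero (s : Sp DD) (z : ℂ) : gg 0 s z = 0 := by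
  have := gg_bdd 0 s z
  rwa [Nat.cast_zero, abs_nonpos_iff] at this

theorem carp (hQ : Canon DD Q) :
    IsSignedCarpets Q DD GG (fun k s φ => ∫ z, gg k s z * φ z) := by
  have mH : ∀ j k, j ≤ k → ∀ φ, IsTest DD φ →
      Measurable[FF k] fun s : Sp DD => ∫ z, gg j s z * φ z := fun j k h φ hφ =>
    (Glue.meas_int (gg_meas j) hφ).mono (FF.mono h) le_rfl
  have mG : ∀ k, Measurable (GG k) := fun k => (GG_meas k).mono (FF.le k) le_rfl
  refine ⟨Eventually.of_forall fun s => ⟨(frontier_ball (0 : ℂ) one_ne_zero).symm,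
      fun φ _ => by simp [gg_zero]⟩,
    Eventually.of_forall fun s k => ⟨_, gg_z k s, gg_bdd k s, fun _ _ => rfl⟩, ?_, ?_, ?_, ?_,
    fun k => ⟨mG k, fun φ hφ => ⟨(mH k k le_rfl φ hφ).mono (FF.le k) le_rfl,
      (Glue.meas_green DD φ).comp (mG k)⟩⟩, fun k n χ φ hχ hφ F hF ⟨C, hC⟩ => ?_⟩
  · filter_upwards [GG_ae hQ, hQ.mono] with s a b k
    rw [a, a]
    exact b k
  · filter_upwards [GG_ae hQ, hQ.conn] with s a b k
    rw [a]
    exact b k
  · filter_upwards [GG_ae hQ, hQ.null] with s a b k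
    rw [a]
    exact b k
  · filter_upwards [sign_ae hQ] with s a k z r hr hz hd
    exact Glue.sign_of (gg_z k s) (gg_bdd k s) (gg_z (k + 1) s) (gg_bdd (k + 1) s) hr
      fun w hw => a k w ⟨hz (ball_subset_closedBall hw),
        disjoint_left.1 hd (ball_subset_closedBall hw)⟩
  · exact gff hQ k φ hφ _ (Glue.meas_F hF
      (fun j : Fin (k + 1) => (GG_meas j).mono (FF.mono (Nat.lt_succ_iff.1 j.2)) le_rfl)
      fun (j : Fin (k + 1)) i => mH j k (Nat.lt_succ_iff.1 j.2) _ (hχ i)) ⟨C, fun _ => hC _⟩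

end Mdl

open Mdl in
theorem model : MODEL := fun ⟨Q, hQ⟩ =>
  ⟨{ S := Sp DD
     mS := inferInstance
     Q := Q
     prob := hQ.prob
     F := FF
     G := GG
     g := gg
     mG := GG_meas
     mg := gg_meas
     zero := fun s => ⟨rfl, gg_zero s⟩
     bdd := gg_bdd
     sign := sign_ae hQ
     carp := carp hQ
     gff := gff hQ }⟩

end Vale.Agent.P155.Tree
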