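import Vale.Agent.P155Z.ONE2

/-!
# P155: the conformal radius stays bounded below and `hh` converges
-/

namespace Vale.Agent.P155.Tree

open MeasureTheory Filter Topology ProbabilityTheory Set Vale.Agent.P164
open scoped ENNReal

namespace One1

open One2

variable {Θ : Type} [m : MeasurableSpace Θ] {P : Measure Θ}

theorem lim_map {S : BSys P} {θ : ℕ → ℕ → Θ → ℂ} (h1 : Arr S θ) {T : ℕ} {I : Θ → ℂ}
    (h2 : TendstoInMeasure P (RS S.X θ T) atTop I) (L : ℂ →L[ℝ] ℂ) (hL : ∀ z, ‖L z‖ ≤ ‖z‖) :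
    Arr S (fun n i ω => L (θ n i ω)) ∧
      TendstoInMeasure P (RS S.X (fun n i ω => L (θ n i ω)) T) atTop fun ω => L (I ω) := by
  obtain ⟨h1, K, hK⟩ := h1
  refine ⟨⟨fun n i => L.continuous.measurable.comp (h1 n i), K,
    fun n i ω => (hL _).trans (hK n i ω)⟩, ?_⟩
  rw [tendstoInMeasure_iff_norm] at h2 ⊢
  refine fun ε hε => tendsto_of_tendsto_of_tendsto_of_le_of_le tendsto_const_nhds (h2 ε hε)
    (fun _ => zero_le) fun n => measure_mono fun ω h => le_trans h (Eq.trans_le ?_ (hL _))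
  rw [map_sub, RS, RS, map_sum]
  congr 2
  refine Finset.sum_congr rfl fun i _ => ?_
  rw [mul_comm, mul_comm (θ n i ω), ← Complex.real_smul, ← Complex.real_smul, map_smul]

theorem lim_sub {S : BSys P} {θ θ' : ℕ → ℕ → Θ → ℂ} (h1 : Arr S θ) (h1' : Arr S θ') {T : ℕ}
    {I I' : Θ → ℂ} (h2 : TendstoInMeasure P (RS S.X θ T) atTop I)
    (h2' : TendstoInMeasure P (RS S.X θ' T) atTop I') :
    Arr S (fun n i ω => θ n i ω - θ' n i ω) ∧
      TendstoInMeasure P (RS S.X (fun n i ω => θ n i ω - θ' n i ω) T) atTop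
        fun ω => I ω - I' ω := by
  obtain ⟨h1, K, hK⟩ := h1
  obtain ⟨h1', K', hK'⟩ := h1'
  refine ⟨⟨fun n i => Measurable.sub (m := S.F (tt n i)) (h1 n i) (h1' n i), K + K',
    fun n i ω => (norm_sub_le _ _).trans (add_le_add (hK n i ω) (hK' n i ω))⟩, ?_⟩
  rw [tendstoInMeasure_iff_norm] at h2 h2' ⊢
  intro ε hε
  have h3 := (h2 _ (half_pos hε)).add (h2' _ (half_pos hε))
  rw [add_zero] at h3
  refine tendsto_of_tendsto_of_tendsto_of_le_of_le tendsto_const_nhds h3 (fun _ => zero_le)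
    fun n => le_trans (measure_mono fun ω h => ?_) (measure_union_le _ _)
  by_contra h4
  obtain ⟨h5, h6⟩ := not_or.1 h4
  have e : RS S.X (fun n i ω => θ n i ω - θ' n i ω) T n ω - (I ω - I' ω) =
      (RS S.X θ T n ω - I ω) - (RS S.X θ' T n ω - I' ω) := by
    simp only [RS, sub_mul, Finset.sum_sub_distrib]
    ring
  have h7 : ε ≤ ‖RS S.X (fun n i ω => θ n i ω - θ' n i ω) T n ω - (I ω - I' ω)‖ := h
  rw [e] at h7
  have h8 : ‖RS S.X θ T n ω - I ω‖ < ε / 2 := not_le.1 h5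
  have h9 : ‖RS S.X θ' T n ω - I' ω‖ < ε / 2 := not_le.1 h6
  linarith [norm_sub_le (RS S.X θ T n ω - I ω) (RS S.X θ' T n ω - I' ω)]

variable (S : Sys P) {w : ℂ}

theorem rate_lim (hP : STP) {η : ℝ} {E : ℝ → Set Θ} (hw : w ∈ HH) (hη : 0 < η)
    (hE : Stp S w η E) (T : ℕ) (ω : Θ) :
    Tendsto (fun n => 4 / 2 ^ n * ∑ i ∈ Finset.range (T * 2 ^ n), (arr S w E n i ω).im ^ 2) atTop
      (𝓝 (Uf (S.W ω) w 0 - Uf (S.W ω) w (last E T ω))) := by
  have h5 := (hP Θ m P S w η E hw hη hE).2 T (fun Z => (rate Z : ℝ)) (by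
    simp only [rate_eq]
    exact Complex.continuous_ofReal.comp_continuousOn (ContinuousOn.div (by fun_prop)
      (by fun_prop) fun Z hZ => pow_ne_zero 4 (norm_ne_zero_iff.2 fun h => by
        simp [h, HH] at hZ))) ω
  have h6 := (((hP Θ m P S w η E hw hη hE).1 T T.cast_nonneg).1 ω).1
  rw [intervalIntegral.integral_ofReal, ← Uf_sub (contW S ω) le_rfl h6.1 h6.2] at h5
  refine tendsto_ofReal_iff.1 (h5.congr fun n => ?_)
  push_cast
  rw [Finset.mul_sum, Finset.mul_sum]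
  refine Finset.sum_congr rfl fun i _ => ?_
  by_cases h : ω ∈ E (tt n i)
  · rw [arr, indicator_of_mem h, indicator_of_mem h, rate_eq_sq, div_eq_mul_inv 2, Complex.mul_im]
    generalize (Zf (S.W ω) w (tt n i))⁻¹.im = a
    simp
    ring
  · rw [arr, indicator_of_notMem h, indicator_of_notMem h]
    simp

theorem exp_quarter (hS : SI) (hP : STP) (hI : ITO) {η : ℝ} {E : ℝ → Set Θ} (hw : w ∈ HH)
    (hη : 0 < η) (hE : Stp S w η E) (T : ℕ) :
    Integrable (fun ω => Real.exp ((Uf (S.W ω) w 0 - Uf (S.W ω) w (last E T ω)) / 32) *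
      Real.cos ((NN (S.X ω) (S.O ω) w (last E T ω)).im / 4)) P ∧
    ∫ ω, Real.exp ((Uf (S.W ω) w 0 - Uf (S.W ω) w (last E T ω)) / 32) *
      Real.cos ((NN (S.X ω) (S.O ω) w (last E T ω)).im / 4) ∂P = 1 := by
  obtain ⟨h1, h2⟩ := hI Θ m P S w η E hw hη hE T
  obtain ⟨L, hL, hL2⟩ : ∃ L : ℂ →L[ℝ] ℂ, (∀ z, L z = Complex.I * (z.im / 4 : ℝ)) ∧
      ∀ z, ‖L z‖ ≤ ‖z‖ := by
    refine ⟨(Complex.I / 4) • (Complex.ofRealCLM.comp Complex.imCLM), fun z => ?_, fun z => ?_⟩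
    · simp
      ring
    · have := Complex.abs_im_le_norm z
      simp
      linarith [abs_nonneg z.im]
  obtain ⟨h3, h3'⟩ := lim_map h1 h2 L hL2
  have h4 := ((hS Θ m P S.toBSys _ h3 T).2 _ h3').2.2
    (fun ω => (-(Uf (S.W ω) w 0 - Uf (S.W ω) w (last E T ω)) / 16 : ℝ))
    (Eventually.of_forall fun ω => by
      refine (tendsto_ofReal_iff.2 ((rate_lim S hP hw hη hE T ω).neg.div_const 16)).congr
        fun n => ?_
      push_cast
      rw [Finset.mul_sum, Finset.mul_sum, ← Finset.sum_neg_distrib, Finset.sum_div]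
      refine Finset.sum_congr rfl fun i _ => ?_
      rw [hL, mul_pow, Complex.I_sq]
      push_cast
      ring)
  have e : ∀ ω, Real.exp ((Uf (S.W ω) w 0 - Uf (S.W ω) w (last E T ω)) / 32) *
      Real.cos ((NN (S.X ω) (S.O ω) w (last E T ω)).im / 4) = RCLike.re (Complex.exp
      (L (-NN (S.X ω) (S.O ω) w (last E T ω)) -
        (-(Uf (S.W ω) w 0 - Uf (S.W ω) w (last E T ω)) / 16 : ℝ) / 2)) := fun ω => by
    rw [RCLike.re_to_complex, Complex.exp_re, hL, ← Real.cos_neg]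
    congr 2
    · simp
      ring
    · simp
      ring
  simp only [e]
  exact ⟨h4.1.re, by rw [integral_re h4.1, h4.2]; rfl⟩

theorem mean_le (hS : SI) (hP : STP) (hI : ITO) {η : ℝ} {E : ℝ → Set Θ} (hw : w ∈ HH)
    (hη : 0 < η) (hE : Stp S w η E) (T : ℕ) :
    Measurable (fun ω => Uf (S.W ω) w 0 - Uf (S.W ω) w (last E T ω)) ∧
    (∀ ω, 0 ≤ Uf (S.W ω) w 0 - Uf (S.W ω) w (last E T ω)) ∧
    Integrable (fun ω => Uf (S.W ω) w 0 - Uf (S.W ω) w (last E T ω)) P ∧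
    ∫ ω, (Uf (S.W ω) w 0 - Uf (S.W ω) w (last E T ω)) ∂P ≤ 64 := by
  obtain ⟨h1, h2⟩ := exp_quarter S hS hP hI hw hη hE T
  have h3 := (hP Θ m P S w η E hw hη hE).1 T T.cast_nonneg
  have h4 : Measurable (fun ω => Uf (S.W ω) w 0 - Uf (S.W ω) w (last E T ω)) := by
    simp only [Uf_zero]
    exact measurable_const.sub (h3.2.2.2.mono (S.F.le _) le_rfl)
  have h5 : ∀ ω, 0 ≤ Uf (S.W ω) w 0 - Uf (S.W ω) w (last E T ω) := fun ω =>
    sub_nonneg.2 (Uf_le (contW S ω) le_rfl (h3.1 ω).1.1 (h3.1 ω).1.2)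
  have h6 : ∀ ω, Uf (S.W ω) w 0 - Uf (S.W ω) w (last E T ω) ≤
      64 * (Real.exp ((Uf (S.W ω) w 0 - Uf (S.W ω) w (last E T ω)) / 32) *
        Real.cos ((NN (S.X ω) (S.O ω) w (last E T ω)).im / 4)) := fun ω => by
    have h7 := (im_NN (h3.1 ω).1).2
    have h8 : 1 / 2 ≤ Real.cos ((NN (S.X ω) (S.O ω) w (last E T ω)).im / 4) := by
      rw [← Real.cos_pi_div_three, ← Real.cos_abs ((NN _ _ _ _).im / 4)]
      refine Real.cos_le_cos_of_nonneg_of_le_pi (abs_nonneg _) (by linarith [Real.pi_pos]) ?_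
      rw [abs_div, abs_of_pos (by norm_num : (0 : ℝ) < 4)]
      linarith [Real.pi_pos]
    have h9 := Real.add_one_le_exp ((Uf (S.W ω) w 0 - Uf (S.W ω) w (last E T ω)) / 32)
    have h10 := mul_le_mul_of_nonneg_left h8
      (Real.exp_pos ((Uf (S.W ω) w 0 - Uf (S.W ω) w (last E T ω)) / 32)).le
    linarith
  have h7 : Integrable (fun ω => Uf (S.W ω) w 0 - Uf (S.W ω) w (last E T ω)) P :=
    (h1.const_mul 64).mono' h4.aestronglyMeasurable (Eventually.of_forall fun ω => by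
      rw [Real.norm_of_nonneg (h5 ω)]
      exact h6 ω)
  refine ⟨h4, h5, h7, (integral_mono h7 (h1.const_mul 64) h6).trans_eq ?_⟩
  rw [integral_const_mul, h2, mul_one]

theorem sq_le (hS : SI) (hP : STP) (hI : ITO) {η η' : ℝ} {E E' : ℝ → Set Θ} (hw : w ∈ HH)
    (hη : 0 < η) (hη' : 0 < η') (hE : Stp S w η E) (hE' : Stp S w η' E')
    (hs : ∀ s, 0 ≤ s → E' s ⊆ E s) (T : ℕ) :
    Integrable (fun ω => ((NN (S.X ω) (S.O ω) w (last E T ω)).im -
      (NN (S.X ω) (S.O ω) w (last E' T ω)).im) ^ 2) P ∧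
    ∫ ω, ((NN (S.X ω) (S.O ω) w (last E T ω)).im -
      (NN (S.X ω) (S.O ω) w (last E' T ω)).im) ^ 2 ∂P ≤
      ∫ ω, ((Uf (S.W ω) w 0 - Uf (S.W ω) w (last E T ω)) -
        (Uf (S.W ω) w 0 - Uf (S.W ω) w (last E' T ω))) ∂P := by
  obtain ⟨h1, h2⟩ := hI Θ m P S w η E hw hη hE T
  obtain ⟨h1', h2'⟩ := hI Θ m P S w η' E' hw hη' hE' T
  obtain ⟨h3, h4⟩ := lim_sub h1 h1' h2 h2'
  obtain ⟨h5, h6⟩ := lim_map h3 h4 (Complex.ofRealCLM.comp Complex.imCLM) fun z => by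
    simpa using Complex.abs_im_le_norm z
  have h7 := (hS Θ m P S.toBSys _ h5 T).2 _ h6
  have e : ∀ ω, ((NN (S.X ω) (S.O ω) w (last E T ω)).im -
      (NN (S.X ω) (S.O ω) w (last E' T ω)).im) ^ 2 = ‖(Complex.ofRealCLM.comp Complex.imCLM)
        (-NN (S.X ω) (S.O ω) w (last E T ω) - -NN (S.X ω) (S.O ω) w (last E' T ω))‖ ^ 2 :=
    fun ω => by
      rw [ContinuousLinearMap.comp_apply, Complex.ofRealCLM_apply, Complex.norm_real,
        Real.norm_eq_abs, sq_abs]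
      simp
      ring
  simp only [e]
  refine ⟨(memLp_two_iff_integrable_sq_norm h7.1.1.1).1 h7.1.1,
    (h7.2.1 _ (Eventually.of_forall fun ω => ?_)).2⟩
  refine ((rate_lim S hP hw hη hE T ω).sub (rate_lim S hP hw hη' hE' T ω)).congr fun n => ?_
  rw [← mul_sub, ← Finset.sum_sub_distrib]
  congr 1
  refine Finset.sum_congr rfl fun i _ => ?_
  by_cases h : ω ∈ E' (tt n i)
  · have h8 : ω ∈ E (tt n i) := hs _ (by unfold tt; positivity) h
    simp only [arr, indicator_of_mem h, indicator_of_mem h8, sub_self, map_zero, norm_zero]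
    simp
  · simp only [arr, indicator_of_notMem h, sub_zero]
    simp

variable (w)

/-- alive and not too low, before the time `k` -/
def FF (k : ℕ) (s : ℝ) : Set Θ := {ω | s ≤ k ∧ ω ∈ EE S w 0 0 k s}

/-- the deviation after the time of leaving `FF k` -/
noncomputable def dev (k : ℕ) (ω : Θ) (v : ℝ) : ℝ :=
  |(NN (S.X ω) (S.O ω) w v).im - (NN (S.X ω) (S.O ω) w (last (FF S w k) v ω)).im|

/-- the deviation has been small so far -/
def GG (δ : ℝ) (k l : ℕ) (s : ℝ) : Set Θ :=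
  {ω | ω ∈ FF S w l s ∧ ∀ v ∈ Icc 0 s, dev S w k ω v ≤ δ}

theorem stpF (hM : MEAS) (k : ℕ) : Stp S w (1 / ((k : ℝ) + 1)) (FF S w k) := by
  have h := stp S w 0 0 hM k
  refine ⟨fun s hs => ?_, fun s t hs hst ω h1 => ⟨hst.trans h1.1, h.anti s t hs hst h1.2⟩,
    fun s hs ω h1 => h.good s hs ω h1.2⟩
  exact MeasurableSet.inter (m := S.F s) (MeasurableSet.const (s ≤ (k : ℝ))) (h.ad s hs)

theorem FF_mono {k l : ℕ} (h : k ≤ l) (s : ℝ) : FF S w k s ⊆ FF S w l s := fun _ h1 =>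
  ⟨h1.1.trans (Nat.cast_le.2 h), h1.2.1, le_trans (Nat.one_div_le_one_div h) h1.2.2.1, h1.2.2.2⟩

variable {w}

theorem ev_FF {ω : Θ} {t : ℝ} (ht : t ∈ life (S.W ω) w) : ∀ᶠ k in atTop, ω ∈ FF S w k t := by
  filter_upwards [(tendsto_one_div_add_atTop_nhds_zero_nat (𝕜 := ℝ)).eventually
    (ge_mem_nhds (Zf_im_pos ht.1 ht.2)), tendsto_natCast_atTop_atTop.eventually_ge_atTop t]
    with k h1 h2
  exact ⟨h2, ht.2, h1, fun u _ => by simp⟩

theorem last_le_last (hP : STP) {η η' : ℝ} {E E' : ℝ → Set Θ} (hw : w ∈ HH)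
    (hη : 0 < η) (hη' : 0 < η') (hE : Stp S w η E) (hE' : Stp S w η' E') {T T' : ℝ} (hT : 0 ≤ T)
    (hT' : 0 ≤ T') {ω : Θ} (hs : ∀ s, 0 ≤ s → s < last E' T' ω → ω ∈ E' s → s ≤ T ∧ ω ∈ E s) :
    last E' T' ω ≤ last E T ω := by
  have h1 := ((hP Θ m P S w η E hw hη hE).1 T hT).1 ω
  have h2 := ((hP Θ m P S w η' E' hw hη' hE').1 T' hT').1 ω
  refine le_of_forall_lt_imp_le_of_dense fun s h => (le_total s 0).elim (·.trans h1.1.1) fun h0 => ?_
  have h3 := hs s h0 h (h2.2.2.1 s h0 h)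
  exact h1.2.2.2 s ⟨h0, h3.1⟩ h3.2

theorem last_min (hP : STP) {η : ℝ} {E : ℝ → Set Θ} (hw : w ∈ HH) (hη : 0 < η)
    (hE : Stp S w η E) {v s : ℝ} (hv : v ∈ Icc 0 s) (ω : Θ) :
    last E v ω = min v (last E s ω) := by
  have h1 := ((hP Θ m P S w η E hw hη hE).1 v hv.1).1 ω
  have h2 := ((hP Θ m P S w η E hw hη hE).1 s (hv.1.trans hv.2)).1 ω
  refine le_antisymm (le_min h1.2.1 (last_le_last S hP hw hη hη hE hE (hv.1.trans hv.2) hv.1
    fun u _ h h' => ⟨(h.le.trans h1.2.1).trans hv.2, h'⟩)) ?_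
  refine le_of_forall_lt_imp_le_of_dense fun u h => (le_total u 0).elim (·.trans h1.1.1) fun h0 => ?_
  exact h1.2.2.2 u ⟨h0, (lt_min_iff.1 h).1.le⟩ (h2.2.2.1 u h0 (lt_min_iff.1 h).2)

theorem dev_cont (hP : STP) (hM : MEAS) (hw : w ∈ HH) (k : ℕ) {ω : Θ} {s : ℝ}
    (hs : s ∈ life (S.W ω) w) : ContinuousOn (dev S w k ω) (Icc 0 s) := by
  have h1 := Complex.continuous_im.comp_continuousOn (NN_cont (S.cont ω) (S.contO ω) hs.1 hs.2)
  have h2 := (((hP Θ m P S w _ _ hw Nat.one_div_pos_of_nat (stpF S w hM k)).1 s hs.1).1 ω).1.1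
  have h3 : ContinuousOn (fun v => min v (last (FF S w k) s ω)) (Icc 0 s) := by fun_prop
  refine ((h1.sub (h1.comp h3 fun v hv => ⟨le_min hv.1 h2, min_le_of_left_le hv.2⟩)).abs).congr
    fun v hv => ?_
  rw [dev, last_min S hP hw Nat.one_div_pos_of_nat (stpF S w hM k) hv]
  rfl

theorem meas_aux {Θ : Type} (_ : MeasurableSpace Θ) {W : Θ → ℝ → ℝ} {X : Θ → ℝ} {N : Θ → ℂ} {v : ℝ}
    (h1 : Measurable fun p : Θ × ℂ => Zf (W p.1) p.2 v) (h2 : Measurable N) (h3 : Measurable X)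
    (δ : ℝ) : MeasurableSet {ω | |(Complex.log (Zf (W ω) w v) - Complex.log (Zf (W ω) w v +
      (X ω : ℂ))).im - (N ω).im| ≤ δ} := by
  have hp : Measurable fun ω : Θ => (ω, w) := measurable_id.prodMk measurable_const
  have hZ : Measurable fun ω => Zf (W ω) w v := h1.comp hp
  exact measurableSet_le ((Complex.measurable_im.comp (hZ.clog.sub (hZ.add
    (Complex.measurable_ofReal.comp h3)).clog)).sub (Complex.measurable_im.comp h2)).abs
    measurable_const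

theorem stpG (hP : STP) (hM : MEAS) (hw : w ∈ HH) (δ : ℝ) (k l : ℕ) :
    Stp S w (1 / ((l : ℝ) + 1)) (GG S w δ k l) := by
  have h := stpF S w hM l
  refine ⟨fun s hs => ?_, fun s t hs hst ω h1 => ⟨h.anti s t hs hst h1.1,
    fun v hv => h1.2 v ⟨hv.1, hv.2.trans hst⟩⟩, fun s hs ω h1 => h.good s hs ω h1.1⟩
  obtain ⟨D, hD, hDc, hDd⟩ :=
    (TopologicalSpace.IsSeparable.of_separableSpace (Icc 0 s)).exists_countable_dense_subset
  have e : GG S w δ k l s = FF S w l s ∩ ⋂ v ∈ D, {ω | dev S w k ω v ≤ δ} := by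
    ext ω
    rw [mem_inter_iff, mem_iInter₂]
    refine ⟨fun h1 => ⟨h1.1, fun v hv => h1.2 v (hD hv)⟩, fun h1 => ⟨h1.1, fun v hv => ?_⟩⟩
    exact le_on_closure h1.2 ((dev_cont S hP hM hw k ⟨hs, h1.1.2.1⟩).mono
      (closure_minimal hD isClosed_Icc)) continuousOn_const (hDd hv)
  rw [e]
  refine MeasurableSet.inter (m := S.F s) (h.ad s hs) (MeasurableSet.biInter hDc fun v hv => ?_)
  have hv := hD hv
  have hX : ∀ u ≤ s, Measurable[S.F s] fun ω => S.X ω u := fun u hu =>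
    (S.ad u).mono (S.F.mono hu) le_rfl
  have hW : ∀ u ≤ s, Measurable[S.F s] fun ω => S.W ω u := fun u hu =>
    Measurable.add (m := S.F s) ((S.adO u).mono (S.F.mono hu) le_rfl) (hX u hu)
  have h1 := (hM Θ (S.F s) S.W v hv.1 (contW S) fun u hu => hW u (hu.2.trans hv.2)).2.1
  have h2 := (((hP Θ m P S w _ _ hw Nat.one_div_pos_of_nat (stpF S w hM k)).1 v
    hv.1).2.2.1).mono (S.F.mono hv.2) le_rfl
  have h3 := hX v hv.2
  exact meas_aux (S.F s) h1 h2 h3 δ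

theorem FF_sub_GG (hP : STP) (hM : MEAS) (hw : w ∈ HH) {δ : ℝ} (hδ : 0 ≤ δ) {k l : ℕ} (h : k ≤ l)
    (s : ℝ) (_ : 0 ≤ s) : FF S w k s ⊆ GG S w δ k l s := fun ω h1 => by
  refine ⟨FF_mono S w h s h1, fun v hv => ?_⟩
  have h2 := ((hP Θ m P S w _ _ hw Nat.one_div_pos_of_nat (stpF S w hM k)).1 v hv.1).1 ω
  rw [dev, le_antisymm h2.2.1 (h2.2.2.2 v ⟨hv.1, le_rfl⟩ ((stpF S w hM k).anti v s hv.1 hv.2 h1)),
    sub_self, abs_zero]
  exact hδ

theorem hit (hP : STP) (hM : MEAS) (hw : w ∈ HH) {δ : ℝ} (hδ : 0 ≤ δ) {k l : ℕ} (h : k ≤ l)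
    {ω : Θ} {v : ℝ} (hv : 0 ≤ v) (h1 : ω ∈ FF S w l v) (h2 : δ < dev S w k ω v) :
    δ ≤ |(NN (S.X ω) (S.O ω) w (last (GG S w δ k l) l ω)).im -
      (NN (S.X ω) (S.O ω) w (last (FF S w k) l ω)).im| := by
  have hG := stpG S hP hM hw δ k l
  have hF := stpF S w hM k
  have h3 := ((hP Θ m P S w _ _ hw Nat.one_div_pos_of_nat hG).1 l l.cast_nonneg).1 ω
  have h4 : last (FF S w k) l ω ≤ last (GG S w δ k l) l ω :=
    last_le_last S hP hw Nat.one_div_pos_of_nat Nat.one_div_pos_of_nat hG hF l.cast_nonneg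
      l.cast_nonneg fun s hs _ h5 => ⟨h5.1.trans (Nat.cast_le.2 h), FF_sub_GG S hP hM hw hδ h s hs h5⟩
  generalize last (GG S w δ k l) l ω = τ at h3 h4 ⊢
  have h5 : τ ≤ v := not_lt.1 fun h5 => not_le.2 h2 ((h3.2.2.1 v hv h5).2 v ⟨hv, le_rfl⟩)
  have h6 : last (FF S w k) τ ω = last (FF S w k) l ω := by
    rw [last_min S hP hw Nat.one_div_pos_of_nat hF ⟨h3.1.1, h3.2.1⟩, min_eq_right h4]
  rw [← h6]
  change δ ≤ dev S w k ω τ
  by_contra h7
  have h8 : τ < v := h5.lt_of_ne fun h8 => h7 (h8 ▸ h2.le)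
  have h9 : ∀ᶠ u in 𝓝[Icc 0 v] τ, dev S w k ω u < δ :=
    (dev_cont S hP hM hw k ⟨hv, h1.2.1⟩ τ ⟨h3.1.1, h5⟩).eventually (gt_mem_nhds (not_le.1 h7))
  obtain ⟨ε, hε, h10⟩ := Metric.eventually_nhds_iff.1 (eventually_nhdsWithin_iff.1 h9)
  have h11 : τ < min v (τ + ε / 2) := lt_min h8 (by linarith)
  have h12 := min_le_left v (τ + ε / 2)
  have h13 := min_le_right v (τ + ε / 2)
  generalize min v (τ + ε / 2) = t at h11 h12 h13
  have h14 : 0 ≤ t := h3.1.1.trans h11.le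
  refine not_le.2 h11 (h3.2.2.2 t ⟨h14, h12.trans h1.1⟩
    ⟨(stpF S w hM l).anti t v h14 h12 h1, fun u hu => ?_⟩)
  rcases lt_or_ge u τ with h15 | h15
  · exact (h3.2.2.1 u hu.1 h15).2 u ⟨hu.1, le_rfl⟩
  · refine (h10 ?_ ⟨hu.1, hu.2.trans h12⟩).le
    rw [Real.dist_eq, abs_of_nonneg (sub_nonneg.2 h15)]
    linarith [hu.2]

variable (w)

/-- the decrease of the logarithm of the conformal radius until the time of leaving `FF k` -/
noncomputable def AA (k : ℕ) (ω : Θ) : ℝ :=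
  Uf (S.W ω) w 0 - Uf (S.W ω) w (last (FF S w k) k ω)

variable {w}

theorem prob_le (hS : SI) (hP : STP) (hI : ITO) (hM : MEAS) (hw : w ∈ HH) {δ : ℝ} (hδ : 0 < δ)
    {k l : ℕ} (h : k ≤ l) :
    P {ω | ∃ v, 0 ≤ v ∧ ω ∈ FF S w l v ∧ δ < dev S w k ω v} ≤
      ENNReal.ofReal ((∫ ω, AA S w l ω ∂P - ∫ ω, AA S w k ω ∂P) / δ ^ 2) := by
  have := S.prob
  have hG := stpG S hP hM hw δ k l
  have hF := stpF S w hM
  have h0 := fun k : ℕ => Nat.one_div_pos_of_nat (α := ℝ) (n := k)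
  obtain ⟨h1, h2⟩ := sq_le S hS hP hI hw (h0 l) (h0 k) hG (hF k) (FF_sub_GG S hP hM hw hδ.le h) l
  have h3 := mul_meas_ge_le_integral_of_nonneg (Eventually.of_forall fun ω => sq_nonneg _) h1
    (δ ^ 2)
  have h4 := mean_le S hS hP hI hw (h0 l) hG l
  have h5 := fun k (l : ℕ) => mean_le S hS hP hI hw (h0 k) (hF k) l
  have h6 := fun k (l : ℕ) ω => (((hP Θ m P S w _ _ hw (h0 k) (hF k)).1 l l.cast_nonneg).1 ω).1
  have h7 := integral_mono h4.2.2.1 (h5 l l).2.2.1 fun ω => sub_le_sub_left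
    (Uf_le (contW S ω) (((hP Θ m P S w _ _ hw (h0 l) hG).1 l l.cast_nonneg).1 ω).1.1
      (last_le_last S hP hw (h0 l) (h0 l) (hF l) hG l.cast_nonneg l.cast_nonneg
        fun s _ _ h7 => ⟨h7.1.1, h7.1⟩) (h6 l l ω).2) _
  have h8 := integral_mono (h5 k k).2.2.1 (h5 k l).2.2.1 fun ω => sub_le_sub_left
    (Uf_le (contW S ω) (h6 k k ω).1
      (last_le_last S hP hw (h0 k) (h0 k) (hF k) (hF k) l.cast_nonneg k.cast_nonneg
        fun s _ _ h7 => ⟨h7.1.trans (Nat.cast_le.2 h), h7⟩) (h6 k l ω).2) _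
  rw [integral_sub h4.2.2.1 (h5 k l).2.2.1] at h2
  refine (measure_mono (t := {ω | δ ^ 2 ≤ ((NN (S.X ω) (S.O ω) w (last (GG S w δ k l) l ω)).im -
    (NN (S.X ω) (S.O ω) w (last (FF S w k) l ω)).im) ^ 2}) ?_).trans ?_
  · rintro ω ⟨v, h9, h10, h11⟩
    have h12 := pow_le_pow_left₀ hδ.le (hit S hP hM hw hδ.le h h9 h10 h11) 2
    rwa [sq_abs] at h12
  · rw [← ofReal_measureReal]
    refine ENNReal.ofReal_le_ofReal ((le_div_iff₀' (by positivity)).2 ?_)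
    unfold AA
    linarith

theorem AA_mono (hP : STP) (hM : MEAS) (hw : w ∈ HH) (ω : Θ) : Monotone fun k => AA S w k ω :=
  fun k l h => by
  have hF := stpF S w hM
  have h0 := fun k : ℕ => Nat.one_div_pos_of_nat (α := ℝ) (n := k)
  have h6 := fun k : ℕ => (((hP Θ m P S w _ _ hw (h0 k) (hF k)).1 k k.cast_nonneg).1 ω).1
  exact sub_le_sub_left (Uf_le (contW S ω) (h6 k).1
    (last_le_last S hP hw (h0 l) (h0 k) (hF l) (hF k) l.cast_nonneg k.cast_nonneg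
      fun s _ _ h7 => ⟨h7.1.trans (Nat.cast_le.2 h), FF_mono S w h s h7⟩) (h6 l).2) _

theorem small (hS : SI) (hP : STP) (hI : ITO) (hM : MEAS) (hw : w ∈ HH) {δ : ℝ} (hδ : 0 < δ) :
    ∀ᵐ ω ∂P, ∃ k, ∀ v ∈ life (S.W ω) w, dev S w k ω v ≤ δ := by
  have h1 := fun k : ℕ => mean_le S hS hP hI hw Nat.one_div_pos_of_nat (stpF S w hM k) k
  have h2 : Monotone fun k => ∫ ω, AA S w k ω ∂P := fun k l h =>
    integral_mono (h1 k).2.2.1 (h1 l).2.2.1 fun ω => AA_mono S hP hM hw ω h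
  have h3 : BddAbove (range fun k => ∫ ω, AA S w k ω ∂P) := ⟨64, by
    rintro _ ⟨k, rfl⟩
    exact (h1 k).2.2.2⟩
  have h4 := ENNReal.tendsto_ofReal (((tendsto_atTop_ciSup h2 h3).const_sub
    (⨆ k, ∫ ω, AA S w k ω ∂P)).div_const (δ ^ 2))
  rw [sub_self, zero_div, ENNReal.ofReal_zero] at h4
  rw [ae_iff]
  refine le_antisymm (ge_of_tendsto' h4 fun k => ?_) zero_le
  have h5 : Monotone fun l : ℕ =>
      {ω | ∃ v, 0 ≤ v ∧ ω ∈ FF S w (k + l) v ∧ δ < dev S w k ω v} := fun l l' h ω h6 => by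
    obtain ⟨v, h7, h8, h9⟩ := h6
    exact ⟨v, h7, FF_mono S w (Nat.add_le_add_left h k) v h8, h9⟩
  refine (measure_mono (t := ⋃ l : ℕ,
    {ω | ∃ v, 0 ≤ v ∧ ω ∈ FF S w (k + l) v ∧ δ < dev S w k ω v}) fun ω h6 => ?_).trans ?_
  · obtain ⟨v, h7⟩ := not_forall.1 (not_exists.1 h6 k)
    obtain ⟨h7, h8⟩ := Classical.not_imp.1 h7
    obtain ⟨l, h9⟩ := (ev_FF S h7).exists
    exact mem_iUnion.2 ⟨l, v, h7.1, FF_mono S w (Nat.le_add_left l k) v h9, not_le.1 h8⟩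
  · rw [h5.measure_iUnion]
    refine iSup_le fun l => (prob_le S hS hP hI hM hw hδ (Nat.le_add_right k l)).trans
      (ENNReal.ofReal_le_ofReal ?_)
    exact div_le_div_of_nonneg_right (sub_le_sub_right (le_ciSup h3 (k + l)) _) (sq_nonneg δ)

theorem bdd (hS : SI) (hP : STP) (hI : ITO) (hM : MEAS) (hw : w ∈ HH) :
    ∀ᵐ ω ∂P, ∃ c, ∀ t ∈ life (S.W ω) w, c ≤ Uf (S.W ω) w t := by
  have h1 := fun k : ℕ => mean_le S hS hP hI hw Nat.one_div_pos_of_nat (stpF S w hM k) k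
  have h2 : ∀ k, Measurable fun ω => ENNReal.ofReal (AA S w k ω) := fun k => (h1 k).1.ennreal_ofReal
  have h3 : ∫⁻ ω, ⨆ k, ENNReal.ofReal (AA S w k ω) ∂P ≤ ENNReal.ofReal 64 := by
    rw [lintegral_iSup h2 fun k l h ω => ENNReal.ofReal_le_ofReal (AA_mono S hP hM hw ω h)]
    refine iSup_le fun k => ?_
    unfold AA
    rw [← ofReal_integral_eq_lintegral_ofReal (h1 k).2.2.1 (Eventually.of_forall (h1 k).2.1)]
    exact ENNReal.ofReal_le_ofReal (h1 k).2.2.2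
  filter_upwards [ae_lt_top (Measurable.iSup h2) (h3.trans_lt ENNReal.ofReal_lt_top).ne] with ω h4
  refine ⟨Uf (S.W ω) w 0 - (⨆ k, ENNReal.ofReal (AA S w k ω)).toReal, fun t ht => ?_⟩
  obtain ⟨k, h5⟩ := (ev_FF S ht).exists
  have h6 := ((hP Θ m P S w _ _ hw Nat.one_div_pos_of_nat (stpF S w hM k)).1 k k.cast_nonneg).1 ω
  have h7 := Uf_le (contW S ω) ht.1 (h6.2.2.2 t ⟨ht.1, h5.1⟩ h5) h6.1.2
  have h8 := (ENNReal.ofReal_le_iff_le_toReal h4.ne).1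
    (le_iSup (fun k => ENNReal.ofReal (AA S w k ω)) k)
  rw [AA] at h8
  linarith

end One1

open One1 One2 in
theorem one1_of (hS : SI) (hP : STP) (hI : ITO) (hM : MEAS) : ONE1 := by
  intro Θ m P S w hw
  filter_upwards [bdd S hS hP hI hM hw, ae_all_iff.2 fun j : ℕ =>
    small S hS hP hI hM hw (Nat.one_div_pos_of_nat (n := j))] with ω h1 h2
  refine ⟨h1, ?_⟩
  have : Nonempty (life (S.W ω) w) := ⟨⟨0, le_rfl, dom_zero.2 hw⟩⟩
  have h3 : CauchySeq fun t : life (S.W ω) w => (NN (S.X ω) (S.O ω) w t).im := by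
    refine Metric.cauchySeq_iff'.2 fun ε hε => ?_
    obtain ⟨j, hj⟩ := exists_nat_one_div_lt hε
    obtain ⟨k, hk⟩ := h2 j
    have h4 := ((hP Θ m P S w _ _ hw Nat.one_div_pos_of_nat (stpF S w hM k)).1 k k.cast_nonneg).1 ω
    refine ⟨⟨_, h4.1⟩, fun t ht => lt_of_le_of_lt (le_trans (le_of_eq ?_) (hk t t.2)) hj⟩
    have h5 : last (FF S w k) t ω = last (FF S w k) k ω := le_antisymm
      (last_le_last S hP hw Nat.one_div_pos_of_nat Nat.one_div_pos_of_nat (stpF S w hM k)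
        (stpF S w hM k) k.cast_nonneg t.2.1 fun s _ _ h => ⟨h.1, h⟩)
      (last_le_last S hP hw Nat.one_div_pos_of_nat Nat.one_div_pos_of_nat (stpF S w hM k)
        (stpF S w hM k) t.2.1 k.cast_nonneg fun s _ h h' => ⟨h.le.trans ht, h'⟩)
    rw [dev, h5, Real.dist_eq]
  obtain ⟨a, ha⟩ := cauchySeq_tendsto_of_complete h3
  refine ⟨a / Real.pi, (ha.div_const Real.pi).congr fun t => ?_⟩
  rw [(im_NN t.2).1, mul_div_cancel_left₀ _ Real.pi_ne_zero]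

end Vale.Agent.P155.Tree
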