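import Vale.Agent.P155Z.Sk

/-!
# P155, branching exploration: almost sure properties of the Brownian paths
-/

namespace Vale.Agent.P155.Tree

open MeasureTheory Filter Topology ProbabilityTheory Set

namespace PathP

theorem gauss_scale (c : ℝ) :
    HasLaw (fun x : ℝ => c * x) (gaussianReal 0 (c ^ 2).toNNReal) (gaussianReal 0 1) := by
  refine ⟨by fun_prop, ?_⟩
  rw [gaussianReal_map_const_mul, mul_zero, mul_one]
  congr 1
  ext
  simp [Real.toNNReal, sq_nonneg]

theorem memLp_sq (v : NNReal) : MemLp (fun x : ℝ => x ^ 2) 2 (gaussianReal 0 v) := by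
  rw [memLp_two_iff_integrable_sq (by fun_prop)]
  have h := integrable_pow_of_mem_interior_integrableExpSet (X := id) (μ := gaussianReal 0 v)
    (by simp) 4
  refine h.congr (ae_of_all _ fun x => ?_)
  simp only [id]
  ring

theorem int_sq (v : NNReal) : ∫ x, x ^ 2 ∂gaussianReal 0 v = v := by
  have h := variance_fun_id_gaussianReal (μ := 0) (v := v)
  rw [variance_eq_integral measurable_id'.aemeasurable] at h
  simpa using h

/-- the variance of the square of a standard Gaussian variable -/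
noncomputable def c0 : ℝ := Var[fun x : ℝ => x ^ 2; gaussianReal 0 1]

theorem var_sq {v : ℝ} (hv : 0 ≤ v) :
    Var[fun x : ℝ => x ^ 2; gaussianReal 0 v.toNNReal] = v ^ 2 * c0 := by
  have h := gauss_scale (√v)
  rw [Real.sq_sqrt hv] at h
  rw [← h.map_eq, variance_map (by fun_prop) (by fun_prop), c0, ← variance_const_mul]
  congr 1
  ext x
  simp [mul_pow, Real.sq_sqrt hv]

variable {Θ : Type} [m : MeasurableSpace Θ] {P : Measure Θ} (S : BSys P)

theorem meas_X (t : ℝ) : Measurable fun ω => S.X ω t := (S.ad t).mono (S.F.le t) le_rfl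

theorem tt_nonneg (n i : ℕ) : 0 ≤ tt n i := by
  unfold tt
  positivity

theorem tt_mono (n : ℕ) {i j : ℕ} (h : i ≤ j) : tt n i ≤ tt n j := by
  unfold tt
  gcongr

theorem law_dx (n i : ℕ) :
    HasLaw (fun ω => dx (S.X ω) n i) (gaussianReal 0 (4 / 2 ^ n : ℝ).toNNReal) P := by
  have h := S.law _ _ (tt_nonneg n i) (tt_mono n (Nat.le_succ i))
  have e : 4 * (tt n (i + 1) - tt n i) = 4 / 2 ^ n := by
    unfold tt
    push_cast
    ring
  rw [e] at h
  exact h

theorem indep_dx (n : ℕ) {i j : ℕ} (h : i < j) :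
    IndepFun (fun ω => dx (S.X ω) n i ^ 2) (fun ω => dx (S.X ω) n j ^ 2) P := by
  have h1 := S.indep _ _ (tt_nonneg n j) (tt_mono n (Nat.le_succ j))
  have h2 : Measurable[S.F (tt n j)] fun ω => dx (S.X ω) n i :=
    ((S.ad _).mono (S.F.mono (tt_mono n h)) le_rfl).sub
      ((S.ad _).mono (S.F.mono (tt_mono n h.le)) le_rfl)
  have h3 : IndepFun (fun ω => dx (S.X ω) n i) (fun ω => dx (S.X ω) n j) P :=
    (IndepFun_iff_Indep _ _ _).2 (indep_of_indep_of_le_left h1 h2.comap_le)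
  exact h3.comp (measurable_id.pow_const 2) (measurable_id.pow_const 2)

theorem cheb (n k : ℕ) {c : ℝ} (hc : 0 < c) :
    P {ω | c ≤ |∑ i ∈ Finset.range k, dx (S.X ω) n i ^ 2 - k * (4 / 2 ^ n)|} ≤
      ENNReal.ofReal (k * ((4 / 2 ^ n) ^ 2 * c0) / c ^ 2) := by
  have := S.prob
  have hv : (0 : ℝ) ≤ 4 / 2 ^ n := by positivity
  have h1 : ∀ i, MemLp (fun ω => dx (S.X ω) n i ^ 2) 2 P := fun i => by
    have h := memLp_sq (4 / 2 ^ n : ℝ).toNNReal
    rw [← (law_dx S n i).map_eq] at h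
    exact h.comp_of_map (law_dx S n i).aemeasurable
  have h2 := IndepFun.variance_sum (μ := P) (X := fun i ω => dx (S.X ω) n i ^ 2)
    (s := Finset.range k) (fun i _ => h1 i) (fun i _ j _ hij => by
      rcases lt_or_gt_of_ne hij with h | h
      · exact indep_dx S n h
      · exact (indep_dx S n h).symm)
  have h3 : ∀ i, Var[fun ω => dx (S.X ω) n i ^ 2; P] = (4 / 2 ^ n) ^ 2 * c0 := fun i => by
    rw [← var_sq hv, ← (law_dx S n i).map_eq,
      variance_map (by fun_prop) (law_dx S n i).aemeasurable]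
    rfl
  have h4 : ∀ i, ∫ ω, dx (S.X ω) n i ^ 2 ∂P = 4 / 2 ^ n := fun i => by
    have h := (law_dx S n i).integral_comp (f := fun x : ℝ => x ^ 2) (by fun_prop)
    rw [int_sq, Real.coe_toNNReal _ hv] at h
    exact h
  have h5 := meas_ge_le_variance_div_sq
    (memLp_finsetSum' (Finset.range k) (fun i _ => h1 i)) hc
  rw [h2] at h5
  simp only [h3, Finset.sum_const, Finset.card_range, nsmul_eq_mul, Finset.sum_apply] at h5
  rw [integral_finsetSum _ (fun i _ => (h1 i).integrable one_le_two)] at h5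
  simpa only [h4, Finset.sum_const, Finset.card_range, nsmul_eq_mul] using h5

theorem floor_lim {t : ℝ} (ht : 0 ≤ t) :
    Tendsto (fun n : ℕ => (⌊t * 2 ^ n⌋₊ : ℝ) * (4 / 2 ^ n)) atTop (𝓝 (4 * t)) := by
  have h1 : Tendsto (fun n : ℕ => (2 : ℝ) ^ n) atTop atTop :=
    tendsto_pow_atTop_atTop_of_one_lt one_lt_two
  have h2 := ((tendsto_nat_floor_mul_div_atTop ht).comp h1).const_mul 4
  refine h2.congr fun n => ?_
  simp only [Function.comp]
  ring

theorem qv_at {t : ℝ} (ht : 0 ≤ t) : ∀ᵐ ω ∂P,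
    Tendsto (fun n => ∑ i ∈ Finset.range ⌊t * 2 ^ n⌋₊, dx (S.X ω) n i ^ 2) atTop (𝓝 (4 * t)) := by
  have hc : 0 ≤ c0 := variance_nonneg _ _
  have h1 : ∀ n : ℕ, P {ω | (3 / 4 : ℝ) ^ n ≤ |∑ i ∈ Finset.range ⌊t * 2 ^ n⌋₊,
      dx (S.X ω) n i ^ 2 - ⌊t * 2 ^ n⌋₊ * (4 / 2 ^ n)|} ≤
      ENNReal.ofReal (16 * t * c0 * (8 / 9) ^ n) := fun n => by
    refine (cheb S n _ (by positivity)).trans (ENNReal.ofReal_le_ofReal ?_)
    have h2 : (⌊t * 2 ^ n⌋₊ : ℝ) ≤ t * 2 ^ n := Nat.floor_le (by positivity)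
    have h3 : (8 / 9 : ℝ) ^ n * ((3 / 4) ^ n) ^ 2 * 2 ^ n = 1 := by
      rw [← pow_mul, mul_comm n 2, pow_mul, ← mul_pow, ← mul_pow]
      norm_num
    rw [div_le_iff₀ (by positivity)]
    refine (mul_le_mul_of_nonneg_right h2 (by positivity)).trans (le_of_eq ?_)
    have h4 : t * 2 ^ n * ((4 / 2 ^ n) ^ 2 * c0) = 16 * t * c0 / 2 ^ n := by
      field_simp
      ring
    rw [h4, div_eq_iff (by positivity)]
    linear_combination (-(16 * t * c0)) * h3
  have h2 : Summable fun n : ℕ => 16 * t * c0 * (8 / 9 : ℝ) ^ n :=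
    (summable_geometric_of_lt_one (by norm_num) (by norm_num)).mul_left _
  have h3 := ae_eventually_notMem (μ := P) (ne_top_of_le_ne_top h2.tsum_ofReal_ne_top
    (ENNReal.tsum_le_tsum h1))
  filter_upwards [h3] with ω hω
  have h4 : Tendsto (fun n : ℕ => ∑ i ∈ Finset.range ⌊t * 2 ^ n⌋₊,
      dx (S.X ω) n i ^ 2 - ⌊t * 2 ^ n⌋₊ * (4 / 2 ^ n)) atTop (𝓝 0) := by
    refine squeeze_zero_norm' (a := fun n => (3 / 4 : ℝ) ^ n) ?_
      (tendsto_pow_atTop_nhds_zero_of_lt_one (by norm_num) (by norm_num))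
    filter_upwards [hω] with n hn
    exact (not_le.1 hn).le
  simpa using h4.add (floor_lim ht)

theorem hasQV_of_rat {x : ℝ → ℝ} (h : ∀ t : ℚ, 0 ≤ (t : ℝ) →
    Tendsto (fun n => ∑ i ∈ Finset.range ⌊(t : ℝ) * 2 ^ n⌋₊, dx x n i ^ 2) atTop (𝓝 (4 * t))) :
    HasQV x := by
  intro t ht
  have hm : ∀ (n : ℕ) (a b : ℝ), a ≤ b → ∑ i ∈ Finset.range ⌊a * 2 ^ n⌋₊, dx x n i ^ 2 ≤
      ∑ i ∈ Finset.range ⌊b * 2 ^ n⌋₊, dx x n i ^ 2 := fun n a b hab =>
    Finset.sum_le_sum_of_subset_of_nonneg (Finset.range_mono (Nat.floor_mono (by gcongr)))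
      fun i _ _ => sq_nonneg _
  refine tendsto_order.2 ⟨fun a ha => ?_, fun b hb => ?_⟩
  · rcases lt_or_ge a 0 with h0 | h0
    · exact Eventually.of_forall fun n => h0.trans_le (Finset.sum_nonneg fun i _ => sq_nonneg _)
    · obtain ⟨q, hq1, hq2⟩ := exists_rat_btwn (show a / 4 < t by linarith)
      filter_upwards [(tendsto_order.1 (h q (by linarith))).1 a (by linarith)] with n hn
      exact hn.trans_le (hm n _ _ hq2.le)
  · obtain ⟨q, hq1, hq2⟩ := exists_rat_btwn (show t < b / 4 by linarith)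
    filter_upwards [(tendsto_order.1 (h q (by linarith))).2 b (by linarith)] with n hn
    exact (hm n _ _ hq1.le).trans_lt hn

theorem ae_qv : ∀ᵐ ω ∂P, HasQV (S.X ω) := by
  have h : ∀ᵐ ω ∂P, ∀ t : ℚ, 0 ≤ (t : ℝ) → Tendsto (fun n =>
      ∑ i ∈ Finset.range ⌊(t : ℝ) * 2 ^ n⌋₊, dx (S.X ω) n i ^ 2) atTop (𝓝 (4 * t)) := by
    refine ae_all_iff.2 fun t => ?_
    by_cases ht : 0 ≤ (t : ℝ)
    · filter_upwards [qv_at S ht] with ω hω _ using hω
    · exact ae_of_all _ fun ω h => absurd h ht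
  filter_upwards [h] with ω hω using hasQV_of_rat hω

theorem ae_zero : ∀ᵐ ω ∂P, volume {s | 0 ≤ s ∧ S.X ω s = 0} = 0 := by
  have := S.prob
  have h1 : Measurable (Function.uncurry fun s ω => S.X ω s) :=
    measurable_uncurry_of_continuous_of_measurable S.cont (meas_X S)
  have h2 : MeasurableSet {p : Θ × ℝ | ¬ (0 ≤ p.2 ∧ S.X p.1 p.2 = 0)} :=
    ((measurableSet_le measurable_const measurable_snd).inter
      ((h1.comp measurable_swap) (measurableSet_singleton 0))).compl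
  have h3 : ∀ᵐ s ∂(volume : Measure ℝ), ∀ᵐ ω ∂P, ¬ (0 ≤ s ∧ S.X ω s = 0) := by
    filter_upwards [(volume : Measure ℝ).ae_ne 0] with s hs
    by_cases h0 : 0 ≤ s
    · have h4 := (S.law 0 s le_rfl h0).measure_eq (p := fun x => x = 0)
        (measurableSet_singleton 0)
      have h5 : (4 * (s - 0)).toNNReal ≠ 0 := by
        have := lt_of_le_of_ne h0 hs.symm
        simpa using this
      have := nullSingletonClass_gaussianReal (μ := 0) h5
      have h6 : gaussianReal 0 (4 * (s - 0)).toNNReal {x | x = 0} = 0 := measure_singleton 0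
      rw [h6] at h4
      refine measure_mono_null (fun ω hω => ?_) h4
      have h7 : 0 ≤ s ∧ S.X ω s = 0 := not_not.1 hω
      simp [h7.2, S.zero ω 0 le_rfl]
    · exact ae_of_all _ fun ω h => h0 h.1
  filter_upwards [(Measure.ae_ae_comm h2).2 h3] with ω hω
  simpa [ae_iff] using hω

theorem null_pos {σ : ℝ} (hσ : σ ≠ 0) (q : ℕ) :
    P {ω | ∀ n : ℕ, q ≤ n → 0 < σ * S.X ω n} = 0 := by
  have := S.prob
  set c := gaussianReal 0 1 {z : ℝ | -1 < σ * (2 * z)} with hc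
  have hmc : MeasurableSet {z : ℝ | -1 < σ * (2 * z)} :=
    measurableSet_lt measurable_const (by fun_prop)
  have hc1 : c < 1 := by
    refine lt_of_le_of_ne prob_le_one fun h => ?_
    have h1 := (prob_compl_eq_zero_iff hmc).2 h
    have h2 := gaussianReal_absolutelyContinuous' 0 (v := 1) one_ne_zero h1
    have h3 : IsOpen {z : ℝ | σ * (2 * z) < -1} := isOpen_lt (by fun_prop) continuous_const
    refine (h3.measure_pos volume ⟨-1 / σ, ?_⟩).ne' (measure_mono_null (fun z hz => ?_) h2)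
    · have : σ * (2 * (-1 / σ)) = -2 := by field_simp
      simp only [mem_ofPred_eq, this]
      norm_num
    · have h4 : σ * (2 * z) < -1 := hz
      exact not_lt.2 h4.le
  set A : ℕ → Set Θ := fun N => {ω | ∀ n : ℕ, q ≤ n → n ≤ N → 0 < σ * S.X ω n} with hA
  have hAF : ∀ N : ℕ, MeasurableSet[S.F N] (A N) := fun N => by
    have e : A N = ⋂ n : ℕ, ⋂ _ : q ≤ n, ⋂ _ : n ≤ N, {ω | 0 < σ * S.X ω n} := by
      ext ω
      simp [hA]
    rw [e]
    refine MeasurableSet.iInter fun n => MeasurableSet.iInter fun _ =>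
      MeasurableSet.iInter fun hn => ?_
    exact measurableSet_lt measurable_const
      (((S.ad n).mono (S.F.mono (Nat.cast_le.2 hn)) le_rfl).const_mul σ)
  set p := P {ω | ∀ n : ℕ, q ≤ n → 0 < σ * S.X ω n} with hp
  have h1 : ∀ N k : ℕ, q ≤ N → p ≤ P {ω | (k + 1 : ℝ) < σ * S.X ω N} + P (A N) * c := by
    intro N k hN
    have hM : (N : ℝ) ≤ (N + (k + 1) ^ 2 : ℕ) := by exact_mod_cast Nat.le_add_right _ _
    have hl := S.law N (N + (k + 1) ^ 2 : ℕ) (Nat.cast_nonneg N) hM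
    have hi := S.indep N (N + (k + 1) ^ 2 : ℕ) (Nat.cast_nonneg N) hM
    have hm : MeasurableSet {x : ℝ | -(k + 1 : ℝ) < σ * x} :=
      measurableSet_lt measurable_const (by fun_prop)
    have e : 4 * (((N + (k + 1) ^ 2 : ℕ) : ℝ) - N) = (2 * (k + 1)) ^ 2 := by
      push_cast
      ring
    rw [e] at hl
    have h2 := hl.measure_eq hm
    rw [← (gauss_scale (2 * (k + 1))).measure_eq hm] at h2
    have h3 : {z : ℝ | -(k + 1 : ℝ) < σ * (2 * (k + 1) * z)} = {z : ℝ | -1 < σ * (2 * z)} := by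
      ext z
      have hk : (0 : ℝ) < k + 1 := by positivity
      simp only [mem_ofPred_eq]
      constructor <;> intro h <;> nlinarith
    rw [h3, ← hc] at h2
    have h4 := (Indep_iff _ _ _).1 hi (A N) _ (hAF N) ⟨_, hm, rfl⟩
    rw [← h2]
    refine le_trans (measure_mono fun ω hω => ?_) ((measure_union_le _ _).trans
      (add_le_add le_rfl h4.le))
    by_cases h5 : (k + 1 : ℝ) < σ * S.X ω N
    · exact Or.inl h5
    · refine Or.inr ⟨fun n hn _ => hω n hn, ?_⟩
      have h6 := hω (N + (k + 1) ^ 2) (hN.trans (Nat.le_add_right _ _))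
      simp only [mem_preimage, mem_ofPred_eq, mul_sub]
      linarith [not_lt.1 h5]
  have h2 : ∀ N : ℕ, q ≤ N → p ≤ P (A N) * c := fun N hN => by
    have h3 := tendsto_measure_iInter_atTop (μ := P)
      (s := fun k : ℕ => {ω | (k + 1 : ℝ) < σ * S.X ω N})
      (fun k => (measurableSet_lt measurable_const ((meas_X S N).const_mul σ)).nullMeasurableSet)
      (fun k j hkj ω hω => by
        have : (k : ℝ) ≤ j := Nat.cast_le.2 hkj
        simp only [mem_ofPred_eq] at hω ⊢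
        linarith) ⟨0, measure_ne_top _ _⟩
    have h4 : ⋂ k : ℕ, {ω | (k + 1 : ℝ) < σ * S.X ω N} = ∅ := by
      refine eq_empty_of_forall_notMem fun ω hω => ?_
      obtain ⟨k, hk⟩ := exists_nat_gt (σ * S.X ω N)
      have h5 : (k + 1 : ℝ) < σ * S.X ω N := mem_iInter.1 hω k
      linarith
    rw [h4, measure_empty] at h3
    have h5 := ge_of_tendsto' (h3.add_const (P (A N) * c)) fun k => h1 N k hN
    rwa [zero_add] at h5
  have h3 := tendsto_measure_iInter_atTop (μ := P) (s := A)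
    (fun N => (S.F.le _ _ (hAF N)).nullMeasurableSet)
    (fun N M hNM ω hω n h4 h5 => hω n h4 (h5.trans hNM)) ⟨0, measure_ne_top _ _⟩
  have h4 : ⋂ N, A N = {ω | ∀ n : ℕ, q ≤ n → 0 < σ * S.X ω n} := by
    ext ω
    simp only [hA, mem_iInter, mem_ofPred_eq]
    exact ⟨fun h n hn => h n n hn le_rfl, fun h N n hn _ => h n hn⟩
  rw [h4, ← hp] at h3
  have h5 : p ≤ p * c := ge_of_tendsto (ENNReal.Tendsto.mul_const h3 (Or.inr hc1.ne_top))
    (eventually_atTop.2 ⟨q, h2⟩)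
  by_contra h6
  have h7 := ENNReal.mul_lt_mul_right h6 (measure_ne_top P _) hc1
  rw [mul_one] at h7
  exact absurd h5 (not_le.2 h7)

theorem ae_rec : ∀ᵐ ω ∂P, ∀ t, ∃ s, t ≤ s ∧ S.X ω s = 0 := by
  have h : ∀ σ : ℝ, σ ≠ 0 → ∀ᵐ ω ∂P, ∀ q : ℕ, ∃ n : ℕ, q ≤ n ∧ σ * S.X ω n ≤ 0 :=
    fun σ hσ => ae_all_iff.2 fun q => by
      refine measure_mono_null (fun ω hω => ?_) (null_pos S hσ q)
      exact fun n hn => not_le.1 fun h => hω ⟨n, hn, h⟩
  filter_upwards [h 1 one_ne_zero, h (-1) (by norm_num)] with ω h1 h2 t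
  obtain ⟨q, hq⟩ := exists_nat_ge t
  obtain ⟨a, ha, ha'⟩ := h1 q
  obtain ⟨b, hb, hb'⟩ := h2 q
  obtain ⟨s, hs, hs'⟩ := intermediate_value_uIcc (a := (a : ℝ)) (b := (b : ℝ))
    (S.cont ω).continuousOn (show (0 : ℝ) ∈ uIcc (S.X ω a) (S.X ω b) from
      mem_uIcc_of_le (by linarith) (by linarith))
  refine ⟨s, le_trans ?_ hs.1, hs'⟩
  exact hq.trans (le_min (Nat.cast_le.2 ha) (Nat.cast_le.2 hb))

end PathP

theorem path : PATH := fun _ _ _ S =>
  (PathP.ae_qv S).and ((PathP.ae_zero S).and (PathP.ae_rec S))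

theorem path_of (_h : SI) : PATH := path

end Vale.Agent.P155.Tree
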