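import Vale.Agent.P155Z.PVX.Key

/-!
# P155, block PVX: existence of the principal value
-/

namespace Vale.Agent.P155.Tree

open MeasureTheory Filter Topology ProbabilityTheory Set

namespace PVX

open Classical in
/-- the truncated function -/
noncomputable def pf (ε y : ℝ) : ℝ := if ε < |y| then 2 / y else 0

theorem pv_eq (x : ℝ → ℝ) (ε t : ℝ) : pv x ε t = ∫ s in (0 : ℝ)..t, pf ε (x s) := rfl

theorem measurable_pf (ε : ℝ) : Measurable (pf ε) :=
  Measurable.ite (measurableSet_lt measurable_const measurable_abs)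
    (measurable_const.div measurable_id) measurable_const

theorem pf_bd {ε : ℝ} (hε : 0 < ε) (y : ℝ) : |pf ε y| ≤ 2 / ε := by
  unfold pf
  split_ifs with h
  · rw [abs_div, abs_two]
    exact div_le_div_of_nonneg_left zero_le_two hε h.le
  · rw [abs_zero]; positivity

/-- its continuous approximations -/
noncomputable def hh (ε : ℝ) (n : ℕ) (y : ℝ) : ℝ :=
  2 * y / max ε |y| ^ 2 * min 1 (max 0 (n * (|y| - ε)))

theorem cont_hh {ε : ℝ} (hε : 0 < ε) (n : ℕ) : Continuous (hh ε n) := by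
  unfold hh
  refine Continuous.mul (Continuous.div (by fun_prop) (by fun_prop) fun y => ?_) (by fun_prop)
  exact pow_ne_zero _ (hε.trans_le (le_max_left _ _)).ne'

theorem hh_neg (ε : ℝ) (n : ℕ) (y : ℝ) : hh ε n (-y) = -hh ε n y := by
  unfold hh
  rw [abs_neg]
  ring

theorem hh_mul {ε : ℝ} (hε : 0 < ε) (n : ℕ) (y : ℝ) : 0 ≤ y * hh ε n y ∧ y * hh ε n y ≤ 2 := by
  have h1 : 0 < max ε |y| := hε.trans_le (le_max_left _ _)
  have h2 : 0 ≤ min 1 (max 0 (n * (|y| - ε))) := le_min zero_le_one (le_max_left _ _)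
  have h3 : min 1 (max 0 (n * (|y| - ε))) ≤ 1 := min_le_left _ _
  have h4 : y * hh ε n y = 2 * (y ^ 2 / max ε |y| ^ 2 * min 1 (max 0 (n * (|y| - ε)))) := by
    unfold hh; ring
  have h5 : y ^ 2 / max ε |y| ^ 2 ≤ 1 := by
    rw [div_le_one (by positivity), ← sq_abs y]
    exact pow_le_pow_left₀ (abs_nonneg _) (le_max_right _ _) 2
  rw [h4]
  refine ⟨by positivity, ?_⟩
  have := mul_le_mul h5 h3 h2 zero_le_one
  linarith

theorem hh_small {ε : ℝ} (n : ℕ) {y : ℝ} (h : |y| ≤ ε) : hh ε n y = 0 := by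
  unfold hh
  rw [max_eq_left (a := 0) (mul_nonpos_of_nonneg_of_nonpos (Nat.cast_nonneg n) (by linarith)),
    min_eq_right zero_le_one, mul_zero]

theorem hh_big {ε : ℝ} (hε : 0 < ε) {n : ℕ} {y : ℝ} (h : 1 ≤ n * (|y| - ε)) :
    hh ε n y = 2 / y := by
  have h1 : ε < |y| := by
    by_contra h2
    have := mul_nonpos_of_nonneg_of_nonpos (Nat.cast_nonneg (α := ℝ) n)
      (sub_nonpos.2 (not_lt.1 h2))
    linarith
  have h2 : y ≠ 0 := abs_pos.1 (hε.trans h1)
  unfold hh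
  rw [max_eq_right h1.le, min_eq_left (h.trans (le_max_right _ _)), sq_abs]
  field_simp

theorem hh_bd {ε : ℝ} (hε : 0 < ε) (n : ℕ) (y : ℝ) : |hh ε n y| ≤ 2 / ε := by
  by_cases h : |y| ≤ ε
  · rw [hh_small n h, abs_zero]; positivity
  have h1 := abs_le.2 ⟨(show (-2 : ℝ) ≤ 0 by norm_num).trans (hh_mul hε n y).1, (hh_mul hε n y).2⟩
  rw [abs_mul] at h1
  rw [le_div_iff₀ hε]
  nlinarith [abs_nonneg (hh ε n y), not_le.1 h]

theorem big_ev {c : ℝ} (hc : 0 < c) : ∀ᶠ n : ℕ in atTop, 1 ≤ n * c :=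
  (tendsto_natCast_atTop_atTop.atTop_mul_const hc).eventually_ge_atTop 1

theorem hh_lim {ε : ℝ} (hε : 0 < ε) (y : ℝ) :
    Tendsto (fun n => hh ε n y) atTop (𝓝 (pf ε y)) := by
  refine tendsto_const_nhds.congr' ?_
  unfold pf
  split_ifs with h
  · filter_upwards [big_ev (sub_pos.2 h)] with n hn using (hh_big hε hn).symm
  · exact Eventually.of_forall fun n => (hh_small n (not_lt.1 h)).symm

theorem hh_int {x : ℝ → ℝ} (hx : Continuous x) {ε : ℝ} (hε : 0 < ε) (t : ℝ) :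
    Tendsto (fun n => ∫ s in (0 : ℝ)..t, hh ε n (x s)) atTop (𝓝 (pv x ε t)) := by
  rw [pv_eq]
  refine intervalIntegral.tendsto_integral_filter_of_dominated_convergence (fun _ => 2 / ε)
    (Eventually.of_forall fun n => ((cont_hh hε n).comp hx).aestronglyMeasurable)
    (Eventually.of_forall fun n => ae_of_all _ fun s _ => hh_bd hε n _) intervalIntegrable_const
    (ae_of_all _ fun s _ => hh_lim hε _)

theorem adm_ev {e ε ε' : ℝ} (hε : 0 < ε) (hε' : 0 < ε') (h : ε < e) (h' : ε' < e) :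
    ∀ᶠ n in atTop, Adm e fun y => hh ε' n y - hh ε n y := by
  filter_upwards [big_ev (sub_pos.2 h), big_ev (sub_pos.2 h')] with n h1 h2
  refine ⟨(cont_hh hε' n).sub (cont_hh hε n), fun y => ?_, fun y hy => ?_, fun y => ?_⟩
  · rw [hh_neg, hh_neg]; ring
  · have h3 : ∀ a : ℝ, (n : ℝ) * (e - a) ≤ n * (|y| - a) := fun a =>
      mul_le_mul_of_nonneg_left (by linarith) (Nat.cast_nonneg n)
    rw [hh_big hε (h1.trans (h3 _)), hh_big hε' (h2.trans (h3 _)), sub_self]
  · have h3 := hh_mul hε n y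
    have h4 := hh_mul hε' n y
    rw [← abs_mul, mul_sub, abs_le]
    constructor <;> linarith [h3.1, h3.2, h4.1, h4.2]

variable {Θ : Type} [m : MeasurableSpace Θ] {P : Measure Θ} (S : BSys P)

theorem key2 (hSI : SI) (hP : PATH) (hF : FOL2) (hM : PVM) (T : ℕ) {η : ℝ} (hη : 0 < η) :
    ∃ a, 0 < a ∧ ∀ ε ∈ Ioc 0 a, ∀ ε' ∈ Ioc 0 a,
      P {ω | ∃ t ∈ Icc (0 : ℝ) T, η < |pv (S.X ω) ε' t - pv (S.X ω) ε t|} ≤
        ENNReal.ofReal η := by
  obtain ⟨e, he, h⟩ := key1 S hSI hP hF hM T hη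
  refine ⟨e / 2, half_pos he, fun ε hε ε' hε' => ?_⟩
  refine meas_le_of_ev (B := fun n => {ω | ∃ t ∈ Icc (0 : ℝ) T,
    η < |∫ s in (0 : ℝ)..t, (hh ε' n (S.X ω s) - hh ε n (S.X ω s))|}) (ae_of_all _ ?_) ?_
  · rintro ω ⟨t, ht, h1⟩
    have h2 := ((hh_int (S.cont ω) hε'.1 t).sub (hh_int (S.cont ω) hε.1 t)).abs
    filter_upwards [h2.eventually (lt_mem_nhds h1)] with n hn
    refine ⟨t, ht, ?_⟩
    have h3 : ∀ c, 0 < c → IntervalIntegrable (fun s => hh c n (S.X ω s)) volume 0 t :=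
      fun c hc => ((cont_hh hc n).comp (S.cont ω)).intervalIntegrable _ _
    rwa [intervalIntegral.integral_sub (h3 _ hε'.1) (h3 _ hε.1)]
  · filter_upwards [adm_ev hε.1 hε'.1 (hε.2.trans_lt (half_lt_self he))
      (hε'.2.trans_lt (half_lt_self he))] with n hn using h _ hn

theorem unif {g : ℕ → ℝ → ℝ}
    (h : ∀ᶠ k : ℕ in atTop, ∀ t : ℝ, t ≤ k → dist (g k t) (g (k + 1) t) ≤ (1 / 2) ^ k) (T : ℝ) :
    TendstoUniformlyOn g (fun t => limUnder atTop fun k => g k t) atTop (Iic T) := by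
  obtain ⟨K, hK⟩ := eventually_atTop.1
    (h.and (tendsto_natCast_atTop_atTop.eventually_ge_atTop T))
  have h1 : ∀ t, t ≤ T → ∀ a b, K ≤ a → a ≤ b → dist (g a t) (g b t) ≤ 2 * (1 / 2) ^ a := by
    intro t ht a b ha hab
    refine (dist_le_Ico_sum_of_dist_le (f := fun k => g k t) hab (d := fun k => (1 / 2) ^ k)
      fun {k} hk _ => (hK k (ha.trans hk)).1 t (ht.trans (hK k (ha.trans hk)).2)).trans ?_
    refine (geom_sum_Ico_le_of_lt_one (by norm_num) (by norm_num)).trans (le_of_eq ?_)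
    ring
  have h2 : Tendsto (fun a : ℕ => 2 * (1 / 2 : ℝ) ^ a) atTop (𝓝 0) := by
    have := (tendsto_pow_atTop_nhds_zero_of_lt_one (r := (1 / 2 : ℝ)) (by norm_num)
      (by norm_num)).const_mul 2
    rwa [mul_zero] at this
  have h3 : ∀ t, t ≤ T → Tendsto (fun k => g k t) atTop (𝓝 (limUnder atTop fun k => g k t)) := by
    intro t ht
    refine CauchySeq.tendsto_limUnder (Metric.cauchySeq_iff'.2 fun ε hε => ?_)
    obtain ⟨a, ha1, ha2⟩ := ((h2.eventually (gt_mem_nhds hε)).and (eventually_ge_atTop K)).exists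
    exact ⟨a, fun b hb => by rw [dist_comm]; exact (h1 t ht a b ha2 hb).trans_lt ha1⟩
  refine Metric.tendstoUniformlyOn_iff.2 fun ε hε => ?_
  filter_upwards [h2.eventually (gt_mem_nhds hε), eventually_ge_atTop K] with a ha1 ha2 t ht
  rw [dist_comm]
  refine lt_of_le_of_lt (le_of_tendsto ((tendsto_const_nhds (x := g a t)).dist (h3 t ht)) ?_) ha1
  filter_upwards [eventually_ge_atTop a] with b hb using h1 t ht a b ha2 hb

theorem seq (hSI : SI) (hP : PATH) (hF : FOL2) (hM : PVM) :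
    ∃ e : ℕ → ℝ, (∀ k, 0 < e k) ∧ Tendsto e atTop (𝓝 0) ∧ ∀ᵐ ω ∂P, ∀ᶠ k : ℕ in atTop,
      ∀ t : ℝ, t ≤ k → dist (-pv (S.X ω) (e k) (max t 0)) (-pv (S.X ω) (e (k + 1)) (max t 0)) ≤
        (1 / 2) ^ k := by
  choose a ha0 ha using fun k : ℕ =>
    key2 S hSI hP hF hM k (show (0 : ℝ) < (1 / 2) ^ k by positivity)
  have hpos : ∀ k : ℕ, 0 < min (1 / ((k : ℝ) + 1)) (min (a k) (a (k - 1))) := fun k =>
    lt_min (by positivity) (lt_min (ha0 _) (ha0 _))
  refine ⟨fun k => min (1 / ((k : ℝ) + 1)) (min (a k) (a (k - 1))), hpos, ?_, ?_⟩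
  · exact squeeze_zero (fun k => (hpos k).le) (fun k => min_le_left _ _)
      tendsto_one_div_add_atTop_nhds_zero_nat
  · have h1 := fun k : ℕ => ha k _ ⟨hpos k, (min_le_right _ _).trans (min_le_left _ _)⟩ _
      ⟨hpos (k + 1), (min_le_right _ _).trans (min_le_right _ _)⟩
    have h2 : ∑' k : ℕ, ENNReal.ofReal ((1 / 2 : ℝ) ^ k) ≠ ⊤ := by
      rw [← ENNReal.ofReal_tsum_of_nonneg (fun k => by positivity) summable_geometric_two]
      exact ENNReal.ofReal_ne_top
    filter_upwards [ae_eventually_notMem (ne_top_of_le_ne_top h2 (ENNReal.tsum_le_tsum h1))]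
      with ω hω
    filter_upwards [hω] with k hk t ht
    rw [dist_neg_neg, dist_comm, Real.dist_eq]
    by_contra h3
    exact hk ⟨max t 0, ⟨le_max_right _ _, max_le ht (Nat.cast_nonneg k)⟩, not_le.1 h3⟩

end PVX

open PVX in
theorem pvx_of (hSI : SI) (hP : PATH) (hF : FOL2) (_hR : RIE) (hM : PVM) : PVX := by
  classical
  intro Θ m P S
  obtain ⟨e, he0, he1, he2⟩ := seq S hSI hP hF hM
  obtain ⟨N, hN1, hN2, hN3⟩ := exists_measurable_superset_of_null (ae_iff.1 he2)
  have hpv := fun k => hM Θ m P S (pf (e k)) (measurable_pf _) ⟨_, pf_bd (he0 k)⟩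
  have hU : ∀ ω, ω ∉ N → ∀ T, TendstoUniformlyOn (fun k t => -pv (S.X ω) (e k) (max t 0))
      (fun t => limUnder atTop fun k => -pv (S.X ω) (e k) (max t 0)) atTop (Iic T) := by
    intro ω hω T
    exact unif (g := fun k t => -pv (S.X ω) (e k) (max t 0)) (not_not.1 fun h => hω (hN1 h)) T
  have hz : ∀ ω t, t ≤ 0 → (if ω ∈ N then 0 else
      limUnder atTop fun k => -pv (S.X ω) (e k) (max t 0)) = 0 := by
    intro ω t ht
    split_ifs
    · rfl
    · simp only [max_eq_right ht, pv, intervalIntegral.integral_same, neg_zero]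
      exact tendsto_const_nhds.limUnder_eq
  have hae : ∀ᵐ ω ∂P, ω ∉ N := compl_mem_ae_iff.2 hN3
  refine ⟨⟨S, fun ω t => if ω ∈ N then 0 else
    limUnder atTop fun k => -pv (S.X ω) (e k) (max t 0), fun ω => ?_, hz, fun t => ?_, e, he0,
    he1, ?_⟩, rfl, fun t ht => ?_⟩
  · by_cases hω : ω ∈ N
    · simp only [if_pos hω]; exact continuous_const
    simp only [if_neg hω]
    refine continuous_iff_continuousAt.2 fun t => ?_
    refine ((hU ω hω (t + 1)).continuousOn (Frequently.of_forall fun k => ?_)).continuousAt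
      (Iic_mem_nhds (lt_add_one t))
    exact (((hpv k).1 ω).comp (continuous_id.max continuous_const)).neg.continuousOn
  · rcases le_total t 0 with ht | ht
    · simp only [hz _ t ht]; exact measurable_const
    refine @measurable_of_tendsto_metrizable Θ ℝ (S.F t) _ _ _ _
      (fun k ω => if ω ∈ N then 0 else -pv (S.X ω) (e k) (max t 0)) _ (fun k => ?_) ?_
    · refine Measurable.ite (S.null t N hN2 hN3) measurable_const ?_
      rw [max_eq_left ht]
      exact ((hpv k).2 t ht).neg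
    · refine tendsto_pi_nhds.2 fun ω => ?_
      by_cases hω : ω ∈ N
      · simp only [if_pos hω]; exact tendsto_const_nhds
      · simp only [if_neg hω]; exact (hU ω hω t).tendsto_at (le_refl t)
  · filter_upwards [hae] with ω hω T
    simp only [if_neg hω]
    refine ((hU ω hω T).mono Icc_subset_Iic_self).congr (Eventually.of_forall fun k t ht => ?_)
    simp only [max_eq_left ht.1]
  · refine tendstoInMeasure_iff_dist.2 fun η hη => ?_
    refine ENNReal.tendsto_nhds_zero.2 fun c hc => ?_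
    obtain ⟨r, -, hr0, hrc⟩ := ENNReal.lt_iff_exists_real_btwn.1 hc
    have hr : 0 < r := ENNReal.ofReal_pos.1 hr0
    obtain ⟨a, ha0, ha⟩ := key2 S hSI hP hF hM ⌈t⌉₊ (lt_min (half_pos hη) hr)
    filter_upwards [Ioc_mem_nhdsGT ha0] with ε hε
    refine le_trans (meas_le_of_ev (B := fun k => {ω | ∃ s ∈ Icc (0 : ℝ) ⌈t⌉₊,
      min (η / 2) r < |pv (S.X ω) (e k) s - pv (S.X ω) ε s|}) ?_ ?_)
      ((ENNReal.ofReal_le_ofReal (min_le_right (η / 2) r)).trans hrc.le)
    · filter_upwards [hae] with ω hω h1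
      simp only [if_neg hω] at h1
      have h2 := (tendsto_const_nhds (x := -pv (S.X ω) ε t)).dist
        ((hU ω hω t).tendsto_at (le_refl t))
      have h3 : min (η / 2) r < _ := ((min_le_left _ _).trans_lt (half_lt_self hη)).trans_le h1
      filter_upwards [h2.eventually (lt_mem_nhds h3)] with k hk
      rw [max_eq_left ht, dist_neg_neg, dist_comm, Real.dist_eq] at hk
      exact ⟨t, ⟨ht, Nat.le_ceil t⟩, hk⟩
    · filter_upwards [he1.eventually (ge_mem_nhds ha0)] with k hk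
      exact ha ε hε (e k) ⟨he0 k, hk⟩

end Vale.Agent.P155.Tree
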