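import Vale.Agent.P155Z.Sk
import Vale.Agent.P153.R2.L1.Rmt
import Vale.Agent.P155.U.Family

/-!
# P155, branching SLE₄(-2): measurable families of Riemann maps
-/

namespace Vale.Agent.P155.Tree

open MeasureTheory Filter Topology ProbabilityTheory Set TopologicalSpace Metric Vale.Agent.P155
  Vale.Agent.P155.Q1 Vale.Agent.P164 Vale.Agent.P155.Uq

namespace Rm

theorem rdom {U : Set ℂ} (ho : IsOpen U) (hsc : IsSimplyConnected U) : P153.TOP.RMT.RDom U := by
  have hs : SimplyConnectedSpace U := hsc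
  have : LocallyPathConnectedSpace U := ho.locallyPathConnectedSpace
  refine ⟨hsc.isPathConnected.isConnected, P153.TOP.hasLogOn_of_subtype (fun f hf => ?_)⟩
  obtain ⟨F, hF, hF'⟩ := P153.TOP.hasLogOn_univ_of_simplyConnected U f f.continuous.continuousOn
    (fun x _ => hf x)
  exact ⟨⟨F, continuousOn_univ.1 hF⟩, fun x => hF' x (mem_univ _)⟩

/-- a Riemann map as a pair of inverse maps -/
theorem exists_conf {U : Set ℂ} (ho : IsOpen U) (hsc : IsSimplyConnected U) (hne : U ≠ univ)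
    {z : ℂ} (hz : z ∈ U) : ∃ g f : ℂ → ℂ, CI.Conf U (ball 0 1) g f ∧ g z = 0 := by
  obtain ⟨g, h1, h2, h3, h4, h5⟩ := P153.TOP.RMT.exists_onto_disc ho (rdom ho hsc) hne hz
  have hsd : ∀ w ∈ U, HasStrictDerivAt g (deriv g w) w := fun w hw =>
    (h1.analyticOnNhd ho w hw).hasStrictDerivAt
  set f : ℂ → ℂ := Function.invFunOn g U with hf
  have hfU : ∀ w ∈ ball (0 : ℂ) 1, f w ∈ U ∧ g (f w) = w := by
    intro w hw
    rw [← h3] at hw
    exact ⟨Function.invFunOn_mem hw, Function.invFunOn_eq hw⟩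
  have hcont : ∀ w ∈ ball (0 : ℂ) 1, ContinuousAt f w := by
    intro w hw
    obtain ⟨hz, hgz⟩ := hfU w hw
    rw [ContinuousAt, Filter.tendsto_def]
    intro s hs
    have h6 : g '' (s ∩ U) ∈ 𝓝 (g (f w)) := by
      rw [← (hsd _ hz).map_nhds_eq (h4 _ hz)]
      exact image_mem_map (inter_mem hs (ho.mem_nhds hz))
    rw [hgz] at h6
    filter_upwards [h6] with y hy
    obtain ⟨x, ⟨hxs, hxU⟩, rfl⟩ := hy
    have hy' : g x ∈ ball (0 : ℂ) 1 := by rw [← h3]; exact mem_image_of_mem _ hxU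
    have := h2 (hfU _ hy').1 hxU (hfU _ hy').2
    show f (g x) ∈ s
    rw [this]; exact hxs
  have hder : ∀ w ∈ ball (0 : ℂ) 1, HasStrictDerivAt f (deriv g (f w))⁻¹ w := by
    intro w hw
    obtain ⟨hz, hgz⟩ := hfU w hw
    refine HasStrictDerivAt.of_local_left_inverse (hcont w hw) (hsd _ hz) (h4 _ hz) ?_
    filter_upwards [isOpen_ball.mem_nhds hw] with y hy
    exact (hfU y hy).2
  have hm : MapsTo g U (ball 0 1) := fun w hw => by rw [← h3]; exact mem_image_of_mem _ hw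
  refine ⟨g, f, ⟨ho, isOpen_ball, h1,
    fun w hw => (hder w hw).hasDerivAt.differentiableAt.differentiableWithinAt, hm,
    fun w hw => (hfU w hw).1, fun w hw => ?_, fun w hw => (hfU w hw).2⟩, h5⟩
  exact h2 (hfU _ (hm hw)).1 hw (hfU _ (hm hw)).2

/-- normalised Riemann maps -/
theorem exists_norm {U : Set ℂ} (hU : Dom U) {z : ℂ} (hz : z ∈ U) :
    ∃ a b : ℂ → ℂ, CI.Conf U DD a b ∧ b 0 = z ∧ (deriv b 0).im = 0 ∧ 0 < (deriv b 0).re := by
  have hne : U ≠ univ := by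
    rintro rfl
    exact NormedSpace.unbounded_univ ℝ ℂ hU.2.1
  obtain ⟨g, f, h, h0⟩ := exists_conf hU.1 hU.2.2.2 hne hz
  have hz0 : (0 : ℂ) ∈ ball (0 : ℂ) 1 := mem_ball_self one_pos
  have hf0 : f 0 = z := by rw [← h0, h.gf z hz]
  have hdf : HasDerivAt f (deriv f 0) 0 :=
    (h.dg.differentiableAt (isOpen_ball.mem_nhds hz0)).hasDerivAt
  have hdg : HasDerivAt g (deriv g z) (f 0) := by
    rw [hf0]
    exact (h.df.differentiableAt (hU.1.mem_nhds hz)).hasDerivAt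
  have hd : deriv f 0 ≠ 0 := by
    intro e
    have h1 := hdg.comp 0 hdf
    have h2 : HasDerivAt (g ∘ f) 1 0 := by
      refine (hasDerivAt_id (0 : ℂ)).congr_of_eventuallyEq ?_
      filter_upwards [isOpen_ball.mem_nhds hz0] with w hw using h.fg w hw
    have := h1.unique h2
    rw [e, mul_zero] at this
    exact zero_ne_one this
  set d := deriv f 0 with hdd
  have hn : (‖d‖ : ℂ) ≠ 0 := by exact_mod_cast norm_ne_zero_iff.2 hd
  set c : ℂ := d / ‖d‖ with hc
  have hc1 : ‖c‖ = 1 := by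
    rw [hc, norm_div, Complex.norm_real, norm_norm, div_self (norm_ne_zero_iff.2 hd)]
  have hc0 : c ≠ 0 := by
    intro e
    rw [e, norm_zero] at hc1
    exact zero_ne_one hc1
  have hm : ∀ w ∈ ball (0 : ℂ) 1, c * w ∈ ball (0 : ℂ) 1 := by
    intro w hw
    rw [mem_ball_zero_iff] at hw ⊢
    rwa [norm_mul, hc1, one_mul]
  have hm' : ∀ w ∈ ball (0 : ℂ) 1, c⁻¹ * w ∈ ball (0 : ℂ) 1 := by
    intro w hw
    rw [mem_ball_zero_iff] at hw ⊢
    rwa [norm_mul, norm_inv, hc1, inv_one, one_mul]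
  have hb : HasDerivAt (fun w => f (c⁻¹ * w)) (‖d‖ : ℂ) 0 := by
    have h1 : HasDerivAt (fun w : ℂ => c⁻¹ * w) c⁻¹ 0 := by
      simpa using (hasDerivAt_id (0 : ℂ)).const_mul c⁻¹
    have h2 : HasDerivAt f d (c⁻¹ * 0) := by rwa [mul_zero]
    have h3 := h2.comp 0 h1
    have e : d * c⁻¹ = (‖d‖ : ℂ) := by
      rw [hc]
      field_simp
    rw [e] at h3
    exact h3
  refine ⟨fun w => c * g w, fun w => f (c⁻¹ * w), ⟨hU.1, isOpen_ball, h.df.const_mul c,
    h.dg.comp (by fun_prop) hm', fun w hw => hm _ (h.mf hw), fun w hw => h.mg (hm' w hw),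
    fun w hw => ?_, fun w hw => ?_⟩, by simp [hf0], ?_, ?_⟩
  · simp only [inv_mul_cancel_left₀ hc0, h.gf w hw]
  · simp only [h.fg _ (hm' w hw), mul_inv_cancel_left₀ hc0]
  · rw [hb.deriv, Complex.ofReal_im]
  · rw [hb.deriv, Complex.ofReal_re]
    exact norm_pos_iff.2 hd

theorem isOpen_diff {Ω : Set ℂ} (ho : IsOpen Ω) (K : NonemptyCompacts ℂ) :
    IsOpen (Ω \ (K : Set ℂ)) := ho.sdiff K.isCompact.isClosed

/-- being in the hole at `q` is an open condition -/
theorem isOpen_hole {Ω : Set ℂ} (ho : IsOpen Ω) (q : ℂ) :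
    IsOpen {p : NonemptyCompacts ℂ × ℂ | p.2 ∈ NCLE.hole Ω p.1 q} := by
  rw [isOpen_iff_mem_nhds]
  rintro ⟨K, y⟩ hy
  have hy : y ∈ connectedComponentIn (Ω \ (K : Set ℂ)) q := hy
  have hq : q ∈ Ω \ (K : Set ℂ) := by
    by_contra h
    rw [connectedComponentIn_eq_empty h] at hy
    exact hy
  have hVo : IsOpen (connectedComponentIn (Ω \ (K : Set ℂ)) q) :=
    (isOpen_diff ho K).connectedComponentIn
  have hVc : IsPathConnected (connectedComponentIn (Ω \ (K : Set ℂ)) q) :=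
    hVo.isConnected_iff_isPathConnected.1 (isConnected_connectedComponentIn_iff.2 hq)
  obtain ⟨γ, hγ⟩ := hVc.joinedIn q (mem_connectedComponentIn hq) y hy
  obtain ⟨r, hr, hball⟩ := Metric.nhds_basis_closedBall.mem_iff.1 (hVo.mem_nhds hy)
  set L : Set ℂ := range γ ∪ closedBall y r with hL
  have hLc : IsCompact L := (isCompact_range γ.continuous).union (isCompact_closedBall y r)
  have hLp : IsPreconnected L :=
    IsPreconnected.union y ⟨1, γ.target⟩ (mem_closedBall_self hr.le)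
      (isPreconnected_range γ.continuous) (convex_closedBall y r).isPreconnected
  have hLV : L ⊆ Ω \ (K : Set ℂ) := by
    refine subset_trans (union_subset ?_ hball) (connectedComponentIn_subset _ _)
    rintro _ ⟨t, rfl⟩
    exact hγ t
  have h1 : {K' : NonemptyCompacts ℂ | (K' : Set ℂ) ⊆ Lᶜ} ∈ 𝓝 K :=
    (NonemptyCompacts.isOpen_subsets_of_isOpen hLc.isClosed.isOpen_compl).mem_nhds
      fun w hw hwL => (hLV hwL).2 hw
  refine mem_of_superset (prod_mem_nhds h1 (closedBall_mem_nhds y hr)) ?_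
  rintro ⟨K', w⟩ ⟨hK', hw⟩
  have hsub : L ⊆ Ω \ (K' : Set ℂ) := fun v hv => ⟨(hLV hv).1, fun h => hK' h hv⟩
  exact hLp.subset_connectedComponentIn (Or.inl ⟨0, γ.source⟩) hsub (Or.inr hw)

theorem frontier_hole {Ω : Set ℂ} (ho : IsOpen Ω) {K : NonemptyCompacts ℂ} (hK : Carp Ω K)
    (q : ℂ) : frontier (NCLE.hole Ω K q) ⊆ (K : Set ℂ) := by
  intro p hp
  by_contra hpK
  have hVo : IsOpen (connectedComponentIn (Ω \ (K : Set ℂ)) q) :=
    (isOpen_diff ho K).connectedComponentIn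
  have h1 : p ∈ closure (connectedComponentIn (Ω \ (K : Set ℂ)) q) := hp.1
  have h2 : p ∈ closure Ω :=
    closure_mono ((connectedComponentIn_subset _ _).trans sdiff_subset) h1
  have h3 : p ∈ Ω := by
    by_contra h
    exact hpK (hK.2.1 ⟨h2, by rwa [ho.interior_eq]⟩)
  have h4 : IsOpen (connectedComponentIn (Ω \ (K : Set ℂ)) p) :=
    (isOpen_diff ho K).connectedComponentIn
  obtain ⟨y, hy1, hy2⟩ := mem_closure_iff.1 h1 _ h4 (mem_connectedComponentIn ⟨h3, hpK⟩)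
  have h5 : p ∈ connectedComponentIn (Ω \ (K : Set ℂ)) q := by
    rw [connectedComponentIn_eq hy2, ← connectedComponentIn_eq hy1]
    exact mem_connectedComponentIn ⟨h3, hpK⟩
  exact hp.2 (by
    have : interior (NCLE.hole Ω K q) = NCLE.hole Ω K q := hVo.interior_eq
    rw [this]
    exact h5)

theorem mset {Ω : Set ℂ} (ho : IsOpen Ω) (j : ℕ) : MeasurableSet {p | InH Ω j p} := by
  have e : {p | InH Ω j p} = Prod.fst ⁻¹' U.CC Ω ∩
      {p : NonemptyCompacts ℂ × ℂ | p.2 ∈ NCLE.hole Ω p.1 (denseSeq ℂ j)} := by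
    ext p
    refine ⟨fun h => ⟨h.1, h.2.2⟩, fun h => ⟨h.1, ?_, h.2⟩⟩
    by_contra h'
    have h2 : p.2 ∈ connectedComponentIn (Ω \ (p.1 : Set ℂ)) (denseSeq ℂ j) := h.2
    rw [connectedComponentIn_eq_empty h'] at h2
    exact h2
  rw [e]
  exact ((U.isClosed_CC Ω).preimage continuous_fst).measurableSet.inter
    (isOpen_hole ho _).measurableSet

end Rm

/-- **RIEM** -/
theorem riem_of (hC : CARA) (hT : TOPO) : RIEM := by
  classical
  intro Ω ho hb
  have hex : ∀ (K : NonemptyCompacts ℂ) (j : ℕ), ∃ a b : ℂ → ℂ,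
      Carp Ω K → denseSeq ℂ j ∈ Ω \ (K : Set ℂ) →
      CI.Conf (NCLE.hole Ω K (denseSeq ℂ j)) DD a b ∧ b 0 = denseSeq ℂ j ∧
        (deriv b 0).im = 0 ∧ 0 < (deriv b 0).re := by
    intro K j
    by_cases h : Carp Ω K ∧ denseSeq ℂ j ∈ Ω \ (K : Set ℂ)
    · obtain ⟨a, b, hab⟩ := Rm.exists_norm (hT.2.2 Ω K ho hb h.1 _ ⟨_, h.2, rfl⟩)
        (mem_connectedComponentIn h.2)
      exact ⟨a, b, fun _ _ => hab⟩
    · exact ⟨id, id, fun h1 h2 => absurd ⟨h1, h2⟩ h⟩
  choose a b hab using hex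
  refine ⟨a, b, fun K j h1 h2 => (hab K j h1 h2).1, Rm.mset ho, fun j => ?_⟩
  rw [← piecewise_eq_indicator]
  refine ContinuousOn.measurable_piecewise ?_ continuousOn_const (Rm.mset ho j)
  rw [continuousOn_iff_continuous_domRestrict, continuous_iff_seqContinuous]
  rintro u ⟨⟨K, z⟩, hK, hq, hz⟩ hu
  have hu' : Tendsto (fun n => (u n).1) atTop (𝓝 (K, z)) :=
    (continuous_subtype_val.tendsto _).comp hu
  have hu1 : Tendsto (fun n => (u n).1.1) atTop (𝓝 K) := (continuous_fst.tendsto _).comp hu'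
  have hu2 : Tendsto (fun n => (u n).1.2) atTop (𝓝 z) := (continuous_snd.tendsto _).comp hu'
  have h0 := hab K j hK hq
  have key := hC (fun n => NCLE.hole Ω (u n).1.1 (denseSeq ℂ j)) (NCLE.hole Ω K (denseSeq ℂ j))
    (denseSeq ℂ j) (fun n => a (u n).1.1 j) (fun n => b (u n).1.1 j) (a K j) (b K j)
    (fun n => (hab _ j (u n).2.1 (u n).2.2.1).1) h0.1
    (hb.subset (iUnion_subset fun n => (connectedComponentIn_subset _ _).trans sdiff_subset))
    (fun n => (hab _ j (u n).2.1 (u n).2.2.1).2) h0.2 ?_ ?_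
  · have hVo : IsOpen (NCLE.hole Ω K (denseSeq ℂ j)) := h0.1.ho
    exact key.2.1.tendsto_comp (h0.1.df.continuousOn z hz) hz
      (tendsto_nhdsWithin_iff.2 ⟨hu2, hu2.eventually (hVo.mem_nhds hz)⟩)
  · intro L hL hLV
    have := hL.eventually_forall_of_forall_eventually (x₀ := K)
      (P := fun K' y => y ∈ NCLE.hole Ω K' (denseSeq ℂ j))
      fun y hy => (Rm.isOpen_hole ho (denseSeq ℂ j)).mem_nhds (hLV hy)
    exact hu1.eventually this
  · intro p hp ε hε
    have hpK := Rm.frontier_hole ho hK _ hp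
    filter_upwards [Metric.tendsto_nhds.1 hu1 ε hε] with n hn
    rw [NonemptyCompacts.dist_eq] at hn
    obtain ⟨y, hy, hd⟩ := exists_dist_lt_of_hausdorffDist_lt' hpK hn
      (hausdorffEDist_ne_top_of_nonempty_of_bounded (u n).1.1.nonempty K.nonempty
        (u n).1.1.isCompact.isBounded K.isCompact.isBounded)
    exact ⟨y, fun h => (connectedComponentIn_subset _ _ h).2 hy, hd⟩

end Vale.Agent.P155.Tree
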