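import Vale.Agent.P155Z.Sk

/-!
# P155: moments of the Riemann sums along the dyadic grid
-/

namespace Vale.Agent.P155.Tree

open MeasureTheory Filter Topology ProbabilityTheory Set
open scoped NNReal ENNReal

namespace SIa

variable {Θ : Type} [m : MeasurableSpace Θ] {P : Measure Θ}

theorem fatou {E : Type} [NormedAddCommGroup E] {f : ℕ → Θ → E} {g : Θ → E} {C : ℝ}
    (hf : ∀ n, MemLp (f n) 2 P) (hl : ∀ᵐ ω ∂P, Tendsto (fun n => f n ω) atTop (𝓝 (g ω)))
    (hC : ∀ᶠ n in atTop, ∫ ω, ‖f n ω‖ ^ 2 ∂P ≤ C) : MemLp g 2 P ∧ ∫ ω, ‖g ω‖ ^ 2 ∂P ≤ C := by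
  have hg : AEStronglyMeasurable g P := aestronglyMeasurable_of_tendsto_ae atTop
    (fun n => (hf n).1) hl
  have h0 : 0 ≤ C := by
    obtain ⟨n, hn⟩ := hC.exists
    exact (integral_nonneg fun ω => sq_nonneg _).trans hn
  have h1 : ∫⁻ ω, ENNReal.ofReal (‖g ω‖ ^ 2) ∂P ≤ ENNReal.ofReal C := by
    rw [← lintegral_congr_ae (f := fun ω => liminf (fun n => ENNReal.ofReal (‖f n ω‖ ^ 2)) atTop)
      (hl.mono fun ω h => (ENNReal.tendsto_ofReal (h.norm.pow 2)).liminf_eq)]
    refine (lintegral_liminf_le' fun n =>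
      ((hf n).1.norm.aemeasurable.pow_const 2).ennreal_ofReal).trans
      (liminf_le_of_frequently_le' (hC.mono fun n hn => ?_).frequently)
    rw [← ofReal_integral_eq_lintegral_ofReal ((memLp_two_iff_integrable_sq_norm (hf n).1).1 (hf n))
      (Eventually.of_forall fun ω => sq_nonneg _)]
    exact ENNReal.ofReal_le_ofReal hn
  have h2 : Integrable (fun ω => ‖g ω‖ ^ 2) P := ⟨hg.norm.pow 2,
    (hasFiniteIntegral_iff_ofReal (Eventually.of_forall fun ω => sq_nonneg _)).2
      (h1.trans_lt ENNReal.ofReal_lt_top)⟩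
  refine ⟨(memLp_two_iff_integrable_sq_norm hg).2 h2, ?_⟩
  rw [← ofReal_integral_eq_lintegral_ofReal h2 (Eventually.of_forall fun ω => sq_nonneg _)] at h1
  exact (ENNReal.ofReal_le_ofReal_iff h0).1 h1

/-- almost sure convergence and a bound in `L²` give the convergence of the integrals -/
theorem tendsto_int [IsProbabilityMeasure P] {E : Type} [NormedAddCommGroup E] [NormedSpace ℝ E]
    {f : ℕ → Θ → E} {g : Θ → E} {C : ℝ} (hf : ∀ n, MemLp (f n) 2 P)
    (hl : ∀ᵐ ω ∂P, Tendsto (fun n => f n ω) atTop (𝓝 (g ω)))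
    (hC : ∀ n, ∫ ω, ‖f n ω‖ ^ 2 ∂P ≤ C) :
    Tendsto (fun n => ∫ ω, f n ω ∂P) atTop (𝓝 (∫ ω, g ω ∂P)) := by
  obtain ⟨hg, hgC⟩ := fatou hf hl (Eventually.of_forall hC)
  have i1 := fun n => (hf n).integrable one_le_two
  have i2 := hg.integrable one_le_two
  have s1 := fun n => (memLp_two_iff_integrable_sq_norm (hf n).1).1 (hf n)
  have s2 := (memLp_two_iff_integrable_sq_norm hg.1).1 hg
  have h0 : 0 ≤ C := (integral_nonneg fun ω => sq_nonneg _).trans (hC 0)
  rw [Metric.tendsto_nhds]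
  intro ε hε
  obtain ⟨R, hR, hR'⟩ : ∃ R : ℝ, 0 < R ∧ 4 * C / R < ε / 2 :=
    ⟨8 * C / ε + 1, by positivity, by
      rw [div_lt_iff₀ (by positivity), mul_add, mul_one, mul_div_assoc', mul_comm (ε / 2),
        mul_div_assoc, div_div_cancel_left' hε.ne']
      linarith⟩
  have h1 : Tendsto (fun n => ∫ ω, min ‖f n ω - g ω‖ R ∂P) atTop (𝓝 (∫ _, (0 : ℝ) ∂P)) :=
    tendsto_integral_of_dominated_convergence (fun _ => R)
      (fun n => (((hf n).1.sub hg.1).norm.aemeasurable.min aemeasurable_const).aestronglyMeasurable)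
      (integrable_const R) (fun n => Eventually.of_forall fun ω => by
        rw [Real.norm_of_nonneg (le_min (norm_nonneg _) hR.le)]
        exact min_le_right _ _)
      (hl.mono fun ω h => by
        simpa [hR.le] using (tendsto_iff_norm_sub_tendsto_zero.1 h).min (tendsto_const_nhds (x := R)))
  rw [integral_zero] at h1
  filter_upwards [h1.eventually (gt_mem_nhds (half_pos hε))] with n hn
  have i3 : Integrable (fun ω => min ‖f n ω - g ω‖ R) P := ((i1 n).sub i2).norm.inf
    (integrable_const R)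
  have i4 : Integrable (fun ω => (2 * ‖f n ω‖ ^ 2 + 2 * ‖g ω‖ ^ 2) / R) P :=
    (((s1 n).const_mul 2).add (s2.const_mul 2)).div_const R
  rw [dist_eq_norm, ← integral_sub (i1 n) i2]
  refine (norm_integral_le_of_norm_le (i3.add i4) (Eventually.of_forall fun ω => ?_)).trans_lt ?_
  · have h2 := norm_sub_le (f n ω) (g ω)
    have h3 : 0 ≤ (2 * ‖f n ω‖ ^ 2 + 2 * ‖g ω‖ ^ 2) / R := by positivity
    rcases le_total ‖f n ω - g ω‖ R with h | h
    · simp only [Pi.add_apply, min_eq_left h]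
      linarith
    · refine le_add_of_nonneg_of_le (le_min (norm_nonneg _) hR.le) ((le_div_iff₀ hR).2 ?_)
      nlinarith [sq_nonneg (‖f n ω‖ - ‖g ω‖), norm_nonneg (f n ω - g ω)]
  · simp only [Pi.add_apply]
    rw [integral_add i3 i4, integral_div, integral_add ((s1 n).const_mul 2) (s2.const_mul 2),
      integral_const_mul, integral_const_mul]
    have h4 : (2 * ∫ ω, ‖f n ω‖ ^ 2 ∂P + 2 * ∫ ω, ‖g ω‖ ^ 2 ∂P) / R ≤ 4 * C / R :=
      div_le_div_of_nonneg_right (by linarith [hC n]) hR.le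
    linarith

theorem tt_nonneg (n i : ℕ) : 0 ≤ tt n i := by unfold tt; positivity

theorem tt_succ (n i : ℕ) : tt n (i + 1) = tt n i + 1 / 2 ^ n := by
  unfold tt
  push_cast
  ring

theorem tt_mono (n : ℕ) {i j : ℕ} (h : i ≤ j) : tt n i ≤ tt n j := by
  unfold tt
  gcongr

/-- the variance of the increments -/
noncomputable def vv (n : ℕ) : ℝ≥0 := ⟨4 / 2 ^ n, by positivity⟩

theorem coe_vv (n : ℕ) : (vv n : ℝ) = 4 / 2 ^ n := rfl

variable (S : BSys P)

theorem meas_dx (n i : ℕ) : Measurable[S.F (tt n (i + 1))] fun ω => dx (S.X ω) n i :=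
  (S.ad _).sub ((S.ad _).mono (S.F.mono (tt_mono n i.le_succ)) le_rfl)

theorem law_dx (n i : ℕ) : HasLaw (fun ω => dx (S.X ω) n i) (gaussianReal 0 (vv n)) P := by
  have h := S.law _ _ (tt_nonneg n i) (tt_mono n i.le_succ)
  rwa [show (4 * (tt n (i + 1) - tt n i)).toNNReal = vv n by
    rw [tt_succ, add_sub_cancel_left, mul_one_div]
    exact Real.toNNReal_of_nonneg _] at h

variable {S}

/-- integration over the next increment -/
theorem freeze {E : Type} [NormedAddCommGroup E] [NormedSpace ℝ E] {n i : ℕ} {Y : Θ → ℂ × ℂ}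
    (hY : Measurable[S.F (tt n i)] Y) {g : (ℂ × ℂ) × ℝ → E} (hg : StronglyMeasurable g)
    (h1 : ∀ y, Integrable (fun d => g (y, d)) (gaussianReal 0 (vv n)))
    (h2 : Integrable (fun ω => ∫ d, ‖g (Y ω, d)‖ ∂gaussianReal 0 (vv n)) P) :
    Integrable (fun ω => g (Y ω, dx (S.X ω) n i)) P ∧ ∫ ω, g (Y ω, dx (S.X ω) n i) ∂P =
      ∫ ω, ∫ d, g (Y ω, d) ∂gaussianReal 0 (vv n) ∂P := by
  have := S.prob
  have hY' : Measurable Y := hY.mono (S.F.le _) le_rfl
  have h3 : HasLaw Y (P.map Y) P := ⟨hY'.aemeasurable, rfl⟩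
  have h4 : IndepFun Y (fun ω => dx (S.X ω) n i) P := (IndepFun_iff_Indep _ _ _).2
    (indep_of_indep_of_le_left (S.indep _ _ (tt_nonneg n i) (tt_mono n i.le_succ)) hY.comap_le)
  have h5 := h4.hasLaw_prod h3 (law_dx S n i)
  have h6 : Integrable g ((P.map Y).prod (gaussianReal 0 (vv n))) :=
    (integrable_prod_iff hg.aestronglyMeasurable).2 ⟨Eventually.of_forall h1,
      (integrable_map_measure hg.norm.integral_prod_right'.aestronglyMeasurable
        hY'.aemeasurable).2 h2⟩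
  refine ⟨(integrable_map_measure hg.aestronglyMeasurable h5.aemeasurable).1 (h5.map_eq ▸ h6), ?_⟩
  rw [← integral_map hY'.aemeasurable hg.integral_prod_right'.aestronglyMeasurable,
    ← integral_prod _ h6]
  exact h5.integral_comp hg.aestronglyMeasurable

theorem int_id (v : ℝ≥0) : Integrable (fun d : ℝ => d) (gaussianReal 0 v) :=
  (memLp_id_gaussianReal 2).integrable one_le_two

theorem int_sq (v : ℝ≥0) : Integrable (fun d : ℝ => d ^ 2) (gaussianReal 0 v) :=
  (memLp_id_gaussianReal 2).integrable_sq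

theorem gauss_sq (v : ℝ≥0) (z a : ℂ) :
    Integrable (fun d : ℝ => ‖z + a * d‖ ^ 2) (gaussianReal 0 v) ∧
      ∫ d : ℝ, ‖z + a * d‖ ^ 2 ∂gaussianReal 0 v = ‖z‖ ^ 2 + v * ‖a‖ ^ 2 := by
  have e : ∀ d : ℝ, ‖z + a * d‖ ^ 2 =
      ‖z‖ ^ 2 + 2 * (z.re * a.re + z.im * a.im) * d + ‖a‖ ^ 2 * d ^ 2 := fun d => by
    simp only [Complex.sq_norm, Complex.normSq_apply, Complex.add_re, Complex.add_im,
      Complex.mul_re, Complex.mul_im, Complex.ofReal_re, Complex.ofReal_im]
    ring
  have h1 : Integrable (fun d : ℝ => ‖z‖ ^ 2 + 2 * (z.re * a.re + z.im * a.im) * d)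
      (gaussianReal 0 v) := (integrable_const _).add ((int_id v).const_mul _)
  have h2 := variance_fun_id_gaussianReal (μ := 0) (v := v)
  rw [variance_eq_integral measurable_id'.aemeasurable] at h2
  simp only [integral_id_gaussianReal, sub_zero] at h2
  simp only [e]
  refine ⟨h1.add ((int_sq v).const_mul _), ?_⟩
  rw [integral_add h1 ((int_sq v).const_mul _), integral_add (integrable_const _)
    ((int_id v).const_mul _), integral_const_mul, integral_const_mul, h2, integral_id_gaussianReal]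
  simp [mul_comm]

theorem gauss_lin (v : ℝ≥0) (z a : ℂ) :
    Integrable (fun d : ℝ => z + a * d) (gaussianReal 0 v) ∧
      ∫ d : ℝ, z + a * d ∂gaussianReal 0 v = z := by
  have h1 : Integrable (fun d : ℝ => a * d) (gaussianReal 0 v) := (int_id v).ofReal.const_mul a
  refine ⟨(integrable_const z).add h1, ?_⟩
  rw [integral_add (integrable_const _) h1, integral_const_mul, integral_complex_ofReal,
    integral_id_gaussianReal]
  simp

theorem gauss_exp (v : ℝ≥0) (a : ℂ) :
    Integrable (fun d : ℝ => Complex.exp (a * d)) (gaussianReal 0 v) ∧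
      ∫ d : ℝ, Complex.exp (a * d) ∂gaussianReal 0 v = Complex.exp (v * a ^ 2 / 2) ∧
      ∫ d : ℝ, ‖Complex.exp (a * d)‖ ∂gaussianReal 0 v = Real.exp (v * a.re ^ 2 / 2) := by
  have e : ∀ d : ℝ, ‖Complex.exp (a * d)‖ = Real.exp (a.re * d) := fun d => by
    rw [Complex.norm_exp, Complex.re_mul_ofReal]
  refine ⟨(integrable_exp_mul_gaussianReal a.re).mono' (by fun_prop)
    (Eventually.of_forall fun d => (e d).le), ?_, ?_⟩
  · simpa [complexMGF] using complexMGF_id_gaussianReal (μ := 0) (v := v) a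
  · simpa [e, mgf] using congrFun (mgf_fun_id_gaussianReal (μ := 0) (v := v)) a.re

/-- the sums up to the index `k` -/
noncomputable def ps (S : BSys P) (θ : ℕ → Θ → ℂ) (n k : ℕ) (ω : Θ) : ℂ :=
  ∑ i ∈ Finset.range k, θ i ω * (dx (S.X ω) n i : ℂ)

variable {θ : ℕ → Θ → ℂ} {n : ℕ} {K : ℝ}

theorem meas_sum {f : ℕ → Θ → ℂ} (h : ∀ i, Measurable[S.F (tt n (i + 1))] (f i)) (k : ℕ) :
    Measurable[S.F (tt n k)] fun ω => ∑ i ∈ Finset.range k, f i ω :=
  Finset.measurable_sum _ fun i hi =>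
    (h i).mono (S.F.mono (tt_mono n (Finset.mem_range.1 hi))) le_rfl

theorem meas_succ (h : ∀ i, Measurable[S.F (tt n i)] (θ i)) (i : ℕ) :
    Measurable[S.F (tt n (i + 1))] (θ i) := (h i).mono (S.F.mono (tt_mono n i.le_succ)) le_rfl

theorem meas_ps (h : ∀ i, Measurable[S.F (tt n i)] (θ i)) (k : ℕ) :
    Measurable[S.F (tt n k)] (ps S θ n k) :=
  meas_sum (fun i => (meas_succ h i).mul (Complex.measurable_ofReal.comp (meas_dx S n i))) k

theorem int_theta (h : ∀ i, Measurable[S.F (tt n i)] (θ i)) (hK : ∀ i ω, ‖θ i ω‖ ≤ K) (i : ℕ) :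
    Integrable (fun ω => ‖θ i ω‖ ^ 2) P :=
  have := S.prob
  Integrable.of_bound (((h i).mono (S.F.le _) le_rfl).norm.pow_const 2).aestronglyMeasurable (K ^ 2)
    (Eventually.of_forall fun ω => by
      rw [norm_pow, norm_norm]
      exact pow_le_pow_left₀ (norm_nonneg _) (hK i ω) 2)

theorem ps_sq (h : ∀ i, Measurable[S.F (tt n i)] (θ i)) (hK : ∀ i ω, ‖θ i ω‖ ≤ K) (k : ℕ) :
    MemLp (ps S θ n k) 2 P ∧ ∫ ω, ps S θ n k ω ∂P = 0 ∧ ∫ ω, ‖ps S θ n k ω‖ ^ 2 ∂P =
      ∫ ω, 4 / 2 ^ n * ∑ i ∈ Finset.range k, ‖θ i ω‖ ^ 2 ∂P := by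
  have := S.prob
  induction k with
  | zero => exact ⟨(show MemLp (fun _ => (0 : ℂ)) 2 P from MemLp.zero'), by simp [ps], by simp [ps]⟩
  | succ k ih =>
    obtain ⟨h1, h2, h3⟩ := ih
    have e : ps S θ n (k + 1) = fun ω => ps S θ n k ω + θ k ω * (dx (S.X ω) n k : ℂ) :=
      funext fun ω => Finset.sum_range_succ _ _
    have s1 := (memLp_two_iff_integrable_sq_norm h1.1).1 h1
    have s2 := (int_theta h hK k).const_mul (vv n : ℝ)
    have c1 : Continuous fun p : (ℂ × ℂ) × ℝ => p.1.1 + p.1.2 * p.2 := by fun_prop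
    have c2 : Continuous fun p : (ℂ × ℂ) × ℝ => ‖p.1.1 + p.1.2 * p.2‖ ^ 2 := c1.norm.pow 2
    have h4 := freeze ((meas_ps h k).prodMk (h k)) c2.stronglyMeasurable
      (fun y => (gauss_sq _ y.1 y.2).1)
      (by
        simp only [norm_pow, norm_norm, (gauss_sq _ _ _).2]
        exact s1.add s2)
    have h5 := freeze ((meas_ps h k).prodMk (h k)) c1.stronglyMeasurable
      (fun y => (gauss_lin _ y.1 y.2).1) (((integrable_const (1 : ℝ)).add (s1.add s2)).mono'
        (c1.norm.stronglyMeasurable.integral_prod_right'.comp_measurable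
          (((meas_ps h k).prodMk (h k)).mono (S.F.le _) le_rfl)).aestronglyMeasurable
        (Eventually.of_forall fun ω => by
          rw [Real.norm_of_nonneg (integral_nonneg fun d => norm_nonneg _)]
          refine (integral_mono (gauss_lin _ (ps S θ n k ω) (θ k ω)).1.norm ((integrable_const (1 : ℝ)).add
            (gauss_sq _ (ps S θ n k ω) (θ k ω)).1) fun d => ?_).trans_eq ?_
          · simp only [Pi.add_apply]
            nlinarith [sq_nonneg (‖ps S θ n k ω + θ k ω * d‖ - 1)]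
          · simp only [Pi.add_apply]
            rw [integral_add (integrable_const _) (gauss_sq _ _ _).1, (gauss_sq _ _ _).2]
            simp))
    simp only [(gauss_sq _ _ _).2, (gauss_lin _ _ _).2] at h4 h5
    rw [e]
    refine ⟨(memLp_two_iff_integrable_sq_norm h5.1.1).2 h4.1, h5.2.trans h2, h4.2.trans ?_⟩
    rw [integral_add s1 s2, h3, ← integral_add ((integrable_finsetSum _ fun i _ =>
      int_theta h hK i).const_mul _) s2]
    simp only [Finset.sum_range_succ, mul_add, coe_vv]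

/-- the exponential martingale -/
noncomputable def em (S : BSys P) (θ : ℕ → Θ → ℂ) (n k : ℕ) (ω : Θ) : ℂ :=
  Complex.exp (ps S θ n k ω - (4 / 2 ^ n * ∑ i ∈ Finset.range k, θ i ω ^ 2) / 2)

theorem meas_em (h : ∀ i, Measurable[S.F (tt n i)] (θ i)) (k : ℕ) :
    Measurable[S.F (tt n k)] (em S θ n k) :=
  Complex.measurable_exp.comp ((meas_ps h k).sub
    (((meas_sum (fun i => (meas_succ h i).pow_const 2) k).const_mul _).div_const 2))

theorem em_one (h : ∀ i, Measurable[S.F (tt n i)] (θ i)) (hK : ∀ i ω, ‖θ i ω‖ ≤ K) (k : ℕ) :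
    Integrable (em S θ n k) P ∧ ∫ ω, em S θ n k ω ∂P = 1 := by
  have := S.prob
  induction k with
  | zero =>
    have e : em S θ n 0 = fun _ => 1 := funext fun ω => by simp [em, ps]
    rw [e]
    simp
  | succ k ih =>
    have e : em S θ n (k + 1) = fun ω => em S θ n k ω * Complex.exp (-((vv n : ℝ) * θ k ω ^ 2 / 2)) *
        Complex.exp (θ k ω * (dx (S.X ω) n k : ℂ)) := funext fun ω => by
      simp only [em, ps, Finset.sum_range_succ, ← Complex.exp_add, coe_vv]
      push_cast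
      congr 1
      ring
    have c1 : Continuous fun p : (ℂ × ℂ) × ℝ => p.1.1 *
        Complex.exp (-((vv n : ℝ) * p.1.2 ^ 2 / 2)) * Complex.exp (p.1.2 * p.2) := by fun_prop
    have h4 := freeze ((meas_em h k).prodMk (h k)) c1.stronglyMeasurable
      (fun y => (gauss_exp _ y.2).1.const_mul
        (y.1 * Complex.exp (-((vv n : ℝ) * y.2 ^ 2 / 2)))) (by
        simp only [norm_mul, integral_const_mul, (gauss_exp _ _).2.2, mul_assoc]
        have hm : Measurable (θ k) := (h k).mono (S.F.le _) le_rfl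
        refine ih.1.norm.mul_bdd (c := Real.exp (vv n * K ^ 2)) (by fun_prop)
          (Eventually.of_forall fun ω => ?_)
        rw [Complex.norm_exp, ← Real.exp_add, Real.norm_of_nonneg (Real.exp_pos _).le]
        refine Real.exp_le_exp.2 ?_
        have h5 : (θ k ω).im ^ 2 ≤ K ^ 2 := sq_le_sq' (by
          linarith [neg_abs_le (θ k ω).im, Complex.abs_im_le_norm (θ k ω), hK k ω])
          ((le_abs_self _).trans ((Complex.abs_im_le_norm _).trans (hK k ω)))
        have h6 : (-((vv n : ℝ) * θ k ω ^ 2 / 2 : ℂ)).re =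
            -(vv n * ((θ k ω).re ^ 2 - (θ k ω).im ^ 2) / 2) := by
          simp [sq]
        rw [h6]
        nlinarith [(vv n).2, mul_nonneg (vv n).2 (sq_nonneg K)])
    rw [e]
    refine ⟨h4.1, h4.2.trans (Eq.trans (integral_congr_ae (Eventually.of_forall fun ω => ?_)) ih.2)⟩
    simp only [integral_const_mul, (gauss_exp _ _).2.1]
    rw [mul_assoc, ← Complex.exp_add]
    simp

theorem em_sq (h : ∀ i, Measurable[S.F (tt n i)] (θ i)) (hK : ∀ i ω, ‖θ i ω‖ ≤ K) (k : ℕ) :
    MemLp (em S θ n k) 2 P ∧ ∫ ω, ‖em S θ n k ω‖ ^ 2 ∂P ≤ Real.exp (12 / 2 ^ n * k * K ^ 2) := by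
  have h1 := em_one (S := S) (θ := fun i ω => (2 * (θ i ω).re : ℝ)) (K := 2 * K)
    (fun i => Complex.measurable_ofReal.comp ((Complex.measurable_re.comp (h i)).const_mul 2))
    (fun i ω => by
      rw [Complex.norm_real, norm_mul, Real.norm_two]
      exact mul_le_mul_of_nonneg_left ((Complex.abs_re_le_norm _).trans (hK i ω)) zero_le_two) k
  have h2 : ∀ ω, ‖em S θ n k ω‖ ^ 2 ≤ Real.exp (12 / 2 ^ n * k * K ^ 2) *
      (em S (fun i ω => (2 * (θ i ω).re : ℝ)) n k ω).re := fun ω => by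
    have e1 : em S (fun i ω => (2 * (θ i ω).re : ℝ)) n k ω = (Real.exp (∑ i ∈ Finset.range k,
        (2 * (θ i ω).re * dx (S.X ω) n i - 4 / 2 ^ n * (2 * (θ i ω).re) ^ 2 / 2)) : ℝ) := by
      simp only [em, ps, Finset.sum_sub_distrib, ← Finset.sum_div, ← Finset.mul_sum]
      push_cast
      rfl
    have e2 : (ps S θ n k ω - (4 / 2 ^ n * ∑ i ∈ Finset.range k, θ i ω ^ 2) / 2).re =
        ∑ i ∈ Finset.range k, ((θ i ω).re * dx (S.X ω) n i -
          4 / 2 ^ n * ((θ i ω).re ^ 2 - (θ i ω).im ^ 2) / 2) := by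
      rw [ps, Finset.mul_sum, Finset.sum_div, ← Finset.sum_sub_distrib, Complex.re_sum]
      refine Finset.sum_congr rfl fun i _ => ?_
      rw [show (4 / 2 ^ n : ℂ) = (4 / 2 ^ n : ℝ) by push_cast; rfl]
      generalize (4 / 2 ^ n : ℝ) = c
      simp [sq]
    rw [e1, Complex.ofReal_re, em, Complex.norm_exp, ← Real.exp_nat_mul, ← Real.exp_add, e2,
      Finset.mul_sum, show 12 / 2 ^ n * (k : ℝ) * K ^ 2 = ∑ _i ∈ Finset.range k,
        3 * (4 / 2 ^ n) * K ^ 2 by simp; ring, ← Finset.sum_add_distrib]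
    refine Real.exp_le_exp.2 (Finset.sum_le_sum fun i _ => ?_)
    have h3 : (θ i ω).re ^ 2 + (θ i ω).im ^ 2 ≤ K ^ 2 := by
      have := pow_le_pow_left₀ (norm_nonneg _) (hK i ω) 2
      rwa [Complex.sq_norm, Complex.normSq_apply, ← sq, ← sq] at this
    have h4 : (0 : ℝ) ≤ 4 / 2 ^ n := by positivity
    generalize (4 / 2 ^ n : ℝ) = c at h4
    push_cast
    nlinarith [mul_le_mul_of_nonneg_left h3 h4, mul_nonneg h4 (sq_nonneg K)]
  have hm := ((meas_em h k).mono (S.F.le _) le_rfl).aestronglyMeasurable (μ := P)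
  have h3 := h1.1.re.const_mul (Real.exp (12 / 2 ^ n * k * K ^ 2))
  have h4 : Integrable (fun ω => ‖em S θ n k ω‖ ^ 2) P := h3.mono' (hm.norm.pow 2)
    (Eventually.of_forall fun ω => by
      rw [norm_pow, norm_norm]
      exact h2 ω)
  refine ⟨(memLp_two_iff_integrable_sq_norm hm).2 h4, (integral_mono h4 h3 h2).trans_eq ?_⟩
  rw [integral_const_mul, integral_re h1.1, h1.2]
  simp

end SIa

open SIa in
theorem si : SI := by
  intro Θ _ P S θ ⟨h, K, hK⟩ T
  have := S.prob
  have h1 := fun n => ps_sq (h n) (hK n) (T * 2 ^ n)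
  refine ⟨fun n => ⟨(meas_ps (h n) _).mono (S.F.le _) le_rfl, (h1 n).1, (h1 n).2.2⟩, fun I hI => ?_⟩
  obtain ⟨ns, h2, h3⟩ := hI.exists_seq_tendsto_ae
  have h4 : ∀ n ω, ‖4 / 2 ^ n * ∑ i ∈ Finset.range (T * 2 ^ n), ‖θ n i ω‖ ^ 2‖ ≤
      4 * T * K ^ 2 := fun n ω => by
    rw [Real.norm_of_nonneg (by positivity)]
    refine (mul_le_mul_of_nonneg_left (Finset.sum_le_card_nsmul _ _ (K ^ 2) fun i _ =>
      pow_le_pow_left₀ (norm_nonneg _) (hK n i ω) 2) (by positivity)).trans_eq ?_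
    simp only [Finset.card_range, nsmul_eq_mul]
    push_cast
    field_simp
  have h5 : ∀ n, ∫ ω, ‖ps S (θ n) n (T * 2 ^ n) ω‖ ^ 2 ∂P ≤ 4 * T * K ^ 2 := fun n => by
    rw [(h1 n).2.2]
    simpa using (le_abs_self _).trans
      (norm_integral_le_of_norm_le_const (μ := P) (Eventually.of_forall (h4 n)))
  refine ⟨⟨(fatou (fun n => (h1 (ns n)).1) h3 (Eventually.of_forall fun n => h5 _)).1, ?_⟩,
    fun r hr => ?_, fun q hq => ?_⟩
  · have h6 := tendsto_int (fun n => (h1 (ns n)).1) h3 fun n => h5 _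
    simp only [(h1 _).2.1] at h6
    exact (tendsto_nhds_unique tendsto_const_nhds h6).symm
  · have hm := fun n => ((integrable_finsetSum (Finset.range (T * 2 ^ n)) fun i _ =>
      int_theta (h n) (hK n) i).const_mul (4 / 2 ^ n)).1
    refine ⟨Integrable.of_bound (aestronglyMeasurable_of_tendsto_ae atTop hm hr) _
      (hr.mono fun ω h6 => le_of_tendsto' h6.norm fun n => h4 n ω),
      le_of_forall_gt_imp_ge_of_dense fun C hC => (fatou (fun n => (h1 (ns n)).1) h3 ?_).2⟩
    have h6 := (tendsto_integral_of_dominated_convergence _ hm (integrable_const _)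
      (fun n => Eventually.of_forall (h4 n)) hr).comp h2.tendsto_atTop
    filter_upwards [h6.eventually (ge_mem_nhds hC)] with n hn
    exact (h1 _).2.2.trans_le hn
  · have h6 : ∀ᵐ ω ∂P, Tendsto (fun n => em S (θ (ns n)) (ns n) (T * 2 ^ ns n) ω) atTop
        (𝓝 (Complex.exp (I ω - q ω / 2))) := by
      filter_upwards [h3, hq] with ω h7 h8
      exact (h7.sub ((h8.comp h2.tendsto_atTop).div_const 2)).cexp
    have h7 : ∀ n, ∫ ω, ‖em S (θ n) n (T * 2 ^ n) ω‖ ^ 2 ∂P ≤ Real.exp (12 * T * K ^ 2) :=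
      fun n => (em_sq (h n) (hK n) _).2.trans_eq (by
        push_cast
        congr 1
        field_simp)
    have h8 := tendsto_int (fun n => (em_sq (h (ns n)) (hK _) _).1) h6 fun n => h7 _
    simp only [(em_one (h _) (hK _) _).2] at h8
    exact ⟨(fatou (fun n => (em_sq (h (ns n)) (hK _) _).1) h6
      (Eventually.of_forall fun n => h7 _)).1.integrable one_le_two,
      (tendsto_nhds_unique tendsto_const_nhds h8).symm⟩

open SIa in
theorem rie : RIE := by
  intro c K T hK hc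
  have hm : ∀ n, Measurable fun s : ℝ => c (tt n ⌊s * 2 ^ n⌋₊) := fun n =>
    (measurable_from_top (f := fun i : ℕ => c (tt n i))).comp
      (Nat.measurable_floor.comp (measurable_id.mul_const _))
  have hb : ∀ n a b, IntervalIntegrable (fun s : ℝ => c (tt n ⌊s * 2 ^ n⌋₊)) volume a b :=
    fun n a b => intervalIntegrable_iff.2 (Measure.integrableOn_of_bounded (M := K) (by simp [uIoc])
      (hm n).aestronglyMeasurable (Eventually.of_forall fun s => hK _))
  refine ⟨Integrable.of_bound (aestronglyMeasurable_of_tendsto_ae atTop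
    (fun n => (hm n).aestronglyMeasurable) hc) K (Eventually.of_forall hK), ?_⟩
  have h1 := tendsto_integral_of_dominated_convergence _ (fun n => (hm n).aestronglyMeasurable)
    (integrable_const K) (fun n => Eventually.of_forall fun s => hK _) hc
  have hT : (0 : ℝ) ≤ T := Nat.cast_nonneg T
  rw [intervalIntegral.integral_of_le hT, ← integral_Icc_eq_integral_Ioc]
  refine h1.congr fun n => ?_
  have h2 := intervalIntegral.sum_integral_adjacent_intervals (a := tt n) (n := T * 2 ^ n)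
    fun k _ => hb n _ _
  rw [show tt n 0 = 0 by simp [tt], show tt n (T * 2 ^ n) = T by simp [tt]] at h2
  rw [integral_Icc_eq_integral_Ioc, ← intervalIntegral.integral_of_le hT, ← h2, Finset.mul_sum]
  refine Finset.sum_congr rfl fun k _ => ?_
  rw [intervalIntegral.integral_of_le (tt_mono n k.le_succ), integral_Ioc_eq_integral_Ioo,
    setIntegral_congr_fun (g := fun _ => c (tt n k)) measurableSet_Ioo fun s hs => by
      have h3 : (0 : ℝ) < 2 ^ n := by positivity
      have h4 := (div_lt_iff₀ h3).1 hs.1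
      have h5 := (lt_div_iff₀ h3).1 hs.2
      simp only
      rw [(Nat.floor_eq_iff ((Nat.cast_nonneg k).trans h4.le)).2 ⟨h4.le, by exact_mod_cast h5⟩]]
  simp [tt_succ]

end Vale.Agent.P155.Tree
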