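import Vale.Agent.P155Z.RIEM
import Vale.Agent.P155Z.GRL.Mob
import Vale.Agent.P155.NT34.YSc

/-!
# P155, branching SLE₄(-2): plane topology of domains
-/

namespace Vale.Agent.P155.Tree

open Filter Topology Set TopologicalSpace Metric Vale.Agent.P155 Vale.Agent.P155.Q1

namespace Topo

theorem annulus {r : ℝ} (hr : 0 ≤ r) : IsPreconnected {w : ℂ | r < ‖w‖ ∧ ‖w‖ < 1} := by
  have h : {w : ℂ | r < ‖w‖ ∧ ‖w‖ < 1} = (fun p : ℝ × ℝ => (p.1 : ℂ) *
      Complex.exp (p.2 * Complex.I)) '' (Ioo r 1 ×ˢ univ) := by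
    ext w
    constructor
    · intro hw
      exact ⟨(‖w‖, Complex.arg w), ⟨hw, mem_univ _⟩, Complex.norm_mul_exp_arg_mul_I w⟩
    · rintro ⟨p, ⟨hp, -⟩, rfl⟩
      have : ‖(p.1 : ℂ) * Complex.exp (p.2 * Complex.I)‖ = p.1 := by
        rw [norm_mul, Complex.norm_exp_ofReal_mul_I, mul_one, Complex.norm_real,
          Real.norm_of_nonneg (hr.trans hp.1.le)]
      show r < _ ∧ _ < 1
      rw [this]
      exact hp
  rw [h]
  exact (isPreconnected_Ioo.prod isPreconnected_univ).image _ (by fun_prop)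

theorem frontier_preconn {Ω : Set ℂ} {a b : ℂ → ℂ} (hb : Bornology.IsBounded Ω)
    (h : CI.Conf Ω DD a b) : IsPreconnected (frontier Ω) := by
  rw [isPreconnected_closed_iff]
  intro t t' ht ht' hcov ⟨p, hp⟩ ⟨p', hp'⟩
  by_contra hcon
  have hd : Disjoint (frontier Ω ∩ t) (frontier Ω ∩ t') := by
    rw [Set.disjoint_left]
    intro x h1 h2
    exact hcon ⟨x, h1.1, h1.2, h2.2⟩
  obtain ⟨u, v, hu, hv, h1, h2, huv⟩ :=
    normal_separation (isClosed_frontier.inter ht) (isClosed_frontier.inter ht') hd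
  have hC : IsCompact (closure Ω \ (u ∪ v)) := hb.isCompact_closure.diff (hu.union hv)
  have hCΩ : closure Ω \ (u ∪ v) ⊆ Ω := by
    rintro x ⟨h3, h4⟩
    by_contra h5
    have h6 : x ∈ frontier Ω := by
      rw [h.ho.frontier_eq]
      exact ⟨h3, h5⟩
    rcases hcov h6 with h7 | h7
    · exact h4 (Or.inl (h1 ⟨h6, h7⟩))
    · exact h4 (Or.inr (h2 ⟨h6, h7⟩))
  have hK : IsCompact (a '' (closure Ω \ (u ∪ v))) :=
    hC.image_of_continuousOn (h.df.continuousOn.mono hCΩ)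
  obtain ⟨r, hr, hKr⟩ := exists_pos_lt_subset_ball one_pos hK.isClosed (by
    rintro _ ⟨x, hx, rfl⟩
    exact h.mf (hCΩ hx))
  have hA : ∀ w : ℂ, r < ‖w‖ ∧ ‖w‖ < 1 → w ∈ DD := fun w hw => mem_ball_zero_iff.2 hw.2
  have hB : closedBall (0 : ℂ) r ⊆ DD := closedBall_subset_ball hr.2
  have hL : IsCompact (b '' closedBall 0 r) :=
    (isCompact_closedBall 0 r).image_of_continuousOn (h.dg.continuousOn.mono hB)
  have hmeet : ∀ (s : Set ℂ) (q : ℂ), IsOpen s → q ∈ frontier Ω → q ∈ s →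
      (b '' {w : ℂ | r < ‖w‖ ∧ ‖w‖ < 1} ∩ s).Nonempty := by
    intro s q hs hq hqs
    rw [h.ho.frontier_eq] at hq
    obtain ⟨y, ⟨hy1, hy2⟩, hy3⟩ := mem_closure_iff.1 hq.1 _
      (hs.inter hL.isClosed.isOpen_compl) ⟨hqs, by
        rintro ⟨w, hw, rfl⟩
        exact hq.2 (h.mg (hB hw))⟩
    refine ⟨y, ⟨a y, ⟨?_, mem_ball_zero_iff.1 (h.mf hy3)⟩, h.gf y hy3⟩, hy1⟩
    by_contra h3
    exact hy2 ⟨a y, mem_closedBall_zero_iff.2 (not_lt.1 h3), h.gf y hy3⟩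
  have hP : IsPreconnected (b '' {w : ℂ | r < ‖w‖ ∧ ‖w‖ < 1}) :=
    (annulus hr.1.le).image _ (h.dg.continuousOn.mono hA)
  obtain ⟨y, -, hy⟩ := hP u v hu hv (by
    rintro _ ⟨w, hw, rfl⟩
    by_contra h3
    have h4 := hKr ⟨b w, ⟨subset_closure (h.mg (hA w hw)), h3⟩, rfl⟩
    rw [h.fg w (hA w hw), mem_ball_zero_iff] at h4
    exact lt_asymm h4 hw.1) (hmeet u p hu hp.1 (h1 hp)) (hmeet v p' hv hp'.1 (h2 hp'))
  exact huv.notMem_of_mem_left hy.1 hy.2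

theorem ne_univ {Ω : Set ℂ} (hb : Bornology.IsBounded Ω) : Ω ≠ univ := by
  rintro rfl
  exact NormedSpace.unbounded_univ ℝ ℂ hb

theorem dom_of_conf {Ω : Set ℂ} {f g : ℂ → ℂ} (hb : Bornology.IsBounded Ω)
    (h : CI.Conf HH Ω f g) : Dom Ω := by
  refine ⟨h.ho', hb, ⟨f Complex.I, h.mf Grl.I_mem⟩, ?_⟩
  have hc : Convex ℝ HH := convex_halfSpace_im_gt 0
  have : ContractibleSpace HH := hc.contractibleSpace ⟨_, Grl.I_mem⟩
  let e : Ω ≃ₜ HH :=
    { toFun := fun z => ⟨g z, h.mg z.2⟩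
      invFun := fun w => ⟨f w, h.mf w.2⟩
      left_inv := fun z => Subtype.ext (h.fg z z.2)
      right_inv := fun w => Subtype.ext (h.gf w w.2)
      continuous_toFun :=
        (continuousOn_iff_continuous_domRestrict.1 h.dg.continuousOn).subtype_mk _
      continuous_invFun :=
        (continuousOn_iff_continuous_domRestrict.1 h.df.continuousOn).subtype_mk _ }
  have : ContractibleSpace Ω := e.contractibleSpace
  infer_instance

end Topo

open Topo in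
/-- **TOPO** -/
theorem topo : TOPO := by
  refine ⟨fun Ω hΩ => ?_, fun Ω f g hb h => dom_of_conf hb h, ?_⟩
  · obtain ⟨z₀, hz₀⟩ := hΩ.2.2.1
    obtain ⟨a, b, h, -⟩ := Rm.exists_conf hΩ.1 hΩ.2.2.2 (ne_univ hΩ.2.1) hz₀
    have h1 := frontier_preconn hΩ.2.1 h
    refine ⟨⟨nonempty_frontier_iff.2 ⟨hΩ.2.2.1, ne_univ hΩ.2.1⟩, h1⟩,
      NT34.Y.compl_preconn h1 hΩ.1 hΩ.2.2.1 subset_rfl fun x hx => ?_, fun z hz => ?_⟩
    · rw [hΩ.1.frontier_eq] at hx
      exact hx.2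
    · obtain ⟨a, b, h, h0⟩ := Rm.exists_conf hΩ.1 hΩ.2.2.2 (ne_univ hΩ.2.1) hz
      refine ⟨_, _, Grl.conf_trans (Grl.conf_mob Grl.I_mem) h.symm, ?_⟩
      show b (Grl.mob Complex.I Complex.I) = z
      rw [Grl.mob, sub_self, zero_div, ← h0, h.gf z hz]
  · rintro Ω K ho hb hK V ⟨z, hz, rfl⟩
    exact ⟨NT34.Y.comp_open ho K.isCompact.isClosed,
      hb.subset (NT34.Y.comp_sub.trans sdiff_subset), ⟨z, mem_connectedComponentIn hz⟩,
      NT34.Y.comp_simplyConnected ho hb K.isCompact.isClosed hK.1.isPreconnected hK.2.1 hz⟩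

end Vale.Agent.P155.Tree
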