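import Vale.Agent.P155Z.UNIQ.Step

/-!
# P155: uniqueness of tree families
-/

namespace Vale.Agent.P155.Tree

open MeasureTheory Filter Topology ProbabilityTheory Set TopologicalSpace Metric Vale.Agent.P155
  Vale.Agent.P155.Q1

namespace UQ

theorem integral_bind {Θ : Type} [MeasurableSpace Θ] {P : Measure Θ} {κ : Θ → Measure LoopColl}
    (hκ : Measurable κ) {F : LoopColl → ℂ} (hF : Integrable F (P.bind κ)) :
    Integrable (fun ω => ∫ Γ, F Γ ∂(κ ω)) P ∧
      ∫ Γ, F Γ ∂(P.bind κ) = ∫ ω, ∫ Γ, F Γ ∂(κ ω) ∂P := by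
  have e : P.bind κ = ((⟨κ, hκ⟩ : Kernel Θ LoopColl) ∘ₖ (Kernel.const Unit P)) () :=
    Measure.comp_eq_comp_const_apply (κ := (⟨κ, hκ⟩ : Kernel Θ LoopColl)) (μ := P)
  rw [e] at hF ⊢
  exact ⟨hF.integral_comp, Kernel.integral_comp hF⟩

theorem int_FF (hLM : LM) {η : ℝ} (hη : 0 < η) (Z : Finset ℂ) (d : ℂ → ℝ) {g : Loop → ℝ}
    (hg : Obs g) (Q : Measure LoopColl) [IsProbabilityMeasure Q] : Integrable (FF η Z d g) Q :=
  (integrable_const (1 : ℝ)).mono' (meas_FF hLM hη Z d hg).aestronglyMeasurable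
    (ae_of_all _ (norm_FF η Z d g))

theorem surr_of {x o : ℝ → ℝ} (hg : GoodP x o) {w₀ : ℂ} (h : typ x o w₀ ≠ 0)
    (hw₀ : w₀ ∈ calm (o + x)) : Surr x o (connectedComponentIn (calm (o + x)) w₀) := by
  intro w hw
  have hsub := connectedComponentIn_subset (calm (o + x)) w₀
  have h1 : typ x o w₀ = typ x o w := by
    refine isPreconnected_connectedComponentIn.induction₂' (fun a b => typ x o a = typ x o b)
      (fun a ha => ?_) (fun _ _ _ _ _ _ h1 h2 => h1.trans h2) (mem_connectedComponentIn hw₀) hw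
    exact ((hg.loc a (hsub ha)).mono fun b hb => ⟨hb.symm, hb⟩).filter_mono nhdsWithin_le_nhds
  have hl := (hg.lim w (hsub hw)).abs
  have h2 : |typ x o w| = 1 := by
    rw [← h1]
    revert h
    unfold typ
    split_ifs <;> simp
  rwa [h2] at hl

theorem hole_disj {Ω K U V : Set ℂ} (hU : IsHole Ω K U) (hV : IsHole Ω K V) (hne : U ≠ V) :
    Disjoint U V := by
  obtain ⟨z, -, rfl⟩ := hU
  obtain ⟨w, -, rfl⟩ := hV
  rw [Set.disjoint_left]
  intro p h1 h2
  exact hne ((connectedComponentIn_eq h1).trans (connectedComponentIn_eq h2).symm)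

theorem bd_empty {μ ν : Set ℂ → Measure LoopColl} (hμ : IsTree μ) (hν : IsTree ν) {η c : ℝ}
    {Ω : Set ℂ} {d : ℂ → ℝ} {g : Loop → ℝ} (A : Adm η Ω ∅ d g c) :
    ‖∫ Γ, FF η ∅ d g Γ ∂(μ Ω) - ∫ Γ, FF η ∅ d g Γ ∂(ν Ω)‖ = 0 := by
  rw [triv hμ A (by simp), triv hν A (by simp), sub_self, norm_zero]

theorem contract (hA : ASG) (hM : MEASA) (h3 : GEO3) (hT : TOPO) (hLM : LM) {Θ : Type}
    [m : MeasurableSpace Θ] {P : Measure Θ} (S : Sys P) (hS : IsDriver P S.X S.O)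
    {μ ν : Set ℂ → Measure LoopColl} (hμ : IsTree μ) (hν : IsTree ν) {η c Δ : ℝ} (hη : 0 < η)
    (IH : Bd μ ν η c 0) (HB : Bd μ ν η (c + 1) Δ) :
    Bd μ ν η (c + 1) (P.real {ω | typ (S.X ω) (S.O ω) Complex.I = 0} * Δ) := by
  intro Ω Z d g A
  have := hS.prob
  have hΔ : 0 ≤ Δ := (norm_nonneg _).trans (HB Ω Z d g A)
  rcases Z.eq_empty_or_nonempty with rfl | ⟨z₁, hz₁⟩
  · rw [bd_empty hμ hν A]
    positivity
  obtain ⟨f, f', hf, hfI⟩ := (hT.1 Ω A.dom).2.2 z₁ (A.sub z₁ hz₁)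
  obtain ⟨κ, hκ, hκp, hκb, hκG⟩ := hμ.step Ω A.dom f f' hf Θ m P S.X S.O hS
  obtain ⟨κ', hκ', hκp', hκb', hκG'⟩ := hν.step Ω A.dom f f' hf Θ m P S.X S.O hS
  have := hμ.prob Ω A.dom
  have := hν.prob Ω A.dom
  obtain ⟨i1, e1⟩ := integral_bind (P := P) hκ (hκb ▸ int_FF hLM hη Z d A.obs (μ Ω))
  obtain ⟨i2, e2⟩ := integral_bind (P := P) hκ' (hκb' ▸ int_FF hLM hη Z d A.obs (ν Ω))
  have hE : MeasurableSet {ω | typ (S.X ω) (S.O ω) Complex.I = 0} :=
    ((hM Θ m P S).2.1.comp (measurable_id.prodMk measurable_const)) (measurableSet_singleton 0)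
  rw [← hκb, ← hκb', e1, e2, ← integral_sub i1 i2, ← smul_eq_mul, ← integral_indicator_const Δ hE]
  refine norm_integral_le_of_norm_le ((integrable_const Δ).indicator hE) ?_
  have hI : Complex.I ∈ HH := by simp [HH]
  have hc : ∀ᵐ ω ∂P, ∀ z ∈ Z, f' z ∈ calm (S.W ω) :=
    (eventually_all_finset Z).2 fun z hz => (hA Θ m P S).2.1 _ (hf.mg (A.sub z hz))
  filter_upwards [hκG, hκG', hc, (hA Θ m P S).1] with ω hG hG' hcalm hgood
  have := hκp ω
  obtain ⟨-, -, hcarp, hhole, -⟩ := h3 Ω f f' (S.W ω) A.dom hf ((S.contO ω).add (S.cont ω))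
  have hIc : Complex.I ∈ calm (S.W ω) := by
    have := hcalm z₁ hz₁
    rwa [← hfI, hf.gf _ hI] at this
  have key := step hLM hT hμ hν hη IH HB A (by
      rintro U ⟨V, h1, -, h2⟩
      exact ⟨V, h1, h2⟩)
    (fun U hU => hT.2.2 Ω _ A.dom.1 A.dom.2.1 hcarp U ((hhole U).2 hU))
    (fun U hU => by
      obtain ⟨z, -, rfl⟩ := (hhole U).2 hU
      exact (connectedComponentIn_subset _ _).trans sdiff_subset)
    (fun U hU V hV hne => hole_disj ((hhole U).2 hU) ((hhole V).2 hV) hne)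
    (fun z hz => ⟨_, ⟨_, ⟨f' z, hcalm z hz, rfl⟩, rfl⟩,
      f' z, mem_connectedComponentIn (hcalm z hz), hf.fg z (A.sub z hz)⟩)
    hG hG' hz₁ ⟨_, ⟨Complex.I, hIc, rfl⟩, rfl⟩ ⟨Complex.I, mem_connectedComponentIn hIc, hfI⟩
  by_cases h : typ (S.X ω) (S.O ω) Complex.I = 0
  · rw [indicator_of_mem (by exact h)]
    exact key.1
  · rw [indicator_of_notMem (by exact h),
      key.2 ⟨_, ⟨Complex.I, hIc, rfl⟩, surr_of hgood h hIc, rfl⟩, sub_self, norm_zero]

theorem bd_all (hS : SETUP) (hA : ASG) (hM : MEASA) (h3 : GEO3) (hT : TOPO) (hLM : LM)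
    {μ ν : Set ℂ → Measure LoopColl} (hμ : IsTree μ) (hν : IsTree ν) {η : ℝ} (hη : 0 < η)
    (c : ℕ) : Bd μ ν η c 0 := by
  obtain ⟨Θ, m, P, S, hD⟩ := hS.1
  have := hD.prob
  have hE : MeasurableSet {ω | typ (S.X ω) (S.O ω) Complex.I = 0} :=
    ((hM Θ m P S).2.1.comp (measurable_id.prodMk measurable_const)) (measurableSet_singleton 0)
  have hq : P.real {ω | typ (S.X ω) (S.O ω) Complex.I = 0} < 1 := by
    have h1 := probReal_add_probReal_compl (μ := P) hE
    have h2 : 0 < P.real {ω | typ (S.X ω) (S.O ω) Complex.I = 0}ᶜ :=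
      ENNReal.toReal_pos (hA Θ m P S).2.2 (measure_ne_top _ _)
    linarith
  induction c with
  | zero =>
    intro Ω Z d g A
    rcases Z.eq_empty_or_nonempty with rfl | hZ
    · exact (bd_empty hμ hν A).le
    · have h1 : 0 < ∑ z ∈ Z, (1 + d z) :=
        Finset.sum_pos (fun z hz => by linarith [A.pos z hz]) hZ
      have h2 := A.cx
      push_cast at h2
      linarith
  | succ c ih =>
    have h1 : ∀ n : ℕ, Bd μ ν η (c + 1)
        (P.real {ω | typ (S.X ω) (S.O ω) Complex.I = 0} ^ n * 2) := by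
      intro n
      induction n with
      | zero =>
        intro Ω Z d g A
        have := hμ.prob Ω A.dom
        have := hν.prob Ω A.dom
        have h1 := norm_integral_le_of_norm_le_const (μ := μ Ω) (ae_of_all _ (norm_FF η Z d g))
        have h2 := norm_integral_le_of_norm_le_const (μ := ν Ω) (ae_of_all _ (norm_FF η Z d g))
        rw [probReal_univ] at h1 h2
        refine (norm_sub_le _ _).trans ?_
        linarith
      | succ n ihn =>
        rw [pow_succ', mul_assoc]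
        exact contract hA hM h3 hT hLM S hD hμ hν hη ih ihn
    intro Ω Z d g A
    push_cast at A
    have h2 := (tendsto_pow_atTop_nhds_zero_of_lt_one measureReal_nonneg hq).mul_const 2
    rw [zero_mul] at h2
    exact ge_of_tendsto' h2 fun n => h1 n Ω Z d g A

open Classical in
/-- the first points of the dense sequence in `Ω` -/
noncomputable def pts (Ω : Set ℂ) (k : ℕ) : Finset ℂ :=
  ((Finset.range k).image (denseSeq ℂ)).filter (· ∈ Ω)

open Classical in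
/-- the cut-off observable -/
noncomputable def cut (η : ℝ) (Z : Finset ℂ) (g : Loop → ℝ) (l : Loop) : ℝ :=
  if η < l.diam ∧ ∃ z ∈ Z, Sur z l then g l else 0

theorem obs_cut (hLM : LM) {η : ℝ} (hη : 0 < η) (Z : Finset ℂ) {g : Loop → ℝ} (hg : Obs g) :
    Obs (cut η Z g) := by
  let : MeasurableSpace Loop := borel Loop
  refine ⟨Measurable.ite ((meas_big η).inter ?_) hg.1 measurable_const, η, hη, fun l hl => ?_⟩
  · have : {l | ∃ z ∈ Z, Sur z l} = ⋃ z ∈ Z, {l | Sur z l} := by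
      ext l
      simp
    show MeasurableSet {l | ∃ z ∈ Z, Sur z l}
    rw [this]
    exact Z.measurableSet_biUnion fun z _ => meas_sur hLM z
  · exact if_neg fun h => h.1.not_ge hl

theorem lim (hLM : LM) {μ : Set ℂ → Measure LoopColl} (hμ : IsTree μ) {Ω : Set ℂ} (hΩ : Dom Ω)
    {g : Loop → ℝ} (hg : Obs g) {η : ℝ} (hη : 0 < η) (h0 : ∀ l : Loop, l.diam ≤ η → g l = 0) :
    Tendsto (fun k : ℕ => ∫ Γ, FF η (pts Ω k) (fun _ => k + 1) (cut η (pts Ω k) g) Γ ∂(μ Ω))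
      atTop (𝓝 (∫ Γ, Complex.exp (Complex.I * sm g Γ) ∂(μ Ω))) := by
  classical
  have := hμ.prob Ω hΩ
  refine tendsto_integral_of_dominated_convergence (fun _ => 1)
    (fun k => (meas_FF hLM hη _ _ (obs_cut hLM hη _ hg)).aestronglyMeasurable)
    (integrable_const _) (fun k => ae_of_all _ (norm_FF _ _ _ _)) ?_
  filter_upwards [hμ.simple Ω hΩ] with Γ hΓ
  refine tendsto_const_nhds.congr' ?_
  have hb : Obs fun l : Loop => if η < l.diam then (1 : ℝ) else 0 := by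
    let : MeasurableSpace Loop := borel Loop
    exact ⟨Measurable.ite (meas_big η) measurable_const measurable_const, η, hη,
      fun l hl => if_neg hl.not_gt⟩
  have h1 : ∀ z, sm (ind η z) Γ ≤ sm (fun l : Loop => if η < l.diam then (1 : ℝ) else 0) Γ := by
    intro z
    refine finsum_le_finsum' (fin_supp (obs_ind hLM hη z) Γ) (fin_supp hb Γ) fun l => ?_
    refine mul_le_mul_of_nonneg_left ?_ (Nat.cast_nonneg _)
    beta_reduce
    by_cases h2 : ind η z l = 0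
    · rw [h2]
      split_ifs <;> simp
    · rw [if_pos (ind_ne h2).1, ind, if_pos (ind_ne h2)]
  have h2 : ∀ᶠ k : ℕ in atTop, ∀ l ∈ {l | Γ.mult l ≠ 0 ∧ η < l.diam},
      ∃ z ∈ pts Ω k, Sur z l := by
    refine (eventually_all_finite (Γ.fin η hη)).2 fun l hl => ?_
    obtain ⟨γ, U, hU, hne, h1, h2, rfl⟩ := hΓ l hl.1
    obtain ⟨j, hj⟩ := (denseRange_denseSeq ℂ).exists_mem_open hU hne
    have hUΩ : U ⊆ Ω := subset_closure.trans h1
    filter_upwards [eventually_gt_atTop j] with k hk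
    exact ⟨denseSeq ℂ j, Finset.mem_filter.2
      ⟨Finset.mem_image_of_mem _ (Finset.mem_range.2 hk), hUΩ hj⟩,
      sur_of_mem hU (hΩ.2.1.subset hUΩ) h2.2 hj⟩
  filter_upwards [h2, tendsto_natCast_atTop_atTop.eventually_ge_atTop
    (sm (fun l : Loop => if η < l.diam then (1 : ℝ) else 0) Γ)] with k hk hk'
  have h3 : sm (cut η (pts Ω k) g) Γ = sm g Γ := by
    refine sm_congr fun l hl => ?_
    by_cases h : η < l.diam
    · exact if_pos ⟨h, hk l ⟨hl, h⟩⟩
    · rw [h0 l (not_lt.1 h)]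
      exact if_neg fun h' => h h'.1
  unfold FF
  rw [if_pos fun z _ => by linarith [h1 z], h3]

end UQ

open UQ in
/-- **UNIQ**: uniqueness of tree families. -/
theorem uniq_of (hS : SETUP) (hA : ASG) (hM : MEASA) (h3 : GEO3) (hT : TOPO) (hLM : LM) :
    UNIQ := by
  intro μ ν hμ hν Ω hΩ
  refine hLM.2.2.2.2.2 _ _ (hμ.prob Ω hΩ) (hν.prob Ω hΩ) fun g hg => ?_
  obtain ⟨η, hη, h0⟩ := hg.2
  refine tendsto_nhds_unique (lim hLM hμ hΩ hg hη h0) ((lim hLM hν hΩ hg hη h0).congr fun k => ?_)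
  obtain ⟨c, hc⟩ := exists_nat_ge (∑ _z ∈ pts Ω k, (1 + ((k : ℝ) + 1)))
  refine (sub_eq_zero.1 (norm_le_zero_iff.1 (bd_all hS hA hM h3 hT hLM hμ hν hη c Ω _ _ _
    ⟨hΩ, fun z hz => ?_, obs_cut hLM hη _ hg, fun l _ h => ?_, fun _ _ => by positivity,
      hc⟩))).symm
  · classical
    exact (Finset.mem_filter.1 hz).2
  · by_contra h1
    exact h (if_neg h1)

end Vale.Agent.P155.Tree
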