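import Vale.Agent.P155Z.TREE
import Vale.Agent.P155Z.BSY
import Vale.Agent.P155Z.SI
import Vale.Agent.P155Z.PATH
import Vale.Agent.P155Z.FOL
import Vale.Agent.P155Z.PVX
import Vale.Agent.P155Z.ITO
import Vale.Agent.P155Z.ONE1
import Vale.Agent.P155Z.ONE2
import Vale.Agent.P155Z.GEO0
import Vale.Agent.P155Z.DET
import Vale.Agent.P155Z.TOPO
import Vale.Agent.P155Z.GEO1
import Vale.Agent.P155Z.GEO2
import Vale.Agent.P155Z.GEO3
import Vale.Agent.P155Z.MEASA
import Vale.Agent.P155Z.CARA
import Vale.Agent.P155Z.GR0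
import Vale.Agent.P155Z.GRL
import Vale.Agent.P155Z.LSI
import Vale.Agent.P155Z.RIEM
import Vale.Agent.P155Z.MODEL
import Vale.Agent.P155Z.JM
import Vale.Agent.P155Z.FIX
import Vale.Agent.P155Z.GLUE
import Vale.Agent.P155Z.HL
import Vale.Agent.P155Z.LM
import Vale.Agent.P155Z.GLX
import Vale.Agent.P155Z.UNIQ

/-!
# P155, branching SLE₄(-2): all blocks together
-/

namespace Vale.Agent.P155.Tree

theorem setup : SETUP := setup_of bmx bsy (pvx_of si path fol2 rie pvm)

theorem stp : STP := stp_of meas geo0 rie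

theorem ito : ITO := ito_of si path foll meas stp pvm geo0

theorem geo1 : GEO1 := geo1_of geo0

theorem geo3 : GEO3 := geo3_of topo geo0 geo1

theorem measa : MEASA := measa_of meas geo0 geo1 geo3

theorem asg : ASG :=
  asg_of (one1_of si stp ito meas) (one2_of si stp ito meas) (one3_of si stp ito meas)
    (det_of geo0) path geo1 (geo2_of geo0 geo1) measa

theorem lsi : LSI :=
  lsi_of si rie stp ito geo0 geo3 (grl_of geo1 geo3 topo cara en gr1) asg

theorem glx (h1 : UL) (h2 : UL2) (h3 : Nonempty Model) : GLX :=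
  glx_of h1 h2 h3 (riem_of cara topo) (glue_of jm (fix_of jm en) topo)
    (hl_of jm) lm topo

theorem tree_of_ul (h1 : UL) (h2 : UL2) (h3 : Nonempty Model) : TREE :=
  tree_of setup asg measa geo0 geo3 lsi (glx h1 h2 h3) h1 lm

theorem uniq : UNIQ := uniq_of setup asg measa geo3 topo lm

end Vale.Agent.P155.Tree
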