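import Vale.Agent.P155Z.Sk

/-!
# P155, branching SLE₄(-2): the exploration depends only on the nonnegative times
-/

namespace Vale.Agent.P155.Tree

open MeasureTheory Filter Topology ProbabilityTheory Set TopologicalSpace Metric Vale.Agent.P155
  Vale.Agent.P155.Q1 Vale.Agent.P164 Vale.Agent.P155.Uq

section

variable {W W' : ℝ → ℝ}

theorem sol_congr (h : ∀ t, 0 ≤ t → W t = W' t) (w : ℂ) (t : ℝ) :
    IsLoewnerSol W w t = IsLoewnerSol W' w t := by
  funext g
  unfold IsLoewnerSol
  apply propext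
  refine and_congr_right fun _ => forall₂_congr fun s hs => ?_
  rw [h s hs.1]

theorem dom_congr (h : ∀ t, 0 ≤ t → W t = W' t) (t : ℝ) :
    loewnerDomain W t = loewnerDomain W' t := by
  unfold loewnerDomain
  ext w
  simp only [mem_ofPred_eq, sol_congr h w t]

theorem gt_congr (h : ∀ t, 0 ≤ t → W t = W' t) (t : ℝ) (w : ℂ) : gt W t w = gt W' t w := by
  unfold gt
  have e := sol_congr h w t
  generalize IsLoewnerSol W w t = A at e ⊢
  subst e
  rfl

theorem life_congr (h : ∀ t, 0 ≤ t → W t = W' t) : life W = life W' := by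
  funext w
  unfold life
  simp only [dom_congr h]

theorem calm_congr (h : ∀ t, 0 ≤ t → W t = W' t) : calm W = calm W' := by
  unfold calm
  rw [life_congr h]

theorem comp_congr (h : ∀ t, 0 ≤ t → W t = W' t) : Comp W = Comp W' := by
  funext V
  unfold Comp
  rw [calm_congr h]

end

section

variable {x o x' o' : ℝ → ℝ}

theorem add_congr (h : ∀ t, 0 ≤ t → x t = x' t ∧ o t = o' t) :
    ∀ t, 0 ≤ t → (o + x) t = (o' + x') t := fun t ht => by
  simp only [Pi.add_apply, (h t ht).1, (h t ht).2]

theorem hh_congr (h : ∀ t, 0 ≤ t → x t = x' t ∧ o t = o' t) (w : ℂ) {t : ℝ} (ht : 0 ≤ t) :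
    hh x o w t = hh x' o' w t := by
  unfold hh
  rw [gt_congr (add_congr h), (h t ht).1, (h t ht).2]

theorem tendsto_congr_life (h : ∀ t, 0 ≤ t → x t = x' t ∧ o t = o' t) (w : ℂ) (F : ℝ → ℝ)
    (l : Filter ℝ) :
    Tendsto (fun t : life (o + x) w => F (hh x o w t)) atTop l ↔
      Tendsto (fun t : life (o' + x') w => F (hh x' o' w t)) atTop l := by
  have e : life (o + x) w = life (o' + x') w := by rw [life_congr (add_congr h)]
  have e2 : (fun t : life (o + x) w => F (hh x o w t)) =
      fun t : life (o + x) w => F (hh x' o' w t) := by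
    funext t
    rw [hh_congr h w t.2.1]
  rw [e2]
  generalize life (o + x) w = L at e ⊢
  subst e
  rfl

theorem surr_congr (h : ∀ t, 0 ≤ t → x t = x' t ∧ o t = o' t) : Surr x o = Surr x' o' := by
  funext V
  unfold Surr
  apply propext
  exact forall₂_congr fun w _ => tendsto_congr_life h w (fun u => |u|) _

end

theorem typ_val (x o : ℝ → ℝ) (w : ℂ) : typ x o w = 0 ∨ typ x o w = 1 ∨ typ x o w = -1 := by
  unfold typ
  split_ifs
  · exact Or.inr (Or.inl rfl)
  · exact Or.inr (Or.inr rfl)
  · exact Or.inl rfl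

/-- on a good path, surrounded means nonzero type -/
theorem surr_iff {x o : ℝ → ℝ} (h0 : GEO0) (hx : Continuous x) (ho : Continuous o)
    (hg : GoodP x o) {V : Set ℂ} (hV : Comp (o + x) V) :
    Surr x o V ↔ ∀ w ∈ V, typ x o w ≠ 0 := by
  obtain ⟨w₀, -, rfl⟩ := hV
  refine forall₂_congr fun w hw => ?_
  have hc : w ∈ calm (o + x) := connectedComponentIn_subset _ _ hw
  have hl := (hg.lim w hc).abs
  have hne : Nonempty (life (o + x) w) := ⟨⟨0, (h0 (o + x) (ho.add hx) w hc.1).1.1⟩⟩
  constructor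
  · intro h1 h2
    have := tendsto_nhds_unique h1 hl
    rw [h2, abs_zero] at this
    exact one_ne_zero this
  · intro h1
    rcases typ_val x o w with h2 | h2 | h2
    · exact absurd h2 h1
    · rwa [h2, abs_one] at hl
    · rwa [h2, abs_neg, abs_one] at hl

end Vale.Agent.P155.Tree
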