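import Vale.Agent.P155.NO801.YS
import Vale.Agent.P155.CI.Defs
import Vale.Agent.P164.Defs

/-!
# P155: nested CLE₄ as the branching SLE₄(-2) exploration of Sheffield: definitions

The chordal Loewner chain driven by `W = O + X`, where `X / 2` is a Brownian motion and
`O t = - p.v. ∫₀ᵗ 2 ds / X s`, is the symmetric SLE₄(-2) process; every excursion of `X` traces a
loop.  A family of laws is a tree family if in every domain the loop collection consists of the
loops traced by this process and of independent collections in all the remaining components.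
-/

namespace Vale.Agent.P155.Tree

open MeasureTheory Filter Topology ProbabilityTheory Set Vale.Agent.P155 Vale.Agent.P155.Q1
  Vale.Agent.P164

/-- The upper half-plane. -/
def HH : Set ℂ := {w | 0 < w.im}

/-- Bounded simply connected domains. -/
def Dom (Ω : Set ℂ) : Prop :=
  IsOpen Ω ∧ Bornology.IsBounded Ω ∧ Ω.Nonempty ∧ SimplyConnectedSpace Ω

open Classical in
/-- The truncated integral `∫₀ᵗ 1{|x s| > ε} 2 ds / x s`. -/
noncomputable def pv (x : ℝ → ℝ) (ε t : ℝ) : ℝ :=
  ∫ s in (0 : ℝ)..t, if ε < |x s| then 2 / x s else 0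

/-- The symmetric SLE₄(-2) process: `X / 2` is a Brownian motion, the force point `O` is
continuous and equal to minus the principal value of `∫₀ᵗ 2 ds / X s`; the driving function is
`O + X`. -/
structure IsDriver {Θ : Type} [MeasurableSpace Θ] (P : Measure Θ) (X O : Θ → ℝ → ℝ) : Prop where
  prob : IsProbabilityMeasure P
  bm : IsBrownianReal (fun (t : NNReal) ω => X ω t / 2) P
  cont : ∀ᵐ ω ∂P, ContinuousOn (O ω) (Ici 0)
  lim : ∀ t, 0 ≤ t → TendstoInMeasure P (fun ε ω => -pv (X ω) ε t) (𝓝[>] 0) (fun ω => O ω t)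

open Classical in
/-- The Loewner map `g_t (w)` of the driving function `W`. -/
noncomputable def gt (W : ℝ → ℝ) (t : ℝ) (w : ℂ) : ℂ :=
  if h : ∃ g, IsLoewnerSol W w t g then h.choose t else 0

/-- The times `[0, T_w)` before `w` is swallowed. -/
def life (W : ℝ → ℝ) (w : ℂ) : Set ℝ := {t | 0 ≤ t ∧ w ∈ loewnerDomain W t}

/-- The points near which the swallowing time is constant. -/
def calm (W : ℝ → ℝ) : Set ℂ := {w | w ∈ HH ∧ ∀ᶠ w' in 𝓝 w, life W w' = life W w}

/-- The components cut out by the Loewner chain. -/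
def Comp (W : ℝ → ℝ) (V : Set ℂ) : Prop := ∃ w ∈ calm W, V = connectedComponentIn (calm W) w

/-- The signed harmonic measure, seen from `g_t (w)`, of the interval between the force point
`o t` and the driving point `o t + x t` (the side of the loop which is being traced). -/
noncomputable def hh (x o : ℝ → ℝ) (w : ℂ) (t : ℝ) : ℝ :=
  (Complex.arg (gt (o + x) t w - (o t + x t : ℝ)) - Complex.arg (gt (o + x) t w - (o t : ℝ))) /
    Real.pi

/-- `V` is surrounded by a loop: this harmonic measure tends to `1` at the swallowing time. -/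
def Surr (x o : ℝ → ℝ) (V : Set ℂ) : Prop :=
  ∀ w ∈ V, Tendsto (fun t : life (o + x) w => |hh x o w t|) atTop (𝓝 1)

/-- Under `Q`, the loops which lie in no member of `𝒱` are the boundaries (simple loops) of the
members of `𝒮`; the collections of the loops in the members `V` of `𝒱` are independent, with
laws `μ V`. -/
structure Given (μ : Set ℂ → Measure LoopColl) (Q : Measure LoopColl) (𝒱 𝒮 : Set (Set ℂ)) :
    Prop where
  jordan : ∀ V ∈ 𝒮, ∃ γ : PL, IsJordan γ (frontier V)
  loops : ∀ᵐ Γ ∂Q, ∀ l, (∀ V ∈ 𝒱, ¬ NCLE.LIn l V) → Γ.mult l =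
    Set.ncard {V | V ∈ 𝒮 ∧ ∃ γ : PL, IsJordan γ (frontier V) ∧ SeparationQuotient.mk γ = l}
  indep : ∀ (m : ℕ) (V : Fin m → Set ℂ), Function.Injective V → (∀ i, V i ∈ 𝒱) →
    iIndepFun (fun i Γ => NCLE.inside Γ (V i)) Q
  law : ∀ V ∈ 𝒱, AEMeasurable (fun Γ => NCLE.inside Γ V) Q ∧
    Q.map (fun Γ => NCLE.inside Γ V) = μ V

/-- **Nested CLE₄ by the branching SLE₄(-2) exploration**: `μ Ω` is a law of collections of simple
loops in `Ω` (boundaries of open sets); for every conformal map `f` from the half-plane onto `Ω`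
and every SLE₄(-2) process, `μ Ω` is the mixture of laws `κ ω` under which the collection consists
of the boundaries of the images of the surrounded components and of independent collections with
laws `μ (f V)` in the images of all the components `V`. -/
structure IsTree (μ : Set ℂ → Measure LoopColl) : Prop where
  prob : ∀ Ω, Dom Ω → IsProbabilityMeasure (μ Ω)
  simple : ∀ Ω, Dom Ω → ∀ᵐ Γ ∂(μ Ω), ∀ l, Γ.mult l ≠ 0 → ∃ (γ : PL) (U : Set ℂ), IsOpen U ∧
    U.Nonempty ∧ closure U ⊆ Ω ∧ IsJordan γ (frontier U) ∧ SeparationQuotient.mk γ = l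
  step : ∀ Ω, Dom Ω → ∀ f g : ℂ → ℂ, CI.Conf HH Ω f g →
    ∀ (Θ : Type) (_ : MeasurableSpace Θ) (P : Measure Θ) (X O : Θ → ℝ → ℝ), IsDriver P X O →
    ∃ κ : Θ → Measure LoopColl, Measurable κ ∧ (∀ ω, IsProbabilityMeasure (κ ω)) ∧
      P.bind κ = μ Ω ∧ ∀ᵐ ω ∂P, Given μ (κ ω) {U | ∃ V, Comp (O ω + X ω) V ∧ U = f '' V}
        {U | ∃ V, Comp (O ω + X ω) V ∧ Surr (X ω) (O ω) V ∧ U = f '' V}

end Vale.Agent.P155.Tree
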