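import Vale.Agent.P155Z.TREE
import Vale.Agent.P155.NO801.Y4a
import Vale.Agent.P155.NT730Y.Mk3
import Vale.Agent.P155.CI.Main
import Vale.Agent.P155.QQ.Exact

/-!
# P155, branching SLE₄(-2): the inputs from the uniqueness of signed carpets
-/

namespace Vale.Agent.P155.Tree

open MeasureTheory Filter Topology ProbabilityTheory Set TopologicalSpace Metric Vale.Agent.P155
  Vale.Agent.P155.Q1 Vale.Agent.P164 Vale.Agent.P155.Uq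

theorem fair_of {Ω : Set ℂ} {μ : Measure LoopColl} (h : IsNestedCLE4 Ω μ) :
    ∃ (Θ : Type) (_ : MeasurableSpace Θ) (P : Measure Θ) (G : ℕ → Θ → NonemptyCompacts ℂ)
      (ξ : ℕ → ℕ → Θ → ℝ), T211Q.FairCarpets P Ω G ξ := by
  obtain ⟨Θ, mΘ, P, G, ξ, Γ, hP, -, -, -, mξ, pm, half, iind, mG, ind, sc⟩ := h
  exact ⟨Θ, mΘ, P, G, ξ, hP, mξ, pm, half, iind, mG, ind, sc⟩

/-- **UL** -/
theorem ul : UL := by
  intro Ω hΩ μ hμ
  obtain ⟨ho, hb, hne, hsc⟩ := hΩ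
  obtain ⟨Θ₀, m₀, P₀, G₀, ξ₀, hf⟩ := fair_of hμ
  obtain ⟨h1, h2, h3⟩ := NO801.Y.gam_law ho hb hne hsc hf hμ
  refine ⟨h2.mk _, h2.measurable_mk, fun Θ mΘ P G H hP hG => ?_⟩
  have := hf.prob
  have e : P.map (fun x k => G k x) = NO801.Y.lawS P₀ G₀ := NT730Y.uniq_law ho hb hne hG hf.sc
  rw [e]
  refine ⟨?_, ?_⟩
  · filter_upwards [h1, h2.ae_eq_mk] with s hs he
    rwa [← he]
  · rw [← Measure.map_congr h2.ae_eq_mk, h3]

theorem dom_DD : Dom DD := by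
  refine ⟨isOpen_ball, isBounded_ball, ⟨0, mem_ball_self one_pos⟩, ?_⟩
  have : ContractibleSpace (ball (0 : ℂ) 1) :=
    (convex_ball (0 : ℂ) 1).contractibleSpace ⟨0, mem_ball_self one_pos⟩
  infer_instance

theorem exists_nested {Ω : Set ℂ} (hΩ : Dom Ω) : ∃ μ, IsNestedCLE4 Ω μ := by
  obtain ⟨-, μ, -, h, -⟩ := (QQ.exact_of NT613.vbp2).1 Ω hΩ.1 hΩ.2.1 hΩ.2.2.1 hΩ.2.2.2
  exact ⟨μ, h⟩

theorem exists_canon_DD : ∃ Q : Measure (Sp DD), Canon DD Q := by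
  obtain ⟨μ, hμ⟩ := exists_nested dom_DD
  obtain ⟨Θ₀, m₀, P₀, G₀, ξ₀, hf⟩ := fair_of hμ
  have := hf.prob
  obtain ⟨Q, hQ, -⟩ := NT730Y.exists_canon dom_DD.1 dom_DD.2.1 dom_DD.2.2.1 hf.sc
  exact ⟨Q, hQ⟩

theorem toNC_coe (K : NonemptyCompacts ℂ) : toNC (K : Set ℂ) = K := by
  unfold toNC
  rw [dif_pos ⟨K.isCompact, K.nonempty⟩]
  rfl

/-- **UL2** -/
theorem ul2 : UL2 := by
  intro V a b hV hab μ hμ
  obtain ⟨C, hC, hall⟩ := ul V hV μ hμ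
  obtain ⟨ν, hν⟩ := exists_nested dom_DD
  obtain ⟨Θ₀, m₀, P₀, G₀, ξ₀, hf⟩ := fair_of hν
  have hP₀ := hf.prob
  have hfc : IsConnected (frontier V) := by
    obtain ⟨Θ, mΘ, P, G, ξ, hf'⟩ := fair_of hμ
    have := hf'.prob
    obtain ⟨x, h1, h2⟩ := (hf'.sc.zero.and hf'.sc.conn).exists
    rw [← h1.1]
    exact h2 0
  have h := hab.symm
  have sc := CI.carp h (CI.ana _ _ _ _ h) dom_DD.2.1 dom_DD.2.2.1 hV.2.1 hfc.nonempty hfc hf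
  obtain ⟨h1, h2⟩ := hall Θ₀ m₀ P₀ _ _ hP₀ sc
  set T : (ℕ → NonemptyCompacts ℂ) → ℕ → NonemptyCompacts ℂ :=
    fun s k => CI.imgN h hV.2.1 hfc.nonempty (s k) with hT
  have hTm : Measurable T := measurable_pi_lambda _ fun k =>
    (CI.continuous_imgN h hV.2.1 hfc.nonempty).measurable.comp (measurable_pi_apply k)
  refine ⟨C ∘ T, hC.comp hTm, fun Θ mΘ P G H hP hG => ?_⟩
  have e : P.map (fun x k => G k x) = P₀.map (fun x k => G₀ k x) :=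
    NT730Y.uniq_law dom_DD.1 dom_DD.2.1 dom_DD.2.2.1 hG hf.sc
  have hm : Measurable (fun x k => G k x : Θ → ℕ → NonemptyCompacts ℂ) := NT730Y.meas_seq hG
  have hm₀ : Measurable (fun x k => G₀ k x : Θ₀ → ℕ → NonemptyCompacts ℂ) := NT730Y.meas_seq hf.sc
  have e2 : P₀.map (fun x k => CI.imgN h hV.2.1 hfc.nonempty (G₀ k x)) =
      P.map (T ∘ fun x k => G k x) := by
    rw [← Measure.map_map hTm hm, e, Measure.map_map hTm hm₀]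
    rfl
  rw [e2] at h1 h2
  refine ⟨?_, ?_⟩
  · filter_upwards [ae_of_ae_map (hTm.comp hm).aemeasurable h1] with x hx
    have e3 : (fun k => toNC (CI.img V a (G k x))) = T (fun k => G k x) := by
      funext k
      exact toNC_coe (CI.imgN h hV.2.1 hfc.nonempty (G k x))
    rw [e3]
    exact hx
  · rw [Measure.map_map hC (hTm.comp hm)] at h2
    exact h2

/-- the final statement from the two main blocks -/
theorem final_of (hS : SETUP) (hT : TREE) (hU : UNIQ) :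
    (∃ (Θ : Type) (_ : MeasurableSpace Θ) (P : Measure Θ) (X O : Θ → ℝ → ℝ), IsDriver P X O) ∧
    ∃ μ : Set ℂ → Measure LoopColl, IsTree μ ∧ (∀ ν, IsTree ν → ∀ Ω, Dom Ω → ν Ω = μ Ω) ∧
      ∀ Ω, Dom Ω → IsNestedCLE4 Ω (μ Ω) ∧ (∃ S : Approx Ω, S.Outer) ∧
        ∀ S : Approx Ω, ((∀ F : LoopColl → ℝ, Continuous F → (∃ C, ∀ Γ, |F Γ| ≤ C) →
          Tendsto (fun n => Ex (S.T n).V (fun ω => F (LL (S.δ n) (S.a n) ω))) atTop
            (𝓝 (∫ Γ, F Γ ∂(μ Ω)))) ↔ S.Outer) ∧ (IsConnected (closure Ω)ᶜ → S.Outer) := by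
  classical
  obtain ⟨Θ, mΘ, P, S, hD⟩ := hS.1
  refine ⟨⟨Θ, mΘ, P, S.X, S.O, hD⟩, ?_⟩
  set μ : Set ℂ → Measure LoopColl := fun Ω =>
    if h : Dom Ω then (exists_nested h).choose else 0 with hμ
  have hn : ∀ Ω, Dom Ω → IsNestedCLE4 Ω (μ Ω) := by
    intro Ω hΩ
    simp only [hμ, dif_pos hΩ]
    exact (exists_nested hΩ).choose_spec
  refine ⟨μ, hT μ hn, fun ν hν Ω hΩ => hU ν μ hν (hT μ hn) Ω hΩ, fun Ω hΩ => ?_⟩
  obtain ⟨h1, μ', -, -, h3, h4⟩ := (QQ.exact_of NT613.vbp2).1 Ω hΩ.1 hΩ.2.1 hΩ.2.2.1 hΩ.2.2.2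
  refine ⟨hn Ω hΩ, h1, ?_⟩
  rw [h3 _ (hn Ω hΩ)]
  exact h4

end Vale.Agent.P155.Tree
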