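import Vale.Agent.P155Z.Asm
import Vale.Agent.P155Z.UL

/-!
# P155, branching SLE₄(-2): the tree property
-/

namespace Vale.Agent.P155.Tree

theorem tree : TREE := tree_of_ul ul ul2 (model exists_canon_DD)

end Vale.Agent.P155.Tree
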