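import Vale.Agent.P155Z.Sk
import Vale.Agent.P155.CI.Green

/-!
# P155, block GR1: the energy as a double integral against the Green function, in every domain
-/

namespace Vale.Agent.P155.Tree

open MeasureTheory Filter Topology Set Metric Vale.Agent.P155 Vale.Agent.P155.Q1

namespace G1

theorem gD_nonneg {u v : ℂ} (hu : u ∈ DD) (hv : v ∈ DD) : 0 ≤ gD u v := by
  have hu' : Complex.normSq u < 1 := by
    rw [Complex.normSq_eq_norm_sq]
    have : ‖u‖ < 1 := by simpa using hu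
    nlinarith [norm_nonneg u]
  have hv' : Complex.normSq v < 1 := by
    rw [Complex.normSq_eq_norm_sq]
    have : ‖v‖ < 1 := by simpa using hv
    nlinarith [norm_nonneg v]
  have h1 : ‖v - u‖ ≤ ‖1 - (starRingEnd ℂ) u * v‖ := by
    refine (pow_le_pow_iff_left₀ (norm_nonneg _) (norm_nonneg _) two_ne_zero).1 ?_
    rw [← Complex.normSq_eq_norm_sq, ← Complex.normSq_eq_norm_sq]
    have e : Complex.normSq (1 - (starRingEnd ℂ) u * v) - Complex.normSq (v - u) =
        (1 - Complex.normSq u) * (1 - Complex.normSq v) := by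
      simp only [Complex.normSq_apply, Complex.sub_re, Complex.sub_im, Complex.mul_re,
        Complex.mul_im, Complex.conj_re, Complex.conj_im, Complex.one_re, Complex.one_im]
      ring
    nlinarith [mul_pos (sub_pos.2 hu') (sub_pos.2 hv')]
  have h2 : ‖(v - u) / (1 - (starRingEnd ℂ) u * v)‖ ≤ 1 := by
    rw [norm_div]
    exact div_le_one_of_le₀ h1 (norm_nonneg _)
  have h3 := Real.log_nonpos (norm_nonneg _) h2
  unfold gD
  have h4 : 0 ≤ 1 / (2 * Real.pi) := by positivity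
  nlinarith

theorem green_nonneg (U : Set ℂ) (φ : ℂ → ℝ) : 0 ≤ greenEnergy U φ := by
  refine Real.sSup_nonneg' ⟨0, ⟨0, ⟨contDiff_const, HasCompactSupport.zero, ?_⟩, ?_⟩, le_rfl⟩
  · simp
  · simp

variable {U : Set ℂ} {a b : ℂ → ℂ}

/-- change of variables in the product -/
theorem prod_conf {Ω Ω' : Set ℂ} {f g : ℂ → ℂ} (h : CI.Conf Ω Ω' f g) (F : ℂ × ℂ → ℝ) :
    (IntegrableOn F (Ω' ×ˢ Ω') (volume.prod volume) ↔
      IntegrableOn (fun p : ℂ × ℂ => (‖deriv f p.1‖ ^ 2 * ‖deriv f p.2‖ ^ 2) * F (f p.1, f p.2))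
        (Ω ×ˢ Ω) (volume.prod volume)) ∧
    ∫ p in Ω' ×ˢ Ω', F p ∂(volume.prod volume) =
      ∫ p in Ω ×ˢ Ω, (‖deriv f p.1‖ ^ 2 * ‖deriv f p.2‖ ^ 2) * F (f p.1, f p.2)
        ∂(volume.prod volume) := by
  have hm : MeasurableSet (Ω ×ˢ Ω) := h.ho.measurableSet.prod h.ho.measurableSet
  have hd : ∀ p ∈ Ω ×ˢ Ω, HasFDerivWithinAt (Prod.map f f)
      ((CI.mulc (deriv f p.1)).prodMap (CI.mulc (deriv f p.2))) (Ω ×ˢ Ω) p := fun p hp =>
    (HasFDerivAt.prodMap p (h.hasFDerivAt hp.1) (h.hasFDerivAt hp.2)).hasFDerivWithinAt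
  have hi : InjOn (Prod.map f f) (Ω ×ˢ Ω) := h.injOn.prodMap h.injOn
  have him : Prod.map f f '' (Ω ×ˢ Ω) = Ω' ×ˢ Ω' := by rw [prodMap_image_prod, h.image]
  have hdet : ∀ p : ℂ × ℂ, |((CI.mulc (deriv f p.1)).prodMap (CI.mulc (deriv f p.2))).det| =
      ‖deriv f p.1‖ ^ 2 * ‖deriv f p.2‖ ^ 2 := by
    intro p
    have e : ((CI.mulc (deriv f p.1)).prodMap (CI.mulc (deriv f p.2))).det =
        (CI.mulc (deriv f p.1)).det * (CI.mulc (deriv f p.2)).det :=
      LinearMap.det_prodMap (CI.mulc (deriv f p.1) : ℂ →ₗ[ℝ] ℂ) (CI.mulc (deriv f p.2) : ℂ →ₗ[ℝ] ℂ)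
    rw [e]
    unfold CI.mulc
    rw [CI.det_mul, CI.det_mul, abs_of_nonneg (by positivity)]
  have h1 := integrableOn_image_iff_integrableOn_abs_det_fderiv_smul
    ((volume : Measure ℂ).prod (volume : Measure ℂ)) hm hd hi F
  have h2 := integral_image_eq_integral_abs_det_fderiv_smul
    ((volume : Measure ℂ).prod (volume : Measure ℂ)) hm hd hi F
  rw [him] at h1 h2
  simp only [hdet, smul_eq_mul] at h1 h2
  exact ⟨h1, h2⟩

/-- test functions of the domain -/
theorem test_case (h0 : GR0) (h : CI.Conf U DD a b) {ψ : ℂ → ℝ} (hψ : IsTest U ψ) :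
    IntegrableOn (fun p : ℂ × ℂ => ψ p.1 * ψ p.2 * gD (a p.1) (a p.2)) (U ×ˢ U)
      (volume.prod volume) ∧
    greenEnergy U ψ =
      ∫ p in U ×ˢ U, ψ p.1 * ψ p.2 * gD (a p.1) (a p.2) ∂(volume.prod volume) := by
  have h' := h.symm
  obtain ⟨a1, a2⟩ := h0 _ (CI.isTest_pullD' h' hψ)
  obtain ⟨b1, b2⟩ := prod_conf h' fun p : ℂ × ℂ => ψ p.1 * ψ p.2 * gD (a p.1) (a p.2)
  have hm : MeasurableSet (DD ×ˢ DD) := measurableSet_ball.prod measurableSet_ball
  have e : EqOn (fun p : ℂ × ℂ => (‖deriv b p.1‖ ^ 2 * ‖deriv b p.2‖ ^ 2) *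
      (ψ (b p.1) * ψ (b p.2) * gD (a (b p.1)) (a (b p.2))))
      (fun p : ℂ × ℂ => CI.pullD DD b ψ p.1 * CI.pullD DD b ψ p.2 * gD p.1 p.2) (DD ×ˢ DD) := by
    intro p hp
    simp only [CI.pullD, if_pos hp.1, if_pos hp.2, h.fg _ hp.1, h.fg _ hp.2]
    ring
  refine ⟨b1.2 (a1.integrableOn.congr_fun e.symm hm), ?_⟩
  have e1 : {z | z ∈ DD ∧ b z ∈ U} = DD := by
    ext z
    exact ⟨fun hz => hz.1, fun hz => ⟨hz, h.mg hz⟩⟩
  rw [CI.green_conf h' (subset_refl U) ψ, e1, a2, b2, setIntegral_congr_fun hm e]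
  refine (setIntegral_eq_integral_of_forall_compl_eq_zero fun p hp => ?_).symm
  by_cases h1 : p.1 ∈ DD
  · have h2 : p.2 ∉ DD := fun h2 => hp ⟨h1, h2⟩
    simp only [CI.pullD, if_neg h2, mul_zero, zero_mul]
  · simp only [CI.pullD, if_neg h1, zero_mul]

theorem bmf_test {V : Set ℂ} {φ : ℂ → ℝ} (h : IsTest V φ) : BMf φ := by
  obtain ⟨C, hC⟩ := h.1.continuous.bounded_above_of_compact_support h.2.1
  exact ⟨h.1.continuous.measurable, C, hC⟩

theorem test_mul {ζ φ : ℂ → ℝ} (hζ : IsTest U ζ) (hφ : IsTest univ φ) :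
    IsTest U fun z => ζ z * φ z :=
  ⟨hζ.1.mul hφ.1, hζ.2.1.mul_right, (tsupport_mul_subset_left).trans hζ.2.2⟩

theorem integrable_gD (h0 : GR0) (hE : EN) (hb : Bornology.IsBounded U) (h : CI.Conf U DD a b) :
    IntegrableOn (fun p : ℂ × ℂ => gD (a p.1) (a p.2)) (U ×ˢ U) (volume.prod volume) := by
  obtain ⟨ζ, hζ, hζ1, hζ2⟩ := hE.2.2 U h.ho
  obtain ⟨C, hC0, hC⟩ := hE.2.1 U hb
  have hm : MeasurableSet (U ×ˢ U) := h.ho.measurableSet.prod h.ho.measurableSet
  have hfin : volume U ≠ ⊤ := hb.measure_lt_top.ne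
  obtain ⟨K, hK⟩ : ∃ K : ℝ, ∀ n, greenEnergy U (ζ n) ≤ K := by
    refine ⟨(√(greenEnergy U fun _ => 0) + C * √(volume.real U)) ^ 2, fun n => ?_⟩
    have h1 := hC U h.ho subset_rfl (ζ n) (fun _ => 0) (bmf_test (hζ n))
      ⟨measurable_const, 0, fun _ => by simp⟩
    have h2 : ∫ z in U, (ζ n z - 0) ^ 2 ≤ volume.real U := by
      have := norm_setIntegral_le_of_norm_le_const (μ := volume) (s := U)
        (f := fun z => (ζ n z - 0) ^ 2) (C := 1) hfin.lt_top fun z _ => by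
          rw [sub_zero, Real.norm_eq_abs, abs_of_nonneg (sq_nonneg _)]
          nlinarith [hζ1 n z]
      rw [one_mul] at this
      exact (le_abs_self _).trans this
    have h3 : C * √(∫ z in U, (ζ n z - 0) ^ 2) ≤ C * √(volume.real U) :=
      mul_le_mul_of_nonneg_left (Real.sqrt_le_sqrt h2) hC0
    rw [← Real.sq_sqrt (green_nonneg U (ζ n))]
    refine pow_le_pow_left₀ (Real.sqrt_nonneg _) ?_ 2
    linarith [(abs_le.1 h1).2]
  have hlim : ∀ᵐ p ∂((volume.prod volume).restrict (U ×ˢ U) : Measure (ℂ × ℂ)),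
      Tendsto (fun n => ζ n p.1 * ζ n p.2 * gD (a p.1) (a p.2)) atTop
        (𝓝 (gD (a p.1) (a p.2))) := by
    refine (ae_restrict_mem hm).mono fun p hp => tendsto_const_nhds.congr' ?_
    filter_upwards [hζ2 p.1 hp.1, hζ2 p.2 hp.2] with n h1 h2
    rw [h1, h2, one_mul, one_mul]
  have hI := fun n => test_case h0 h (hζ n)
  refine ⟨aestronglyMeasurable_of_tendsto_ae _ (fun n => (hI n).1.1) hlim, ?_⟩
  have h1 : ∫⁻ p in U ×ˢ U, ‖gD (a p.1) (a p.2)‖ₑ ∂(volume.prod volume) ≤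
      liminf (fun n => ∫⁻ p in U ×ˢ U, ‖ζ n p.1 * ζ n p.2 * gD (a p.1) (a p.2)‖ₑ
        ∂(volume.prod volume)) atTop := by
    refine le_trans (le_of_eq (lintegral_congr_ae ?_))
      (lintegral_liminf_le' fun n => (hI n).1.1.aemeasurable.enorm)
    filter_upwards [hlim] with p hp
    exact hp.enorm.liminf_eq.symm
  refine lt_of_le_of_lt h1 (lt_of_le_of_lt (b := ENNReal.ofReal K) ?_ ENNReal.ofReal_lt_top)
  refine liminf_le_of_frequently_le' (Frequently.of_forall fun n => ?_)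
  have h2 : 0 ≤ᵐ[((volume.prod volume).restrict (U ×ˢ U) : Measure (ℂ × ℂ))]
      fun p => ζ n p.1 * ζ n p.2 * gD (a p.1) (a p.2) :=
    (ae_restrict_mem hm).mono fun p hp =>
      mul_nonneg (mul_nonneg (hζ1 n _).1 (hζ1 n _).1) (gD_nonneg (h.mf hp.1) (h.mf hp.2))
  rw [← ofReal_integral_norm_eq_lintegral_enorm (hI n).1]
  refine ENNReal.ofReal_le_ofReal (le_trans (le_of_eq ?_) (hK n))
  rw [(hI n).2]
  refine integral_congr_ae (h2.mono fun p hp => ?_)
  exact Real.norm_of_nonneg hp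

theorem main (h0 : GR0) (hE : EN) (hb : Bornology.IsBounded U) (h : CI.Conf U DD a b)
    {φ : ℂ → ℝ} (hφ : IsTest univ φ) : greenEnergy U φ =
      ∫ p in U ×ˢ U, φ p.1 * φ p.2 * gD (a p.1) (a p.2) ∂(volume.prod volume) := by
  obtain ⟨ζ, hζ, hζ1, hζ2⟩ := hE.2.2 U h.ho
  obtain ⟨C, hC0, hC⟩ := hE.2.1 U hb
  obtain ⟨hφm, M, hM⟩ := bmf_test hφ
  have hM0 : 0 ≤ M := (abs_nonneg _).trans (hM 0)
  have hm : MeasurableSet (U ×ˢ U) := h.ho.measurableSet.prod h.ho.measurableSet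
  have hfin : IsFiniteMeasure (volume.restrict U) :=
    isFiniteMeasure_restrict.2 hb.measure_lt_top.ne
  have hI := fun n => test_case h0 h (test_mul (hζ n) hφ)
  have hle : ∀ n z, |ζ n z * φ z| ≤ M := fun n z => by
    rw [abs_mul, abs_of_nonneg (hζ1 n z).1]
    nlinarith [hζ1 n z, hM z, abs_nonneg (φ z)]
  have l1 : Tendsto (fun n => greenEnergy U fun z => ζ n z * φ z) atTop
      (𝓝 (∫ p in U ×ˢ U, φ p.1 * φ p.2 * gD (a p.1) (a p.2) ∂(volume.prod volume))) := by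
    simp only [fun n => (hI n).2]
    refine tendsto_integral_of_dominated_convergence (fun p => M * M * ‖gD (a p.1) (a p.2)‖)
      (fun n => (hI n).1.1) ((integrable_gD h0 hE hb h).norm.const_mul _)
      (fun n => Eventually.of_forall fun p => ?_) ?_
    · rw [norm_mul, norm_mul]
      exact mul_le_mul_of_nonneg_right
        (mul_le_mul (hle n _) (hle n _) (norm_nonneg _) hM0) (norm_nonneg _)
    · refine (ae_restrict_mem hm).mono fun p hp => tendsto_const_nhds.congr' ?_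
      filter_upwards [hζ2 p.1 hp.1, hζ2 p.2 hp.2] with n h1 h2
      rw [h1, h2, one_mul, one_mul]
  have l2 : Tendsto (fun n => ∫ z in U, (ζ n z * φ z - φ z) ^ 2) atTop (𝓝 0) := by
    have := tendsto_integral_of_dominated_convergence (μ := volume.restrict U)
      (F := fun n z => (ζ n z * φ z - φ z) ^ 2) (f := fun _ => 0) (fun _ => (M + M) ^ 2)
      (fun n => ((((hζ n).1.continuous.mul hφ.1.continuous).sub
        hφ.1.continuous).pow 2).aestronglyMeasurable) (integrable_const _)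
      (fun n => Eventually.of_forall fun z => by
        rw [norm_pow]
        refine pow_le_pow_left₀ (norm_nonneg _) ((norm_sub_le _ _).trans ?_) 2
        exact add_le_add (hle n z) (hM z))
      ((ae_restrict_mem h.ho.measurableSet).mono fun z hz => tendsto_const_nhds.congr' (by
        filter_upwards [hζ2 z hz] with n h1
        rw [h1, one_mul, sub_self]
        norm_num))
    simpa using this
  have l3 : Tendsto (fun n => √(greenEnergy U fun z => ζ n z * φ z)) atTop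
      (𝓝 (√(greenEnergy U φ))) := by
    rw [tendsto_iff_dist_tendsto_zero]
    have l4 := (l2.sqrt).const_mul C
    rw [Real.sqrt_zero, mul_zero] at l4
    exact squeeze_zero (fun n => dist_nonneg) (fun n => hC U h.ho subset_rfl _ φ
      (bmf_test (test_mul (hζ n) hφ)) ⟨hφm, M, hM⟩) l4
  have l5 := l3.pow 2
  simp only [Real.sq_sqrt (green_nonneg U _)] at l5
  exact tendsto_nhds_unique l5 l1

end G1

/-- **GR1** -/
theorem gr1_of (h0 : GR0) (hE : EN) : GR1 := fun _ _ _ hb h =>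
  ⟨G1.integrable_gD h0 hE hb h, fun _ hφ => G1.main h0 hE hb h hφ⟩

end Vale.Agent.P155.Tree
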