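import Vale.Agent.P155Z.GR0.Disc
import Vale.Agent.P155Z.GR1

/-!
# P155: the Green energy as a double integral
-/

namespace Vale.Agent.P155.Tree

theorem gr1 : GR1 := gr1_of gr0 en

end Vale.Agent.P155.Tree
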