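import Vale.Agent.P155Z.Defs
import Vale.Agent.P164.Bdl.B1
import Vale.Agent.P155.U.Iface

/-!
# P155, branching SLE₄(-2): internal definitions and the statements of the blocks
-/

namespace Vale.Agent.P155.Tree

open MeasureTheory Filter Topology ProbabilityTheory Set TopologicalSpace Metric Vale.Agent.P155
  Vale.Agent.P155.Q1 Vale.Agent.P164 Vale.Agent.P155.Uq

/-! ## A. Brownian motion on dyadic grids -/

/-- `X / 2` is a Brownian motion for the (complete) filtration `F`, all paths are continuous. -/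
structure BSys {Θ : Type} [m : MeasurableSpace Θ] (P : Measure Θ) where
  F : Filtration ℝ m
  X : Θ → ℝ → ℝ
  prob : IsProbabilityMeasure P
  cont : ∀ ω, Continuous (X ω)
  zero : ∀ ω t, t ≤ 0 → X ω t = 0
  ad : ∀ t, Measurable[F t] (fun ω => X ω t)
  null : ∀ t N, MeasurableSet N → P N = 0 → MeasurableSet[F t] N
  law : ∀ s t, 0 ≤ s → s ≤ t →
    HasLaw (fun ω => X ω t - X ω s) (gaussianReal 0 (4 * (t - s)).toNNReal) P
  indep : ∀ s t, 0 ≤ s → s ≤ t →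
    Indep (F s) (MeasurableSpace.comap (fun ω => X ω t - X ω s) inferInstance) P

/-- ... together with the force point. -/
structure Sys {Θ : Type} [m : MeasurableSpace Θ] (P : Measure Θ) extends BSys P where
  O : Θ → ℝ → ℝ
  contO : ∀ ω, Continuous (O ω)
  zeroO : ∀ ω t, t ≤ 0 → O ω t = 0
  adO : ∀ t, Measurable[F t] (fun ω => O ω t)
  e : ℕ → ℝ
  epos : ∀ k, 0 < e k
  elim : Tendsto e atTop (𝓝 0)
  conv : ∀ᵐ ω ∂P, ∀ T : ℝ,
    TendstoUniformlyOn (fun k t => -pv (X ω) (e k) t) (O ω) atTop (Icc 0 T)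

/-- the driving function -/
def Sys.W {Θ : Type} [MeasurableSpace Θ] {P : Measure Θ} (S : Sys P) (ω : Θ) : ℝ → ℝ :=
  S.O ω + S.X ω

/-- the dyadic times -/
noncomputable def tt (n i : ℕ) : ℝ := (i : ℝ) / 2 ^ n

/-- the increments along the dyadic grid -/
noncomputable def dx (x : ℝ → ℝ) (n i : ℕ) : ℝ := x (tt n (i + 1)) - x (tt n i)

/-- the Riemann sums of an array `θ` up to the integer time `T` -/
noncomputable def RS {Θ : Type} (X : Θ → ℝ → ℝ) (θ : ℕ → ℕ → Θ → ℂ) (T n : ℕ) (ω : Θ) : ℂ :=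
  ∑ i ∈ Finset.range (T * 2 ^ n), θ n i ω * (dx (X ω) n i : ℂ)

/-- bounded adapted arrays -/
structure Arr {Θ : Type} [MeasurableSpace Θ] {P : Measure Θ} (S : BSys P)
    (θ : ℕ → ℕ → Θ → ℂ) : Prop where
  ad : ∀ n i, Measurable[S.F (tt n i)] (θ n i)
  bdd : ∃ K : ℝ, ∀ n i ω, ‖θ n i ω‖ ≤ K

/-- **BMX**: Brownian motion exists (copy from `P149/Bdl/B1.lean`, lines 3255-3855). -/
def BMX : Prop := ∃ (Θ : Type) (_ : MeasurableSpace Θ) (P : Measure Θ) (B : NNReal → Θ → ℝ),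
  IsProbabilityMeasure P ∧ IsBrownianReal B P

/-- **BSY**: a good version of a Brownian motion. -/
def BSY : Prop := ∀ (Θ : Type) (_ : MeasurableSpace Θ) (P : Measure Θ) (X : Θ → ℝ → ℝ),
  IsProbabilityMeasure P → IsBrownianReal (fun (t : NNReal) ω => X ω t / 2) P →
  ∃ S : BSys P, ∀ᵐ ω ∂P, ∀ t, 0 ≤ t → S.X ω t = X ω t

/-- **SI**: moments of the Riemann sums and of their limits in probability. -/
def SI : Prop := ∀ (Θ : Type) (_ : MeasurableSpace Θ) (P : Measure Θ) (S : BSys P)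
  (θ : ℕ → ℕ → Θ → ℂ), Arr S θ → ∀ T : ℕ,
  (∀ n, Measurable (RS S.X θ T n) ∧ MemLp (RS S.X θ T n) 2 P ∧
    ∫ ω, ‖RS S.X θ T n ω‖ ^ 2 ∂P =
      ∫ ω, 4 / 2 ^ n * ∑ i ∈ Finset.range (T * 2 ^ n), ‖θ n i ω‖ ^ 2 ∂P) ∧
  ∀ I : Θ → ℂ, TendstoInMeasure P (RS S.X θ T) atTop I →
    (MemLp I 2 P ∧ ∫ ω, I ω ∂P = 0) ∧
    (∀ r : Θ → ℝ, (∀ᵐ ω ∂P, Tendsto (fun n => 4 / 2 ^ n *
        ∑ i ∈ Finset.range (T * 2 ^ n), ‖θ n i ω‖ ^ 2) atTop (𝓝 (r ω))) →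
      Integrable r P ∧ ∫ ω, ‖I ω‖ ^ 2 ∂P ≤ ∫ ω, r ω ∂P) ∧
    ∀ q : Θ → ℂ, (∀ᵐ ω ∂P, Tendsto (fun n => 4 / 2 ^ n *
        ∑ i ∈ Finset.range (T * 2 ^ n), θ n i ω ^ 2) atTop (𝓝 (q ω))) →
      Integrable (fun ω => Complex.exp (I ω - q ω / 2)) P ∧
        ∫ ω, Complex.exp (I ω - q ω / 2) ∂P = 1

/-- the quadratic variation along the dyadic grid is `4 t` -/
def HasQV (x : ℝ → ℝ) : Prop := ∀ t, 0 ≤ t →
  Tendsto (fun n => ∑ i ∈ Finset.range ⌊t * 2 ^ n⌋₊, dx x n i ^ 2) atTop (𝓝 (4 * t))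

/-- **PATH**: almost sure properties of the paths. -/
def PATH : Prop := ∀ (Θ : Type) (_ : MeasurableSpace Θ) (P : Measure Θ) (S : BSys P),
  ∀ᵐ ω ∂P, HasQV (S.X ω) ∧ volume {s | 0 ≤ s ∧ S.X ω s = 0} = 0 ∧ ∀ t, ∃ s, t ≤ s ∧ S.X ω s = 0

/-- **RIE**: Riemann sums of bounded functions which are left continuous almost everywhere. -/
def RIE : Prop := ∀ (c : ℝ → ℂ) (K : ℝ) (T : ℕ), (∀ s, ‖c s‖ ≤ K) →
  (∀ᵐ s ∂(volume.restrict (Icc (0 : ℝ) T)),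
    Tendsto (fun n => c (tt n ⌊s * 2 ^ n⌋₊)) atTop (𝓝 (c s))) →
  IntegrableOn c (Icc (0 : ℝ) T) ∧
  Tendsto (fun n => 1 / 2 ^ n * ∑ i ∈ Finset.range (T * 2 ^ n), c (tt n i)) atTop
    (𝓝 (∫ s in (0 : ℝ)..T, c s))

/-- **FOL2**: the pathwise Ito formula for a `C²` function. -/
def FOL2 : Prop := ∀ x : ℝ → ℝ, Continuous x → HasQV x → ∀ (ρ : ℝ) (m : ℕ → ℕ), 0 ≤ ρ →
  Tendsto (fun n => tt n (m n)) atTop (𝓝 ρ) → ∀ F : ℝ → ℝ, ContDiff ℝ 2 F →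
  Tendsto (fun n => ∑ i ∈ Finset.range (m n), deriv F (x (tt n i)) * dx x n i) atTop
    (𝓝 (F (x ρ) - F (x 0) - 2 * ∫ s in (0 : ℝ)..ρ, deriv (deriv F) (x s)))

/-- **FOLL**: the pathwise Ito formula for `log (y - x)`, `y` Lipschitz. -/
def FOLL : Prop := ∀ x : ℝ → ℝ, Continuous x → HasQV x → ∀ (ρ ρ' : ℝ) (m : ℕ → ℕ), 0 ≤ ρ →
  ρ < ρ' → Tendsto (fun n => tt n (m n)) atTop (𝓝 ρ) → ∀ (y v : ℝ → ℂ) (K : ℝ),
  Measurable v → (∀ s ∈ Icc 0 ρ', ‖v s‖ ≤ K) →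
  (∀ s ∈ Icc 0 ρ', y s = y 0 + ∫ u in (0 : ℝ)..s, v u) → (∀ s ∈ Icc 0 ρ', 0 < (y s).im) →
  Tendsto (fun n => ∑ i ∈ Finset.range (m n), (y (tt n i) - x (tt n i))⁻¹ * (dx x n i : ℂ)) atTop
    (𝓝 (Complex.log (y 0 - x 0) - Complex.log (y ρ - x ρ) +
      ∫ s in (0 : ℝ)..ρ, (v s / (y s - x s) - 2 / (y s - x s) ^ 2)))

/-- **PVM**: time integrals along the path are adapted. -/
def PVM : Prop := ∀ (Θ : Type) (_ : MeasurableSpace Θ) (P : Measure Θ) (S : BSys P) (f : ℝ → ℝ),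
  Measurable f → (∃ C, ∀ y, |f y| ≤ C) →
  (∀ ω, Continuous fun t => ∫ s in (0 : ℝ)..t, f (S.X ω s)) ∧
    ∀ t, 0 ≤ t → Measurable[S.F t] (fun ω => ∫ s in (0 : ℝ)..t, f (S.X ω s))

/-- **PVX**: existence of the principal value. -/
def PVX : Prop := ∀ (Θ : Type) (_ : MeasurableSpace Θ) (P : Measure Θ) (S : BSys P),
  ∃ S' : Sys P, S'.toBSys = S ∧ ∀ t, 0 ≤ t →
    TendstoInMeasure P (fun ε ω => -pv (S.X ω) ε t) (𝓝[>] 0) (fun ω => S'.O ω t)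

/-- **SETUP**: SLE₄(-2) processes exist, and have good versions. -/
def SETUP : Prop :=
  (∃ (Θ : Type) (_ : MeasurableSpace Θ) (P : Measure Θ) (S : Sys P), IsDriver P S.X S.O) ∧
  ∀ (Θ : Type) (_ : MeasurableSpace Θ) (P : Measure Θ) (X O : Θ → ℝ → ℝ), IsDriver P X O →
    ∃ S : Sys P, ∀ᵐ ω ∂P, ∀ t, 0 ≤ t → S.X ω t = X ω t ∧ S.O ω t = O ω t

/-! ## B. One point -/

/-- `log ((g - W) / (g - O))` -/
noncomputable def NN (x o : ℝ → ℝ) (w : ℂ) (t : ℝ) : ℂ :=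
  Complex.log (Zf (o + x) w t) - Complex.log (Zf (o + x) w t + (x t : ℂ))

open Classical in
/-- the type of a point: the limit of `hh` if it is `1` or `-1`, else `0` -/
noncomputable def typ (x o : ℝ → ℝ) (w : ℂ) : ℝ :=
  if Tendsto (fun t : life (o + x) w => hh x o w t) atTop (𝓝 1) then 1
  else if Tendsto (fun t : life (o + x) w => hh x o w t) atTop (𝓝 (-1)) then -1 else 0

/-- **MEAS**: the state of the flow is adapted, jointly in the point. -/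
def MEAS : Prop := ∀ (Θ : Type) (_ : MeasurableSpace Θ) (W : Θ → ℝ → ℝ) (s : ℝ), 0 ≤ s →
  (∀ ω, Continuous (W ω)) → (∀ u ∈ Icc 0 s, Measurable (fun ω => W ω u)) →
  MeasurableSet {p : Θ × ℂ | p.2 ∈ loewnerDomain (W p.1) s} ∧
    Measurable (fun p : Θ × ℂ => Zf (W p.1) p.2 s) ∧
    Measurable ({p : Θ × ℂ | p.2 ∈ loewnerDomain (W p.1) s}.indicator
      fun p => Uf (W p.1) p.2 s)

/-- decreasing adapted families of events on which `w` is alive, at height at least `η` -/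
structure Stp {Θ : Type} [MeasurableSpace Θ] {P : Measure Θ} (S : Sys P) (w : ℂ) (η : ℝ)
    (E : ℝ → Set Θ) : Prop where
  ad : ∀ s, 0 ≤ s → MeasurableSet[S.F s] (E s)
  anti : ∀ s t, 0 ≤ s → s ≤ t → E t ⊆ E s
  good : ∀ s, 0 ≤ s → ∀ ω ∈ E s, w ∈ loewnerDomain (S.W ω) s ∧ η ≤ (Zf (S.W ω) w s).im

/-- the last time before `T` in `E` -/
noncomputable def last {Θ : Type} (E : ℝ → Set Θ) (T : ℝ) (ω : Θ) : ℝ :=
  sSup {s | s ∈ Icc 0 T ∧ ω ∈ E s}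

/-- the array `1_E / Z` -/
noncomputable def arr {Θ : Type} [MeasurableSpace Θ] {P : Measure Θ} (S : Sys P) (w : ℂ)
    (E : ℝ → Set Θ) (n i : ℕ) : Θ → ℂ :=
  (E (tt n i)).indicator fun ω => (Zf (S.W ω) w (tt n i))⁻¹

/-- **STP**: the stopped state is measurable; Riemann sums up to the stopping time. -/
def STP : Prop := ∀ (Θ : Type) (_ : MeasurableSpace Θ) (P : Measure Θ) (S : Sys P) (w : ℂ)
  (η : ℝ) (E : ℝ → Set Θ), w ∈ HH → 0 < η → Stp S w η E →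
  (∀ T : ℝ, 0 ≤ T → (∀ ω, last E T ω ∈ life (S.W ω) w ∧ last E T ω ≤ T ∧
      (∀ s, 0 ≤ s → s < last E T ω → ω ∈ E s) ∧ ∀ s ∈ Icc 0 T, ω ∈ E s → s ≤ last E T ω) ∧
    Measurable[S.F T] (last E T) ∧
    Measurable[S.F T] (fun ω => NN (S.X ω) (S.O ω) w (last E T ω)) ∧
    Measurable[S.F T] (fun ω => Uf (S.W ω) w (last E T ω))) ∧
  ∀ (T : ℕ) (Φ : ℂ → ℂ), ContinuousOn Φ HH → ∀ ω,
    Tendsto (fun n => 1 / 2 ^ n * ∑ i ∈ Finset.range (T * 2 ^ n),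
      (E (tt n i)).indicator (fun ω => Φ (Zf (S.W ω) w (tt n i))) ω) atTop
      (𝓝 (∫ s in (0 : ℝ)..last E T ω, Φ (Zf (S.W ω) w s)))

/-- **ITO**: `d NN = - dX / Z`. -/
def ITO : Prop := ∀ (Θ : Type) (_ : MeasurableSpace Θ) (P : Measure Θ) (S : Sys P) (w : ℂ)
  (η : ℝ) (E : ℝ → Set Θ), w ∈ HH → 0 < η → Stp S w η E → ∀ T : ℕ,
  Arr S.toBSys (arr S w E) ∧ TendstoInMeasure P (RS S.X (arr S w E) T) atTop
    (fun ω => -NN (S.X ω) (S.O ω) w (last E T ω))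

/-- **ONE1**: the conformal radius stays bounded below, `hh` converges. -/
def ONE1 : Prop := ∀ (Θ : Type) (_ : MeasurableSpace Θ) (P : Measure Θ) (S : Sys P),
  ∀ w ∈ HH, ∀ᵐ ω ∂P, (∃ c, ∀ t ∈ life (S.W ω) w, c ≤ Uf (S.W ω) w t) ∧
    ∃ a, Tendsto (fun t : life (S.W ω) w => hh (S.X ω) (S.O ω) w t) atTop (𝓝 a)

/-- **ONE2**: the real part of `NN` does not diverge. -/
def ONE2 : Prop := ∀ (Θ : Type) (_ : MeasurableSpace Θ) (P : Measure Θ) (S : Sys P),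
  ∀ w ∈ HH, ∀ᵐ ω ∂P,
    ¬ Tendsto (fun t : life (S.W ω) w => (NN (S.X ω) (S.O ω) w t).re) atTop atTop ∧
    ¬ Tendsto (fun t : life (S.W ω) w => (NN (S.X ω) (S.O ω) w t).re) atTop atBot

/-- **ONE3**: `hh` does not almost surely tend to `0`. -/
def ONE3 : Prop := ∀ (Θ : Type) (_ : MeasurableSpace Θ) (P : Measure Θ) (S : Sys P),
  ∀ w ∈ HH, ¬ ∀ᵐ ω ∂P,
    Tendsto (fun t : life (S.W ω) w => hh (S.X ω) (S.O ω) w t) atTop (𝓝 0)

/-- **GEO0**: the life interval (deterministic). -/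
def GEO0 : Prop := ∀ W : ℝ → ℝ, Continuous W → ∀ w ∈ HH,
  (0 ∈ life W w ∧ ∀ t ∈ life W w, (∃ s ∈ life W w, t < s) ∧ ∀ s, 0 ≤ s → s ≤ t → s ∈ life W w) ∧
  (BddAbove (life W w) → Tendsto (fun t : life W w => Zf W w t) atTop (𝓝 0)) ∧
  (∀ (t η : ℝ), 0 ≤ t → 0 < η → (∀ s, 0 ≤ s → s < t → s ∈ life W w ∧ η ≤ ‖Zf W w s‖) →
    t ∈ life W w) ∧
  (∀ t, 0 ≤ t → 4 * t < w.im ^ 2 → t ∈ life W w) ∧
  ∀ t ∈ life W w, gt W t w = gf W w t

/-- **DET**: the limit of `hh` is `0`, `1` or `-1` (deterministic). -/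
def DET : Prop := ∀ (x o : ℝ → ℝ) (e : ℕ → ℝ), Continuous x → Continuous o → (∀ k, 0 < e k) →
  Tendsto e atTop (𝓝 0) →
  (∀ T : ℝ, TendstoUniformlyOn (fun k t => -pv x (e k) t) o atTop (Icc 0 T)) →
  (∀ t, ∃ s, t ≤ s ∧ x s = 0) → ∀ w ∈ HH, ∀ a : ℝ,
  Tendsto (fun t : life (o + x) w => hh x o w t) atTop (𝓝 a) →
  ¬ Tendsto (fun t : life (o + x) w => (NN x o w t).re) atTop atTop →
  ¬ Tendsto (fun t : life (o + x) w => (NN x o w t).re) atTop atBot →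
  a = 0 ∨ a = 1 ∨ a = -1

/-! ## C. Geometry and energies -/

/-- the unit disc -/
abbrev DD : Set ℂ := ball 0 1

/-- connected compact sets containing the boundary of `Ω` -/
def Carp (Ω : Set ℂ) (K : NonemptyCompacts ℂ) : Prop :=
  IsConnected (K : Set ℂ) ∧ frontier Ω ⊆ (K : Set ℂ) ∧ (K : Set ℂ) ⊆ closure Ω

/-- **TOPO**: plane topology of domains. -/
def TOPO : Prop :=
  (∀ Ω, Dom Ω → IsConnected (frontier Ω) ∧ IsPreconnected Ωᶜ ∧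
    ∀ z ∈ Ω, ∃ f g : ℂ → ℂ, CI.Conf HH Ω f g ∧ f Complex.I = z) ∧
  (∀ (Ω : Set ℂ) (f g : ℂ → ℂ), Bornology.IsBounded Ω → CI.Conf HH Ω f g → Dom Ω) ∧
  ∀ (Ω : Set ℂ) (K : NonemptyCompacts ℂ), IsOpen Ω → Bornology.IsBounded Ω → Carp Ω K →
    ∀ V, IsHole Ω K V → Dom V

/-- **GEO1**: the calm set (deterministic). -/
def GEO1 : Prop := ∀ W : ℝ → ℝ, Continuous W →
  IsOpen (calm W) ∧
  (∀ w ∈ HH, ∀ c : ℝ, (∀ t ∈ life W w, c ≤ Uf W w t) →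
    ∀ w' ∈ ball w (Real.exp c / 10), w' ∈ calm W ∧ life W w' = life W w) ∧
  (∀ w r, 0 < r → ball w r ⊆ calm W → ∀ t ∈ life W w, Real.log (r / 2) ≤ Uf W w t) ∧
  (∀ V, Comp W V → ∀ w ∈ V, ∀ w' ∈ V, life W w' = life W w) ∧
  (∀ w r w₁, w₁ ∈ ball w r → (∀ t ∈ life W w₁, ball w r ⊆ loewnerDomain W t) →
    w₁ ∈ HH → ∀ w' ∈ ball w r, w' ∈ calm W ∧ life W w' = life W w₁) ∧
  ∀ t, 0 ≤ t → ∃ b : ℂ → ℂ, CI.Conf (loewnerDomain W t) HH (fun w => gf W w t) b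

/-- good paths: almost every point is calm, `hh` converges to the type, which is locally
constant -/
structure GoodP (x o : ℝ → ℝ) : Prop where
  null : volume (HH \ calm (o + x)) = 0
  lim : ∀ w ∈ calm (o + x),
    Tendsto (fun t : life (o + x) w => hh x o w t) atTop (𝓝 (typ x o w))
  loc : ∀ w ∈ calm (o + x), ∀ᶠ w' in 𝓝 w, typ x o w' = typ x o w

/-- **GEO2**: the type is constant on the components (deterministic, Harnack). -/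
def GEO2 : Prop := ∀ x o : ℝ → ℝ, Continuous x → Continuous o →
  (∀ j, denseSeq ℂ j ∈ HH → ∃ a : ℝ, (a = 0 ∨ a = 1 ∨ a = -1) ∧
    Tendsto (fun t : life (o + x) (denseSeq ℂ j) => hh x o (denseSeq ℂ j) t) atTop (𝓝 a)) →
  ∀ w ∈ calm (o + x), Tendsto (fun t : life (o + x) w => hh x o w t) atTop (𝓝 (typ x o w)) ∧
    ∀ᶠ w' in 𝓝 w, typ x o w' = typ x o w

/-- the carpet of the exploration in `Ω` -/
noncomputable def AA (Ω : Set ℂ) (f : ℂ → ℂ) (W : ℝ → ℝ) : NonemptyCompacts ℂ :=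
  toNC (closure Ω \ f '' calm W)

/-- **GEO3**: the carpet of the exploration (deterministic). -/
def GEO3 : Prop := ∀ (Ω : Set ℂ) (f g : ℂ → ℂ) (W : ℝ → ℝ), Dom Ω → CI.Conf HH Ω f g →
  Continuous W → (AA Ω f W : Set ℂ) = closure Ω \ f '' calm W ∧
    Ω \ (AA Ω f W : Set ℂ) = f '' calm W ∧ Carp Ω (AA Ω f W) ∧
    (∀ U, IsHole Ω (AA Ω f W) U ↔ ∃ V, Comp W V ∧ U = f '' V) ∧
    (volume (HH \ calm W) = 0 → volume ((AA Ω f W : Set ℂ) ∩ Ω) = 0)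

open Classical in
/-- the type, in `Ω` -/
noncomputable def hA (Ω : Set ℂ) (g : ℂ → ℂ) (x o : ℝ → ℝ) (z : ℂ) : ℝ :=
  if z ∈ Ω then typ x o (g z) else 0

/-- **MEASA**: measurability of the carpet and of the type. -/
def MEASA : Prop := ∀ (Θ : Type) (_ : MeasurableSpace Θ) (P : Measure Θ) (S : Sys P),
  MeasurableSet {p : Θ × ℂ | p.2 ∈ calm (S.W p.1)} ∧
  Measurable (fun p : Θ × ℂ => typ (S.X p.1) (S.O p.1) p.2) ∧
  ∀ (Ω : Set ℂ) (f g : ℂ → ℂ), Dom Ω → CI.Conf HH Ω f g →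
    Measurable (fun ω => AA Ω f (S.W ω)) ∧
    Measurable (fun p : Θ × ℂ => hA Ω g (S.X p.1) (S.O p.1) p.2)

/-- **ASG**: almost every path is good. -/
def ASG : Prop := ∀ (Θ : Type) (_ : MeasurableSpace Θ) (P : Measure Θ) (S : Sys P),
  (∀ᵐ ω ∂P, GoodP (S.X ω) (S.O ω)) ∧ (∀ w ∈ HH, ∀ᵐ ω ∂P, w ∈ calm (S.W ω)) ∧
    P {ω | typ (S.X ω) (S.O ω) Complex.I ≠ 0} ≠ 0

/-- **CARA**: the kernel theorem of Caratheodory. -/
def CARA : Prop := ∀ (U : ℕ → Set ℂ) (V : Set ℂ) (z : ℂ) (a b : ℕ → ℂ → ℂ) (a' b' : ℂ → ℂ),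
  (∀ n, CI.Conf (U n) DD (a n) (b n)) → CI.Conf V DD a' b' → Bornology.IsBounded (⋃ n, U n) →
  (∀ n, b n 0 = z ∧ (deriv (b n) 0).im = 0 ∧ 0 < (deriv (b n) 0).re) →
  (b' 0 = z ∧ (deriv b' 0).im = 0 ∧ 0 < (deriv b' 0).re) →
  (∀ K, IsCompact K → K ⊆ V → ∀ᶠ n in atTop, K ⊆ U n) →
  (∀ p ∈ frontier V, ∀ ε : ℝ, 0 < ε → ∀ᶠ n in atTop, ∃ q, q ∉ U n ∧ dist q p < ε) →
  TendstoLocallyUniformlyOn b b' atTop DD ∧ TendstoLocallyUniformlyOn a a' atTop V ∧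
    ∀ w, w ∉ V → (∀ n, w ∈ U n) → Tendsto (fun n => ‖a n w‖) atTop (𝓝 1)

/-- bounded measurable functions on the plane -/
def BMf (φ : ℂ → ℝ) : Prop := Measurable φ ∧ ∃ M : ℝ, ∀ z, |φ z| ≤ M

/-- **EN**: additivity and continuity of the energy, approximation by test functions. -/
def EN : Prop :=
  (∀ (ι : Type) [Countable ι] (U : ι → Set ℂ), (∀ i, IsOpen (U i)) →
    Pairwise (Function.onFun Disjoint U) → Bornology.IsBounded (⋃ i, U i) → ∀ φ, BMf φ →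
    HasSum (fun i => greenEnergy (U i) φ) (greenEnergy (⋃ i, U i) φ)) ∧
  (∀ Ω : Set ℂ, Bornology.IsBounded Ω → ∃ C : ℝ, 0 ≤ C ∧ ∀ U, IsOpen U → U ⊆ Ω → ∀ φ ψ, BMf φ →
    BMf ψ → |√(greenEnergy U φ) - √(greenEnergy U ψ)| ≤ C * √(∫ z in U, (φ z - ψ z) ^ 2)) ∧
  ∀ U : Set ℂ, IsOpen U → ∃ ζ : ℕ → ℂ → ℝ, (∀ n, IsTest U (ζ n)) ∧
    (∀ n z, 0 ≤ ζ n z ∧ ζ n z ≤ 1) ∧ ∀ z ∈ U, ∀ᶠ n in atTop, ζ n z = 1

/-- the Green function of the disc -/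
noncomputable def gD (u v : ℂ) : ℝ :=
  -(1 / (2 * Real.pi)) * Real.log ‖(v - u) / (1 - (starRingEnd ℂ) u * v)‖

/-- **GR0**: the energy in the disc is the double integral against the Green function. -/
def GR0 : Prop := ∀ φ, IsTest DD φ →
  Integrable (fun p : ℂ × ℂ => φ p.1 * φ p.2 * gD p.1 p.2) (volume.prod volume) ∧
    greenEnergy DD φ = ∫ p : ℂ × ℂ, φ p.1 * φ p.2 * gD p.1 p.2 ∂(volume.prod volume)

/-- **GR1**: the same in every domain, for test functions of the plane. -/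
def GR1 : Prop := ∀ (U : Set ℂ) (a b : ℂ → ℂ), Bornology.IsBounded U → CI.Conf U DD a b →
  IntegrableOn (fun p : ℂ × ℂ => gD (a p.1) (a p.2)) (U ×ˢ U) (volume.prod volume) ∧
  ∀ φ, IsTest univ φ →
    greenEnergy U φ =
      ∫ p in U ×ˢ U, φ p.1 * φ p.2 * gD (a p.1) (a p.2) ∂(volume.prod volume)

/-- `∫ φ(w) Im (1 / Z_s(w)) dw` over the points which are alive at height at least `η` -/
noncomputable def th (W : ℝ → ℝ) (φ : ℂ → ℝ) (η s : ℝ) : ℝ :=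
  ∫ w in {w | w ∈ loewnerDomain W s ∧ η ≤ (Zf W w s).im}, φ w * ((Zf W w s)⁻¹).im

/-- **GRL**: the energy identity along the flow (deterministic). -/
def GRL : Prop := ∀ (Ω : Set ℂ) (f g : ℂ → ℂ), Dom Ω → CI.Conf HH Ω f g → ∀ χ, IsTest Ω χ →
  ∃ C : ℝ, ∀ W : ℝ → ℝ, Continuous W → volume (HH \ calm W) = 0 →
    (∀ η T : ℝ, 0 < η → 0 ≤ T → ∫ s in (0 : ℝ)..T, th W (CI.pullD HH f χ) η s ^ 2 ≤ C) ∧
    Tendsto (fun k : ℕ => 2 / Real.pi *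
        ∫ s in (0 : ℝ)..k, th W (CI.pullD HH f χ) (1 / ((k : ℝ) + 1)) s ^ 2) atTop
      (𝓝 (greenEnergy Ω χ - greenEnergy (f '' calm W) χ))

/-- the local set identity -/
def Loc {Θ : Type} [MeasurableSpace Θ] (P : Measure Θ) (Ω : Set ℂ) (A : Θ → NonemptyCompacts ℂ)
    (h : Θ → ℂ → ℝ) : Prop := ∀ φ, IsTest Ω φ →
  ∫ x, Complex.exp (Complex.I * cst * (∫ z, h x z * φ z : ℝ) -
      greenEnergy (Ω \ (A x : Set ℂ)) φ / 2) ∂P = Complex.exp (-greenEnergy Ω φ / 2)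

/-- **LSI**: the carpet of the exploration is a local set. -/
def LSI : Prop := ∀ (Θ : Type) (_ : MeasurableSpace Θ) (P : Measure Θ) (S : Sys P)
  (Ω : Set ℂ) (f g : ℂ → ℂ), Dom Ω → CI.Conf HH Ω f g →
  Loc P Ω (fun ω => AA Ω f (S.W ω)) (fun ω => hA Ω g (S.X ω) (S.O ω))

/-! ## D. Gluing independent copies into the holes -/

/-- the hole at the `j`-th point of the dense sequence is defined and contains `z` -/
def InH (Ω : Set ℂ) (j : ℕ) (p : NonemptyCompacts ℂ × ℂ) : Prop :=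
  Carp Ω p.1 ∧ denseSeq ℂ j ∈ Ω \ (p.1 : Set ℂ) ∧ p.2 ∈ NCLE.hole Ω p.1 (denseSeq ℂ j)

/-- measurable families of Riemann maps of the holes -/
structure Rie (Ω : Set ℂ) (a b : NonemptyCompacts ℂ → ℕ → ℂ → ℂ) : Prop where
  conf : ∀ K j, Carp Ω K → denseSeq ℂ j ∈ Ω \ (K : Set ℂ) →
    CI.Conf (NCLE.hole Ω K (denseSeq ℂ j)) DD (a K j) (b K j)
  mset : ∀ j, MeasurableSet {p | InH Ω j p}
  meas : ∀ j, Measurable ({p | InH Ω j p}.indicator fun p => a p.1 j p.2)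

/-- **RIEM** -/
def RIEM : Prop := ∀ Ω : Set ℂ, IsOpen Ω → Bornology.IsBounded Ω → ∃ a b, Rie Ω a b

/-- signed carpets in the disc, with a filtration and jointly measurable heights -/
structure Model where
  S : Type
  mS : MeasurableSpace S
  Q : Measure S
  prob : IsProbabilityMeasure Q
  F : Filtration ℕ mS
  G : ℕ → S → NonemptyCompacts ℂ
  g : ℕ → S → ℂ → ℝ
  mG : ∀ k, Measurable[F k] (G k)
  mg : ∀ k, Measurable[(F k).prod inferInstance] (fun p : S × ℂ => g k p.1 p.2)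
  zero : ∀ s, (G 0 s : Set ℂ) = sphere 0 1 ∧ ∀ z, g 0 s z = 0
  bdd : ∀ (k : ℕ) s z, |g k s z| ≤ k
  sign : ∀ᵐ s ∂Q, ∀ k, ∀ z ∈ DD \ (G (k + 1) s : Set ℂ), ∃ t : ℝ, (t = 1 ∨ t = -1) ∧
    ∀ᶠ w in 𝓝 z, g (k + 1) s w - g k s w = t
  carp : IsSignedCarpets Q DD G (fun k s φ => ∫ z, g k s z * φ z)
  gff : ∀ k φ, IsTest DD φ → ∀ Ψ : S → ℝ, Measurable[F k] Ψ → (∃ C, ∀ s, |Ψ s| ≤ C) →
    ∫ s, (Ψ s : ℂ) * Complex.exp (Complex.I * cst *
        ((∫ z, g (k + 1) s z * φ z : ℝ) - (∫ z, g k s z * φ z : ℝ)) -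
        greenEnergy (DD \ (G (k + 1) s : Set ℂ)) φ / 2) ∂Q =
      ∫ s, (Ψ s : ℂ) * Complex.exp (-greenEnergy (DD \ (G k s : Set ℂ)) φ / 2) ∂Q

attribute [instance] Model.mS Model.prob

/-- **MODEL** -/
def MODEL : Prop := (∃ Q : Measure (Sp DD), Canon DD Q) → Nonempty Model

/-- the copies: one for each index of a hole and each kind (surrounded or not) -/
abbrev Model.Cop (M : Model) : Type := ℕ × Bool → M.S

/-- the law of the copies -/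
noncomputable def Model.QQ (M : Model) : Measure M.Cop := Measure.infinitePi fun _ => M.Q

/-- the level used in a hole of kind `b` -/
def lev (k : ℕ) (b : Bool) : ℕ := if b then k - 1 else k

/-- the past of the copies -/
@[reducible] def Model.past (M : Model) (k : ℕ) : MeasurableSpace M.Cop :=
  @MeasurableSpace.pi (ℕ × Bool) (fun _ => M.S) fun i => M.F (lev k i.2)

open Classical in
/-- index and kind of the hole of `K` at `z` -/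
noncomputable def ix (Ω : Set ℂ) (K : NonemptyCompacts ℂ) (h : ℂ → ℝ) (z : ℂ) : ℕ × Bool :=
  (idx (NCLE.hole Ω K z), decide (h z ≠ 0))

open Classical in
/-- the glued carpets -/
noncomputable def glG (M : Model) (Ω : Set ℂ) (a : NonemptyCompacts ℂ → ℕ → ℂ → ℂ)
    (K : NonemptyCompacts ℂ) (h : ℂ → ℝ) (s : M.Cop) (k : ℕ) : NonemptyCompacts ℂ :=
  if k = 0 then toNC (frontier Ω) else
    toNC ((K : Set ℂ) ∪ {z | z ∈ Ω \ (K : Set ℂ) ∧ a K (ix Ω K h z).1 z ∈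
      (M.G (lev k (ix Ω K h z).2) (s (ix Ω K h z)) : Set ℂ)})

open Classical in
/-- the glued heights -/
noncomputable def glg (M : Model) (Ω : Set ℂ) (a : NonemptyCompacts ℂ → ℕ → ℂ → ℂ)
    (K : NonemptyCompacts ℂ) (h : ℂ → ℝ) (s : M.Cop) (k : ℕ) (z : ℂ) : ℝ :=
  if k ≠ 0 ∧ z ∈ Ω \ (K : Set ℂ) then
    h z + M.g (lev k (ix Ω K h z).2) (s (ix Ω K h z)) (a K (ix Ω K h z).1 z) else 0

/-- a carpet with types -/
structure Typed (Ω : Set ℂ) (K : NonemptyCompacts ℂ) (h : ℂ → ℝ) : Prop where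
  carp : Carp Ω K
  null : volume ((K : Set ℂ) ∩ Ω) = 0
  meas : Measurable h
  val : ∀ z, h z = 0 ∨ h z = 1 ∨ h z = -1
  loc : ∀ z ∈ Ω \ (K : Set ℂ), ∀ᶠ w in 𝓝 z, h w = h z

/-- **JM**: joint measurability of the glued objects, and the underlying sets. -/
def JM : Prop := ∀ (M : Model) (Ω : Set ℂ) (a b : NonemptyCompacts ℂ → ℕ → ℂ → ℂ), Dom Ω →
  Rie Ω a b →
  (∀ K h, Typed Ω K h → ∀ s k, k ≠ 0 → (glG M Ω a K h s k : Set ℂ) =
    (K : Set ℂ) ∪ {z | z ∈ Ω \ (K : Set ℂ) ∧ a K (ix Ω K h z).1 z ∈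
      (M.G (lev k (ix Ω K h z).2) (s (ix Ω K h z)) : Set ℂ)}) ∧
  ∀ (Θ : Type) (m : MeasurableSpace Θ) (A : Θ → NonemptyCompacts ℂ) (h : Θ → ℂ → ℝ),
    Measurable A → Measurable (fun p : Θ × ℂ => h p.1 p.2) → (∀ x, Typed Ω (A x) (h x)) →
    ∀ j k, j ≤ k →
      Measurable[m.prod (M.past k)] (fun y : Θ × M.Cop => glG M Ω a (A y.1) (h y.1) y.2 j) ∧
      Measurable[(m.prod (M.past k)).prod inferInstance]
        (fun p : (Θ × M.Cop) × ℂ => glg M Ω a (A p.1.1) (h p.1.1) p.1.2 j p.2)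

/-- **FIX**: the identities for a fixed carpet. -/
def FIX : Prop := ∀ (M : Model) (Ω : Set ℂ) (a b : NonemptyCompacts ℂ → ℕ → ℂ → ℂ), Dom Ω →
  Rie Ω a b → ∀ K h, Typed Ω K h → ∀ φ, IsTest Ω φ →
  (∫ s, Complex.exp (Complex.I * cst * (∫ z, glg M Ω a K h s 1 z * φ z : ℝ) -
      greenEnergy (Ω \ (glG M Ω a K h s 1 : Set ℂ)) φ / 2) ∂M.QQ =
    Complex.exp (Complex.I * cst * (∫ z, h z * φ z : ℝ) -
      greenEnergy (Ω \ (K : Set ℂ)) φ / 2)) ∧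
  ∀ k, 1 ≤ k → ∀ Ψ : M.Cop → ℝ, Measurable[M.past k] Ψ → (∃ C, ∀ s, |Ψ s| ≤ C) →
    ∫ s, (Ψ s : ℂ) * Complex.exp (Complex.I * cst *
        ((∫ z, glg M Ω a K h s (k + 1) z * φ z : ℝ) - (∫ z, glg M Ω a K h s k z * φ z : ℝ)) -
        greenEnergy (Ω \ (glG M Ω a K h s (k + 1) : Set ℂ)) φ / 2) ∂M.QQ =
      ∫ s, (Ψ s : ℂ) *
        Complex.exp (-greenEnergy (Ω \ (glG M Ω a K h s k : Set ℂ)) φ / 2) ∂M.QQ

/-- **GLUE**: the glued objects are signed carpets. -/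
def GLUE : Prop := ∀ (M : Model) (Ω : Set ℂ) (a b : NonemptyCompacts ℂ → ℕ → ℂ → ℂ), Dom Ω →
  Rie Ω a b → ∀ (Θ : Type) (_ : MeasurableSpace Θ) (P : Measure Θ)
    (A : Θ → NonemptyCompacts ℂ) (h : Θ → ℂ → ℝ), IsProbabilityMeasure P → Measurable A →
    Measurable (fun p : Θ × ℂ => h p.1 p.2) → (∀ x, Typed Ω (A x) (h x)) → Loc P Ω A h →
  IsSignedCarpets (P.prod M.QQ) Ω (fun k y => glG M Ω a (A y.1) (h y.1) y.2 k)
    (fun k y φ => ∫ z, glg M Ω a (A y.1) (h y.1) y.2 k z * φ z)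

/-- **UL** (from the starting files): the loops are a function of the carpets. -/
def UL : Prop := ∀ Ω, Dom Ω → ∀ μ, IsNestedCLE4 Ω μ →
  ∃ C : (ℕ → NonemptyCompacts ℂ) → LoopColl, Measurable C ∧
  ∀ (Θ : Type) (_ : MeasurableSpace Θ) (P : Measure Θ) (G : ℕ → Θ → NonemptyCompacts ℂ)
    (H : ℕ → Θ → (ℂ → ℝ) → ℝ), IsProbabilityMeasure P → IsSignedCarpets P Ω G H →
    (∀ᵐ s ∂(P.map fun x k => G k x), HoleLoops Ω s (C s)) ∧ (P.map fun x k => G k x).map C = μ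

/-- **UL2** (from the starting files): the same for the images of the carpets of the disc. -/
def UL2 : Prop := ∀ (V : Set ℂ) (a b : ℂ → ℂ), Dom V → CI.Conf V DD a b →
  ∀ μ, IsNestedCLE4 V μ → ∃ C : (ℕ → NonemptyCompacts ℂ) → LoopColl, Measurable C ∧
  ∀ (Θ : Type) (_ : MeasurableSpace Θ) (P : Measure Θ) (G : ℕ → Θ → NonemptyCompacts ℂ)
    (H : ℕ → Θ → (ℂ → ℝ) → ℝ), IsProbabilityMeasure P → IsSignedCarpets P DD G H →
    (∀ᵐ x ∂P, HoleLoops V (fun k => toNC (CI.img V a (G k x))) (C fun k => G k x)) ∧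
      P.map (fun x => C fun k => G k x) = μ

/-- **HL**: the loops of the glued carpets (deterministic). -/
def HL : Prop := ∀ (M : Model) (Ω : Set ℂ) (a b : NonemptyCompacts ℂ → ℕ → ℂ → ℂ), Dom Ω →
  Rie Ω a b → ∀ K h, Typed Ω K h → ∀ (s : M.Cop) (Γ : LoopColl) (Γ' : Set ℂ → LoopColl),
  HoleLoops Ω (glG M Ω a K h s) Γ →
  (∀ z ∈ Ω \ (K : Set ℂ), HoleLoops (NCLE.hole Ω K z)
    (fun k => toNC (CI.img (NCLE.hole Ω K z) (a K (ix Ω K h z).1) (M.G k (s (ix Ω K h z)))))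
    (Γ' (NCLE.hole Ω K z))) →
  (∀ V, IsHole Ω K V → NCLE.inside Γ V = Γ' V) ∧
  (∀ V, IsHole Ω K V → (∀ z ∈ V, h z ≠ 0) → ∃ γ : PL, IsJordan γ (frontier V)) ∧
  ∀ l, (∀ V, IsHole Ω K V → ¬ NCLE.LIn l V) → Γ.mult l =
    Set.ncard {V | (IsHole Ω K V ∧ ∀ z ∈ V, h z ≠ 0) ∧
      ∃ γ : PL, IsJordan γ (frontier V) ∧ SeparationQuotient.mk γ = l}

/-! ## E. Loop collections -/

open Classical in
/-- the loops of `Γ` in the set `E` -/
noncomputable def res (E : Set Loop) (Γ : LoopColl) : LoopColl where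
  mult l := if l ∈ E then Γ.mult l else 0
  nonconst l h := Γ.nonconst l (by
    intro h0
    apply h
    simp [h0])
  fin ε hε := (Γ.fin ε hε).subset (by
    rintro l ⟨h1, h2⟩
    refine ⟨?_, h2⟩
    intro h0
    apply h1
    simp [h0])

/-- the sum of `g` over the loops of `Γ` -/
noncomputable def sm (g : Loop → ℝ) (Γ : LoopColl) : ℝ := ∑ᶠ l : Loop, (Γ.mult l : ℝ) * g l

/-- Borel functions of loops which vanish on small loops -/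
def Obs (g : Loop → ℝ) : Prop :=
  Measurable[borel Loop] g ∧ ∃ η : ℝ, 0 < η ∧ ∀ l : Loop, l.diam ≤ η → g l = 0

/-- **LM**: measure theory on the space of loop collections. -/
def LM : Prop :=
  SecondCountableTopology LoopColl ∧ T2Space LoopColl ∧
  (∀ g, Obs g → Measurable (sm g)) ∧
  (∀ E : Set Loop, MeasurableSet[borel Loop] E → Measurable (res E)) ∧
  (∀ V : Set ℂ, IsOpen V → IsOpen {l : Loop | NCLE.LIn l V} ∧
    Measurable (fun Γ => NCLE.inside Γ V)) ∧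
  ∀ μ ν : Measure LoopColl, IsProbabilityMeasure μ → IsProbabilityMeasure ν →
    (∀ g, Obs g → ∫ Γ, Complex.exp (Complex.I * sm g Γ) ∂μ =
      ∫ Γ, Complex.exp (Complex.I * sm g Γ) ∂ν) → μ = ν

/-- **GLX**: the mixture. -/
def GLX : Prop := ∀ μ : Set ℂ → Measure LoopColl, (∀ V, Dom V → IsNestedCLE4 V (μ V)) →
  ∀ Ω, Dom Ω → ∀ (Θ : Type) (_ : MeasurableSpace Θ) (P : Measure Θ)
    (A : Θ → NonemptyCompacts ℂ) (h : Θ → ℂ → ℝ), IsProbabilityMeasure P → Measurable A →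
    Measurable (fun p : Θ × ℂ => h p.1 p.2) → (∀ᵐ x ∂P, Typed Ω (A x) (h x)) → Loc P Ω A h →
  ∃ κ : Θ → Measure LoopColl, Measurable κ ∧ (∀ x, IsProbabilityMeasure (κ x)) ∧
    P.bind κ = μ Ω ∧ ∀ᵐ x ∂P, Given μ (κ x) {V | IsHole Ω (A x) V}
      {V | IsHole Ω (A x) V ∧ ∀ z ∈ V, h x z ≠ 0}

/-- **TREE**: the laws of the starting files form a tree family. -/
def TREE : Prop := ∀ μ : Set ℂ → Measure LoopColl, (∀ V, Dom V → IsNestedCLE4 V (μ V)) → IsTree μ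

/-- **UNIQ**: uniqueness of tree families. -/
def UNIQ : Prop := ∀ μ ν : Set ℂ → Measure LoopColl, IsTree μ → IsTree ν →
  ∀ Ω, Dom Ω → μ Ω = ν Ω

end Vale.Agent.P155.Tree
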