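import Vale.Agent.P155Z.Congr

/-!
# P155, branching SLE₄(-2): the laws of nested CLE₄ form a tree family
-/

namespace Vale.Agent.P155.Tree

open MeasureTheory Filter Topology ProbabilityTheory Set TopologicalSpace Metric Vale.Agent.P155
  Vale.Agent.P155.Q1 Vale.Agent.P164 Vale.Agent.P155.Uq

/-- almost sure properties of `f s` are almost sure properties for the law of `f` -/
theorem ae_map_of_std {S T : Type*} [MeasurableSpace S] [StandardBorelSpace S] [Nonempty S]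
    [MeasurableSpace T] [MeasurableEq T] {μ : Measure S} [IsProbabilityMeasure μ]
    {f : S → T} (hf : Measurable f) {P : T → Prop} (h : ∀ᵐ s ∂μ, P (f s)) :
    ∀ᵐ t ∂(μ.map f), P t := by
  set N : Set S := toMeasurable μ {s | ¬ P (f s)} with hN
  have hNm : MeasurableSet N := measurableSet_toMeasurable _ _
  have hN0 : μ N = 0 := by
    rw [hN, measure_toMeasurable]
    exact h
  have hsub : ∀ s, s ∉ N → P (f s) := by
    intro s hs
    by_contra hn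
    exact hs (subset_toMeasurable _ _ hn)
  have hcomp : (μ.map f) ⊗ₘ condDistrib (fun s => s) f μ = μ.map (fun s => (f s, s)) :=
    compProd_map_condDistrib aemeasurable_id
  have hprob : IsProbabilityMeasure (μ.map f) := Measure.isProbabilityMeasure_map hf.aemeasurable
  have hfm : Measurable (fun s => (f s, s)) := hf.prodMk measurable_id
  have hset : MeasurableSet {x : T × S | x.1 = f x.2 ∧ x.2 ∉ N} :=
    (measurableSet_eq_fun measurable_fst (hf.comp measurable_snd)).inter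
      (measurable_snd hNm).compl
  have h1 : ∀ᵐ x ∂(μ.map (fun s => (f s, s))), x.1 = f x.2 ∧ x.2 ∉ N := by
    rw [ae_map_iff hfm.aemeasurable hset]
    have h0 : ∀ᵐ s ∂μ, s ∉ N := measure_eq_zero_iff_ae_notMem.1 hN0
    filter_upwards [h0] with s hs
    exact ⟨rfl, hs⟩
  rw [← hcomp] at h1
  have h2 := Measure.ae_ae_of_ae_compProd h1
  filter_upwards [h2] with t ht
  obtain ⟨s, hs1, hs2⟩ := ht.exists
  have hs3 : t = f s := hs1
  rw [hs3]
  exact hsub s hs2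

theorem prob_of_nested {Ω : Set ℂ} {μ : Measure LoopColl} (h : IsNestedCLE4 Ω μ) :
    IsProbabilityMeasure μ := by
  obtain ⟨Θ, mΘ, P, G, ξ, Γ, hP, hΓ, rfl, -⟩ := h
  exact Measure.isProbabilityMeasure_map hΓ

theorem simple_of (hU : UL) (hLM : LM) {Ω : Set ℂ} (hΩ : Dom Ω) {μ : Measure LoopColl}
    (h : IsNestedCLE4 Ω μ) : ∀ᵐ Γ ∂μ, ∀ l, Γ.mult l ≠ 0 → ∃ (γ : PL) (U : Set ℂ), IsOpen U ∧
      U.Nonempty ∧ closure U ⊆ Ω ∧ IsJordan γ (frontier U) ∧ SeparationQuotient.mk γ = l := by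
  obtain ⟨C, hC, hall⟩ := hU Ω hΩ μ h
  obtain ⟨Θ, mΘ, P, G, ξ, Γ, hP, -, -, -, -, -, -, -, hG, -, hc⟩ := h
  obtain ⟨h1, h2⟩ := hall Θ mΘ P G _ hP hc
  have hm : Measurable (fun x k => G k x : Θ → ℕ → NonemptyCompacts ℂ) :=
    measurable_pi_lambda _ fun k => hG k
  have hp : IsProbabilityMeasure (P.map fun x k => G k x) :=
    Measure.isProbabilityMeasure_map hm.aemeasurable
  have := hLM.1
  have := hLM.2.1
  have : Nonempty (ℕ → NonemptyCompacts ℂ) := ⟨fun _ => ⟨⟨{0}, isCompact_singleton⟩, by simp⟩⟩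
  rw [← h2]
  refine ae_map_of_std hC ?_
  filter_upwards [h1] with s hs l hl
  rw [hs.mult] at hl
  obtain ⟨⟨k, U⟩, hk, hU', c, hc', hcl⟩ := nonempty_of_ncard_ne_zero hl
  dsimp only at hk hU' hc'
  have hin := hs.inside k U hk hU'
  obtain ⟨z, hz, rfl⟩ := hU'
  refine ⟨c, _, (hΩ.1.sdiff (s k).isCompact.isClosed).connectedComponentIn,
    ⟨z, mem_connectedComponentIn hz⟩, ?_, hc', hcl⟩
  rw [closure_eq_self_union_frontier]
  exact union_subset ((connectedComponentIn_subset _ _).trans sdiff_subset) hin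

/-- **TREE** -/
theorem tree_of (hS : SETUP) (hAS : ASG) (hM : MEASA) (h0 : GEO0) (h3 : GEO3) (hL : LSI)
    (hG : GLX) (hU : UL) (hLM : LM) : TREE := by
  intro μ hμ
  refine ⟨fun Ω hΩ => prob_of_nested (hμ Ω hΩ), fun Ω hΩ => simple_of hU hLM hΩ (hμ Ω hΩ), ?_⟩
  intro Ω hΩ f g hfg Θ mΘ P X O hD
  obtain ⟨S, hS'⟩ := hS.2 Θ mΘ P X O hD
  obtain ⟨hgood, -, -⟩ := hAS Θ mΘ P S
  obtain ⟨-, -, hmeas⟩ := hM Θ mΘ P S
  obtain ⟨mA, mh⟩ := hmeas Ω f g hΩ hfg
  have hW : ∀ ω, Continuous (S.W ω) := fun ω => (S.contO ω).add (S.cont ω)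
  have hgc : ContinuousOn g Ω := hfg.dg.continuousOn
  have hty : ∀ᵐ ω ∂P, Typed Ω (AA Ω f (S.W ω)) (hA Ω g (S.X ω) (S.O ω)) := by
    filter_upwards [hgood] with ω hω
    obtain ⟨-, e2, e3, -, e5⟩ := h3 Ω f g (S.W ω) hΩ hfg (hW ω)
    refine ⟨e3, e5 hω.null, mh.comp (measurable_const.prodMk measurable_id), fun z => ?_, ?_⟩
    · unfold Tree.hA
      split_ifs
      · exact typ_val _ _ _
      · exact Or.inl rfl
    · intro z hz
      have hzΩ : z ∈ Ω := hz.1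
      rw [e2] at hz
      obtain ⟨w, hw, rfl⟩ := hz
      have hgw : g (f w) = w := hfg.gf w hw.1
      have h1 : Tendsto g (𝓝 (f w)) (𝓝 w) := by
        have := hgc.continuousAt (hΩ.1.mem_nhds hzΩ)
        rwa [ContinuousAt, hgw] at this
      filter_upwards [h1.eventually (hω.loc w hw), hΩ.1.mem_nhds hzΩ] with z' hz' hz'Ω
      unfold Tree.hA
      rw [if_pos hz'Ω, if_pos hzΩ, hgw]
      exact hz'
  obtain ⟨κ, hκ, hκp, hbind, hgiv⟩ := hG μ hμ Ω hΩ Θ mΘ P (fun ω => AA Ω f (S.W ω))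
    (fun ω => Tree.hA Ω g (S.X ω) (S.O ω)) S.prob mA mh hty (hL Θ mΘ P S Ω f g hΩ hfg)
  refine ⟨κ, hκ, hκp, hbind, ?_⟩
  filter_upwards [hgiv, hgood, hS'] with ω hω hg he
  obtain ⟨-, -, -, e4, -⟩ := h3 Ω f g (S.W ω) hΩ hfg (hW ω)
  have ec : Comp (O ω + X ω) = Comp (S.W ω) := (comp_congr (add_congr he)).symm
  have es : Surr (X ω) (O ω) = Surr (S.X ω) (S.O ω) := (surr_congr he).symm
  have key : ∀ V, Comp (S.W ω) V → (Surr (S.X ω) (S.O ω) V ↔
      ∀ z ∈ f '' V, Tree.hA Ω g (S.X ω) (S.O ω) z ≠ 0) := by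
    intro V hV
    rw [surr_iff h0 (S.cont ω) (S.contO ω) hg hV, forall_mem_image]
    obtain ⟨w₀, -, rfl⟩ := hV
    refine forall₂_congr fun w hw => ?_
    have hc : w ∈ HH := (connectedComponentIn_subset _ _ hw).1
    unfold Tree.hA
    rw [if_pos (hfg.mf hc), hfg.gf w hc]
  have e1 : {U | ∃ V, Comp (O ω + X ω) V ∧ U = f '' V} = {V | IsHole Ω (AA Ω f (S.W ω)) V} := by
    ext U
    rw [ec]
    exact (e4 U).symm
  have e2 : {U | ∃ V, Comp (O ω + X ω) V ∧ Surr (X ω) (O ω) V ∧ U = f '' V} =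
      {V | IsHole Ω (AA Ω f (S.W ω)) V ∧ ∀ z ∈ V, Tree.hA Ω g (S.X ω) (S.O ω) z ≠ 0} := by
    ext U
    rw [ec, es]
    constructor
    · rintro ⟨V, hV, hs, rfl⟩
      exact ⟨(e4 _).2 ⟨V, hV, rfl⟩, (key V hV).1 hs⟩
    · rintro ⟨h1, h2⟩
      obtain ⟨V, hV, rfl⟩ := (e4 _).1 h1
      exact ⟨V, hV, (key V hV).2 h2, rfl⟩
  rw [e1, e2]
  exact hω

end Vale.Agent.P155.Tree
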